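import Vale.Agent.P021.Basic

namespace Vale.Agent.P021

/-- `1/(1-X)` -/
noncomputable def coefG : PowerSeries ℚ := PowerSeries.mk (fun _ => (1 : ℚ))

theorem coef_G : (1 - PowerSeries.X) * coefG = 1 := by
  have := PowerSeries.mk_one_mul_one_sub_eq_one ℚ
  rw [mul_comm]
  exact this

theorem coef_one_sub (n d : ℕ) :
    PowerSeries.coeff d ((1 - PowerSeries.X : PowerSeries ℚ) ^ n) = (-1) ^ d * (n.choose d : ℚ) := by
  have e : (1 - PowerSeries.X : PowerSeries ℚ) = -PowerSeries.X + 1 := by ring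
  rw [e, (Commute.all _ _).add_pow, map_sum]
  have h1 : ∀ m ∈ Finset.range (n + 1), PowerSeries.coeff d ((-PowerSeries.X : PowerSeries ℚ) ^ m *
      1 ^ (n - m) * (n.choose m : PowerSeries ℚ)) = if d = m then (-1) ^ m * (n.choose m : ℚ) else 0 := by
    intro m _
    have e2 : ((-PowerSeries.X : PowerSeries ℚ) ^ m * 1 ^ (n - m) * (n.choose m : PowerSeries ℚ)) =
        PowerSeries.C ((-1) ^ m * (n.choose m : ℚ)) * PowerSeries.X ^ m := by
      rw [one_pow, mul_one, neg_pow, map_mul, map_pow, map_neg, map_one, map_natCast]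
      ring
    rw [e2, PowerSeries.coeff_C_mul, PowerSeries.coeff_X_pow]
    rcases eq_or_ne d m with h | h
    · rw [if_pos h, if_pos h, mul_one]
    · rw [if_neg h, if_neg h, mul_zero]
  rw [Finset.sum_congr rfl h1, Finset.sum_ite_eq]
  by_cases h : d ∈ Finset.range (n + 1)
  · rw [if_pos h]
  · rw [if_neg h]
    rw [Finset.mem_range, not_lt] at h
    rw [Nat.choose_eq_zero_of_lt (by omega)]
    simp

/-- `T = 100 X / (1-X)^2` -/
noncomputable def coefT : PowerSeries ℚ := 100 * PowerSeries.X * coefG ^ 2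

theorem coef_T1 : (1 - PowerSeries.X) ^ 2 * coefT = 100 * PowerSeries.X := by
  unfold coefT
  calc (1 - PowerSeries.X) ^ 2 * (100 * PowerSeries.X * coefG ^ 2)
      = 100 * PowerSeries.X * ((1 - PowerSeries.X) * coefG) ^ 2 := by ring
    _ = _ := by rw [coef_G, one_pow, mul_one]

theorem coef_hundred : (100 : PowerSeries ℚ) = PowerSeries.C (100 : ℚ) :=
  (map_ofNat PowerSeries.C 100).symm

theorem coef_aco (K j : ℕ) :
    PowerSeries.coeff K ((1 - PowerSeries.X) ^ (2 * K) * coefT ^ j) =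
      -(10 * 100 ^ K) * aco ((j : ℤ) - ((K : ℤ) + 1)) := by
  rcases le_or_gt j K with h | h
  · obtain ⟨d, rfl⟩ : ∃ d, K = d + j := ⟨K - j, by omega⟩
    have e : (1 - PowerSeries.X) ^ (2 * (d + j)) * coefT ^ j =
        PowerSeries.C ((100 : ℚ) ^ j) * ((1 - PowerSeries.X) ^ (2 * d) * PowerSeries.X ^ j) := by
      calc (1 - PowerSeries.X) ^ (2 * (d + j)) * coefT ^ j
          = (1 - PowerSeries.X) ^ (2 * d) * ((1 - PowerSeries.X) ^ 2 * coefT) ^ j := by
            rw [mul_add, pow_add, mul_pow, ← pow_mul, mul_assoc]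
        _ = _ := by
          rw [coef_T1, mul_pow, coef_hundred, ← map_pow]
          ring
    rw [e, PowerSeries.coeff_C_mul, PowerSeries.coeff_mul_X_pow, coef_one_sub]
    unfold aco
    have h1 : ¬ (0 : ℤ) ≤ (j : ℤ) - (((d + j : ℕ) : ℤ) + 1) := by push_cast; omega
    have h2 : ((j : ℤ) - (((d + j : ℕ) : ℤ) + 1)).natAbs = d + 1 := by omega
    rw [if_neg h1, h2]
    have h3 : 2 * (d + 1) - 2 = 2 * d := by omega
    have h4 : d + 1 - 1 = d := by omega
    have h5 : 2 * (d + 1) - 1 = 2 * d + 1 := by omega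
    rw [h3, h4, h5]
    have h6 : (10 : ℚ) ^ (2 * d + 1) = 10 * 100 ^ d := by
      rw [pow_succ, pow_mul]; norm_num; ring
    rw [h6]
    field_simp
    ring
  · have h1 : (0 : ℤ) ≤ (j : ℤ) - ((K : ℤ) + 1) := by omega
    unfold aco
    rw [if_pos h1, mul_zero]
    have e : (1 - PowerSeries.X) ^ (2 * K) * coefT ^ j =
        PowerSeries.X ^ j * ((1 - PowerSeries.X) ^ (2 * K) * (100 * coefG ^ 2) ^ j) := by
      unfold coefT
      ring
    rw [e, PowerSeries.coeff_X_pow_mul', if_neg (by omega)]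

theorem coef_T2 : coefT + 25 = 25 * (1 + PowerSeries.X) ^ 2 * coefG ^ 2 := by
  have h : coefG ^ 2 * (1 - PowerSeries.X) ^ 2 = 1 := by
    rw [← mul_pow, mul_comm coefG, coef_G, one_pow]
  calc coefT + 25 = coefT + 25 * (coefG ^ 2 * (1 - PowerSeries.X) ^ 2) := by rw [h, mul_one]
    _ = _ := by unfold coefT; ring

theorem coef_T3 : coefT ^ 2 + 56 * coefT + 800 = 400 * ((PowerSeries.X ^ 2 + 2 * PowerSeries.X + 2) *
    (2 * PowerSeries.X ^ 2 + 2 * PowerSeries.X + 1)) * coefG ^ 4 := by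
  have h : coefG ^ 2 * (1 - PowerSeries.X) ^ 2 = 1 := by
    rw [← mul_pow, mul_comm coefG, coef_G, one_pow]
  calc coefT ^ 2 + 56 * coefT + 800
      = coefT ^ 2 + 56 * coefT * (coefG ^ 2 * (1 - PowerSeries.X) ^ 2) +
        800 * ((coefG ^ 2 * (1 - PowerSeries.X) ^ 2) * (coefG ^ 2 * (1 - PowerSeries.X) ^ 2)) := by
        rw [h, mul_one, mul_one, mul_one]
    _ = _ := by unfold coefT; ring

open Polynomial in
theorem coef_deg (N n : ℕ) : (fpoly N n).natDegree < 5 * N * n + 1 := by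
  have h1 : (X + C 25 : ℤ[X]).natDegree ≤ 1 := by compute_degree
  have h2 : (X ^ 2 + C 56 * X + C 800 : ℤ[X]).natDegree ≤ 2 := by compute_degree
  have h3 : ((X + C 25 : ℤ[X]) ^ (N * n)).natDegree ≤ N * n * 1 :=
    natDegree_pow_le_of_le _ h1
  have h4 : ((X ^ 2 + C 56 * X + C 800 : ℤ[X]) ^ (2 * N * n)).natDegree ≤ 2 * N * n * 2 :=
    natDegree_pow_le_of_le _ h2
  have h5 := natDegree_mul_le_of_le h3 h4
  unfold fpoly
  have e : N * n * 1 + 2 * N * n * 2 = 5 * N * n := by ring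
  rw [e] at h5
  omega

theorem AA_eq {N : ℕ} (hN : 1 ≤ N) (n : ℕ) :
    AA N n = -((1 / 10) * (100 * 4 ^ N) ^ n *
      PowerSeries.coeff ((3 * N - 1) * n) (Fser N ^ n)) := by
  set K := (3 * N - 1) * n with hK
  -- the sum as a coefficient
  have h1 : (10 * 100 ^ K : ℚ) * AA N n =
      -PowerSeries.coeff K ((1 - PowerSeries.X) ^ (2 * K) *
        ∑ j ∈ Finset.range (5 * N * n + 1), PowerSeries.C (((fpoly N n).coeff j : ℤ) : ℚ) *
          coefT ^ j) := by
    rw [Finset.mul_sum, map_sum, ← Finset.sum_neg_distrib]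
    unfold AA
    rw [Finset.mul_sum]
    refine Finset.sum_congr rfl fun j _ => ?_
    have e : (1 - PowerSeries.X) ^ (2 * K) * (PowerSeries.C (((fpoly N n).coeff j : ℤ) : ℚ) *
        coefT ^ j) = PowerSeries.C (((fpoly N n).coeff j : ℤ) : ℚ) *
        ((1 - PowerSeries.X) ^ (2 * K) * coefT ^ j) := by ring
    rw [e, PowerSeries.coeff_C_mul, coef_aco]
    have e2 : ((j : ℤ) - (CC N n : ℕ)) = (j : ℤ) - ((K : ℤ) + 1) := by
      unfold CC
      rw [← hK]
      push_cast
      ring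
    rw [e2]
    ring
  have h2 : ∑ j ∈ Finset.range (5 * N * n + 1), PowerSeries.C (((fpoly N n).coeff j : ℤ) : ℚ) *
      coefT ^ j = (coefT + 25) ^ (N * n) * (coefT ^ 2 + 56 * coefT + 800) ^ (2 * N * n) := by
    have h3 := Polynomial.eval₂_eq_sum_range' (Int.castRingHom (PowerSeries ℚ))
      (p := fpoly N n) (coef_deg N n) coefT
    have h4 : ∀ j, PowerSeries.C (((fpoly N n).coeff j : ℤ) : ℚ) * coefT ^ j =
        (Int.castRingHom (PowerSeries ℚ)) ((fpoly N n).coeff j) * coefT ^ j := fun j => by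
      rw [map_intCast, eq_intCast]
    rw [Finset.sum_congr rfl fun j _ => h4 j, ← h3]
    unfold fpoly
    simp only [Polynomial.eval₂_mul, Polynomial.eval₂_pow, Polynomial.eval₂_add,
      Polynomial.eval₂_X, Polynomial.eval₂_C]
    simp only [map_ofNat]
  have h5 : (1 - PowerSeries.X) ^ (2 * K) *
      ((coefT + 25) ^ (N * n) * (coefT ^ 2 + 56 * coefT + 800) ^ (2 * N * n)) =
      PowerSeries.C ((25 : ℚ) ^ (N * n) * 400 ^ (2 * N * n)) * Fser N ^ n := by
    rw [coef_T2, coef_T3]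
    have hG : coefG ^ (10 * (N * n)) * (1 - PowerSeries.X) ^ (2 * K) = coefG ^ ((4 * N + 2) * n) := by
      have e : 10 * (N * n) = (4 * N + 2) * n + 2 * K := by
        rw [hK]
        obtain ⟨r, rfl⟩ : ∃ r, N = r + 1 := ⟨N - 1, by omega⟩
        have : 3 * (r + 1) - 1 = 3 * r + 2 := by omega
        rw [this]
        ring
      rw [e, pow_add, mul_assoc, ← mul_pow, mul_comm coefG, coef_G, one_pow, mul_one]
    have hF : Fser N ^ n = ((PowerSeries.X ^ 2 + 2 * PowerSeries.X + 2) *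
        (2 * PowerSeries.X ^ 2 + 2 * PowerSeries.X + 1)) ^ (2 * N * n) *
        (1 + PowerSeries.X) ^ (2 * N * n) * coefG ^ ((4 * N + 2) * n) := by
      unfold Fser
      rw [mul_pow, mul_pow, ← pow_mul, ← pow_mul, ← pow_mul]
      rfl
    rw [hF, ← hG, map_mul, map_pow, map_pow]
    have e25 : (PowerSeries.C (25 : ℚ)) = 25 := map_ofNat PowerSeries.C 25
    have e400 : (PowerSeries.C (400 : ℚ)) = 400 := map_ofNat PowerSeries.C 400
    rw [e25, e400]
    have e6 : (25 * (1 + PowerSeries.X) ^ 2 * coefG ^ 2) ^ (N * n) =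
        25 ^ (N * n) * (1 + PowerSeries.X) ^ (2 * N * n) * coefG ^ (2 * (N * n)) := by
      rw [mul_pow, mul_pow, ← pow_mul, ← pow_mul]
      congr 3
      ring
    have e7 : (400 * ((PowerSeries.X ^ 2 + 2 * PowerSeries.X + 2) *
        (2 * PowerSeries.X ^ 2 + 2 * PowerSeries.X + 1)) * coefG ^ 4) ^ (2 * N * n) =
        400 ^ (2 * N * n) * ((PowerSeries.X ^ 2 + 2 * PowerSeries.X + 2) *
        (2 * PowerSeries.X ^ 2 + 2 * PowerSeries.X + 1)) ^ (2 * N * n) *
          coefG ^ (8 * (N * n)) := by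
      rw [mul_pow, mul_pow, ← pow_mul]
      congr 2
      ring
    rw [e6, e7]
    have e8 : coefG ^ (10 * (N * n)) = coefG ^ (2 * (N * n)) * coefG ^ (8 * (N * n)) := by
      rw [← pow_add]; congr 1; ring
    rw [e8]
    ring
  rw [h2, h5, PowerSeries.coeff_C_mul] at h1
  have h6 : (25 : ℚ) ^ (N * n) * 400 ^ (2 * N * n) = 100 ^ K * (100 * 4 ^ N) ^ n := by
    have e1 : (400 : ℚ) ^ (2 * N * n) = 160000 ^ (N * n) := by
      rw [mul_assoc, pow_mul]; norm_num
    have e2 : (100 : ℚ) ^ K * 100 ^ n = 1000000 ^ (N * n) := by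
      rw [← pow_add]
      have : K + n = 3 * (N * n) := by
        rw [hK]
        obtain ⟨r, rfl⟩ : ∃ r, N = r + 1 := ⟨N - 1, by omega⟩
        have : 3 * (r + 1) - 1 = 3 * r + 2 := by omega
        rw [this]
        ring
      rw [this, pow_mul]
      norm_num
    rw [e1, mul_pow, ← mul_assoc, e2, ← pow_mul, ← mul_pow, ← mul_pow]
    norm_num
  rw [h6] at h1
  have h7 : (10 * 100 ^ K : ℚ) ≠ 0 := by positivity
  apply mul_left_cancel₀ h7
  rw [h1]
  ring

end Vale.Agent.P021
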