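import Vale.Agent.P021.Basic

namespace Vale.Agent.P021

open Finset

theorem xneg_pow_sum (U V : ℂ) (h : U * V = U + V) (j : ℕ) :
    (U * V) * (U ^ (j + 1) + V ^ (j + 1)) =
      ∑ i ∈ range (j + 2), (U ^ (i + 1) + V ^ (i + 1)) + (U + V) := by
  induction j with
  | zero =>
    rw [sum_range_succ, sum_range_succ, sum_range_zero]
    linear_combination (U + V + 2) * h
  | succ j ih =>
    rw [sum_range_succ]
    have h1 : (U * V) * (U ^ (j + 1 + 1) + V ^ (j + 1 + 1)) =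
        (U ^ (j + 2 + 1) + V ^ (j + 2 + 1)) + (U * V) * (U ^ (j + 1) + V ^ (j + 1)) := by
      linear_combination (U ^ (j + 2) + V ^ (j + 2)) * h
    rw [h1, ih]
    ring

theorem xneg_expand (U V : ℂ) (h : U * V = U + V) (n : ℕ) :
    (U * V) ^ (n + 1) =
      ∑ j ∈ range (n + 1), (((2 * n - j).choose n : ℕ) : ℂ) * (U ^ (j + 1) + V ^ (j + 1)) := by
  induction n with
  | zero => simp [h]
  | succ n ih =>
    have hP : ∀ j : ℕ, (U * V) * (U ^ (j + 1) + V ^ (j + 1)) =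
      ∑ i ∈ range (j + 2), (U ^ (i + 1) + V ^ (i + 1)) + (U + V) := xneg_pow_sum U V h
    set P : ℕ → ℂ := fun j => (U * V) * (U ^ (j + 1) + V ^ (j + 1)) with hPdef
    have hP0 : P 0 = (U ^ 2 + V ^ 2) + 2 * (U + V) := by
      simp only [hPdef]
      rw [hP, sum_range_succ, sum_range_succ, sum_range_zero]
      ring
    have hPs : ∀ j, P (j + 1) = P j + (U ^ (j + 3) + V ^ (j + 3)) := by
      intro j
      simp only [hPdef]
      rw [hP, hP, sum_range_succ _ (j + 2)]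
      ring
    have key : ∀ k : ℕ, k ≤ n →
        ∑ j ∈ range (k + 1), (((2 * n - j).choose n : ℕ) : ℂ) * P j =
          (((2 * n + 1).choose (n + 1) : ℕ) : ℂ) * P 0
            + ∑ j ∈ range k, (((2 * n - j).choose (n + 1) : ℕ) : ℂ)
                * (U ^ (j + 3) + V ^ (j + 3))
            - (((2 * n - k).choose (n + 1) : ℕ) : ℂ) * P k := by
      intro k
      induction k with
      | zero =>
        intro _
        rw [sum_range_succ, sum_range_zero, sum_range_zero]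
        have : ((2 * n + 1).choose (n + 1) : ℕ) = (2 * n).choose n + (2 * n).choose (n + 1) :=
          Nat.choose_succ_succ' _ _
        rw [this]
        push_cast
        simp only [Nat.sub_zero]
        ring
      | succ k ihk =>
        intro hk
        have h1 := ihk (by omega)
        rw [sum_range_succ, h1, sum_range_succ _ k, hPs k]
        have h2 : 2 * n - k = (2 * n - (k + 1)) + 1 := by omega
        have h3 : ((2 * n - k).choose (n + 1) : ℕ) =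
            (2 * n - (k + 1)).choose n + (2 * n - (k + 1)).choose (n + 1) := by
          rw [h2]
          exact Nat.choose_succ_succ' _ _
        rw [h3]
        push_cast
        ring
    have h4 : (U * V) ^ (n + 1 + 1) =
        ∑ j ∈ range (n + 1), (((2 * n - j).choose n : ℕ) : ℂ) * P j := by
      rw [pow_succ, ih, mul_comm, mul_sum]
      refine sum_congr rfl fun j _ => ?_
      simp only [hPdef]
      ring
    have h5 : 2 * n - n = n := by omega
    rw [h4, key n le_rfl, h5, Nat.choose_succ_self, hP0, sum_range_succ' _ (n + 1),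
      sum_range_succ' _ n]
    have h6 : ((2 * (n + 1) - 0).choose (n + 1) : ℕ) = 2 * (2 * n + 1).choose (n + 1) := by
      have h7 : 2 * (n + 1) - 0 = (2 * n + 1) + 1 := by omega
      rw [h7, Nat.choose_succ_succ']
      have h8 : (2 * n + 1).choose n = (2 * n + 1).choose (n + 1) :=
        Nat.choose_symm_of_eq_add (by omega)
      rw [h8]
      ring
    have h9 : 2 * (n + 1) - (0 + 1) = 2 * n + 1 := by omega
    rw [h6, h9]
    have h10 : ∀ j ∈ range n, (((2 * (n + 1) - (j + 1 + 1)).choose (n + 1) : ℕ) : ℂ) *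
        (U ^ (j + 1 + 1 + 1) + V ^ (j + 1 + 1 + 1)) =
        (((2 * n - j).choose (n + 1) : ℕ) : ℂ) * (U ^ (j + 3) + V ^ (j + 3)) := by
      intro j hj
      have h11 : 2 * (n + 1) - (j + 1 + 1) = 2 * n - j := by omega
      rw [h11]
    rw [sum_congr rfl h10]
    push_cast
    ring

/-- the function `10 / (a + c y i)` -/
noncomputable def xnegW (a c : ℝ) (y : ℝ) : ℂ := 10 / ((a : ℂ) + (c : ℂ) * (y : ℂ) * Complex.I)

theorem xneg_den_ne {a : ℝ} (ha : 0 < a) (c y : ℝ) :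
    (a : ℂ) + (c : ℂ) * (y : ℂ) * Complex.I ≠ 0 := by
  intro h
  have h1 := congrArg Complex.re h
  simp at h1
  exact ha.ne' h1

theorem xnegW_continuous {a : ℝ} (ha : 0 < a) (c : ℝ) : Continuous (xnegW a c) := by
  unfold xnegW
  refine Continuous.div continuous_const (by fun_prop) (xneg_den_ne ha c)

theorem xnegW_hasDerivAt {a : ℝ} (ha : 0 < a) (c y : ℝ) :
    HasDerivAt (xnegW a c) (-((c : ℂ) * Complex.I / 10) * xnegW a c y ^ 2) y := by
  have h0 : HasDerivAt (fun y : ℝ => (y : ℂ)) 1 y := by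
    simpa using (hasDerivAt_id y).ofReal_comp
  have h1 : HasDerivAt (fun y : ℝ => (a : ℂ) + (c : ℂ) * (y : ℂ) * Complex.I)
      ((c : ℂ) * Complex.I) y := by
    have h2 := ((h0.const_mul (c : ℂ)).mul_const Complex.I).const_add (a : ℂ)
    simpa using h2
  have h3 := (hasDerivAt_const y (10 : ℂ)).div h1 (xneg_den_ne ha c y)
  refine h3.congr_deriv ?_
  have hne := xneg_den_ne ha c y
  unfold xnegW
  field_simp
  ring

theorem xnegW_pow_hasDerivAt {a : ℝ} (ha : 0 < a) (c y : ℝ) (j : ℕ) :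
    HasDerivAt (fun y => xnegW a c y ^ (j + 1))
      (-(((j : ℂ) + 1) * (c : ℂ) * Complex.I / 10) * xnegW a c y ^ (j + 2)) y := by
  have h := (xnegW_hasDerivAt ha c y).fun_pow (j + 1)
  refine h.congr_deriv ?_
  rw [Nat.add_sub_cancel]
  push_cast
  ring

theorem xnegW_integral {a : ℝ} (ha : 0 < a) (c : ℝ) (hc : c ^ 2 = 1) (j : ℕ) :
    ∫ y in (-2 : ℝ)..2, xnegW a c y ^ (j + 2) =
      (10 * (c : ℂ) * Complex.I / ((j : ℂ) + 1)) *
        (xnegW a c 2 ^ (j + 1) - xnegW a c (-2) ^ (j + 1)) := by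
  have hj : ((j : ℂ) + 1) ≠ 0 := Nat.cast_add_one_ne_zero j
  have hcC : (c : ℂ) ^ 2 = 1 := by exact_mod_cast congrArg (fun x : ℝ => (x : ℂ)) hc
  have hc0 : (c : ℂ) ≠ 0 := by
    intro h
    rw [h] at hcC
    norm_num at hcC
  have h1 := intervalIntegral.integral_eq_sub_of_hasDerivAt (a := (-2 : ℝ)) (b := 2)
    (f := fun y => xnegW a c y ^ (j + 1))
    (f' := fun y => -(((j : ℂ) + 1) * (c : ℂ) * Complex.I / 10) * xnegW a c y ^ (j + 2))
    (fun y _ => xnegW_pow_hasDerivAt ha c y j)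
    ((continuous_const.mul ((xnegW_continuous ha c).pow _)).intervalIntegrable _ _)
  rw [intervalIntegral.integral_const_mul] at h1
  have hI : Complex.I ^ 2 = -1 := Complex.I_sq
  rw [← h1]
  have h2 : (10 * (c : ℂ) * Complex.I / ((j : ℂ) + 1)) *
      (-(((j : ℂ) + 1) * (c : ℂ) * Complex.I / 10)) = 1 := by
    field_simp
    rw [hcC, hI]
    ring
  rw [← mul_assoc, h2, one_mul]

theorem xnegW_conj (a c y : ℝ) : (starRingEnd ℂ) (xnegW a c y) = xnegW a c (-y) := by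
  unfold xnegW
  rw [map_div₀, map_ofNat]
  simp

theorem xneg_sub_conj (w : ℂ) : w - (starRingEnd ℂ) w = 2 * Complex.I * (w.im : ℂ) := by
  apply Complex.ext <;> simp
  ring

theorem xnegW_integral_im {a : ℝ} (ha : 0 < a) (c : ℝ) (hc : c ^ 2 = 1) (j : ℕ) :
    ∫ y in (-2 : ℝ)..2, xnegW a c y ^ (j + 2) =
      -((20 * (c : ℂ) / ((j : ℂ) + 1)) * (((xnegW a c 2 ^ (j + 1)).im : ℝ) : ℂ)) := by
  rw [xnegW_integral ha c hc j, ← xnegW_conj a c 2, ← map_pow, xneg_sub_conj]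
  have hI : Complex.I ^ 2 = -1 := Complex.I_sq
  linear_combination (20 * (c : ℂ) / ((j : ℂ) + 1)) *
    (((xnegW a c 2 ^ (j + 1)).im : ℝ) : ℂ) * hI

theorem xnegW_integral_one {a : ℝ} (ha : 0 < a) (c : ℝ) (hc : c ^ 2 = 1) :
    ∫ y in (-2 : ℝ)..2, xnegW a c y = 20 * ((Real.arctan (2 / a) : ℝ) : ℂ) := by
  have hcC : (c : ℂ) ^ 2 = 1 := by exact_mod_cast congrArg (fun x : ℝ => (x : ℂ)) hc
  have hd : ∀ y : ℝ, HasDerivAt (fun y : ℝ => 10 * ((Real.arctan (y / a) : ℝ) : ℂ)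
      - 5 * (c : ℂ) * Complex.I * ((Real.log (a ^ 2 + y ^ 2) : ℝ) : ℂ)) (xnegW a c y) y := by
    intro y
    have hpos : 0 < a ^ 2 + y ^ 2 := by positivity
    have h1 : HasDerivAt (fun y : ℝ => Real.arctan (y / a)) (1 / (1 + (y / a) ^ 2) * (1 / a)) y :=
      ((hasDerivAt_id y).div_const a).arctan
    have h2 : HasDerivAt (fun y : ℝ => Real.log (a ^ 2 + y ^ 2)) ((2 * y) / (a ^ 2 + y ^ 2)) y := by
      have h3 : HasDerivAt (fun y : ℝ => a ^ 2 + y ^ 2) (2 * y) y := by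
        simpa using (hasDerivAt_pow 2 y).const_add (a ^ 2)
      exact h3.log hpos.ne'
    have h4 := (h1.ofReal_comp.const_mul (10 : ℂ)).sub
      (h2.ofReal_comp.const_mul (5 * (c : ℂ) * Complex.I))
    refine h4.congr_deriv ?_
    have hne := xneg_den_ne ha c y
    have hC : ((a : ℂ) ^ 2 + (y : ℂ) ^ 2) ≠ 0 := by exact_mod_cast hpos.ne'
    have haC : (a : ℂ) ≠ 0 := by exact_mod_cast ha.ne'
    have hI : Complex.I ^ 2 = -1 := Complex.I_sq
    have h5 : xnegW a c y = 10 * ((a : ℂ) - (c : ℂ) * (y : ℂ) * Complex.I)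
        / ((a : ℂ) ^ 2 + (y : ℂ) ^ 2) := by
      unfold xnegW
      rw [div_eq_div_iff hne hC]
      have : (((a : ℂ) - (c : ℂ) * (y : ℂ) * Complex.I) *
        ((a : ℂ) + (c : ℂ) * (y : ℂ) * Complex.I)) = (a : ℂ) ^ 2 + (y : ℂ) ^ 2 := by
        linear_combination (-(y : ℂ) ^ 2 * Complex.I ^ 2) * hcC - (y : ℂ) ^ 2 * hI
      linear_combination (-10 : ℂ) * this
    rw [h5]
    push_cast
    have h6 : (1 + ((y : ℂ) / (a : ℂ)) ^ 2) = ((a : ℂ) ^ 2 + (y : ℂ) ^ 2) / (a : ℂ) ^ 2 := by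
      field_simp
    rw [h6]
    field_simp
    ring
  have h1 := intervalIntegral.integral_eq_sub_of_hasDerivAt (a := (-2 : ℝ)) (b := 2)
    (fun y _ => hd y) ((xnegW_continuous ha c).intervalIntegrable _ _)
  rw [h1]
  have h2 : Real.arctan (-2 / a) = -Real.arctan (2 / a) := by
    rw [neg_div, Real.arctan_neg]
  rw [h2]
  push_cast
  ring_nf

/-! ### integrality -/

theorem xneg_V_int (k : ℕ) : ∃ p q : ℤ, ((2 : ℂ) - Complex.I) ^ k = (p : ℂ) + (q : ℂ) * Complex.I := by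
  induction k with
  | zero => exact ⟨1, 0, by simp⟩
  | succ k ih =>
    obtain ⟨p, q, h⟩ := ih
    refine ⟨2 * p + q, 2 * q - p, ?_⟩
    rw [pow_succ, h]
    push_cast
    have hI : Complex.I ^ 2 = -1 := Complex.I_sq
    linear_combination (-(q : ℂ)) * hI

theorem xneg_U_int (k : ℕ) : ∃ p q : ℤ,
    (2 : ℂ) ^ ((k + 1) / 2) * (((3 : ℂ) + Complex.I) / 2) ^ k = (p : ℂ) + (q : ℂ) * Complex.I := by
  have hI : Complex.I ^ 2 = -1 := Complex.I_sq
  induction k using Nat.twoStepInduction with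
  | zero => exact ⟨1, 0, by simp⟩
  | one =>
    refine ⟨3, 1, ?_⟩
    norm_num
    ring
  | more k ih _ =>
    obtain ⟨p, q, h⟩ := ih
    refine ⟨4 * p - 3 * q, 3 * p + 4 * q, ?_⟩
    have h1 : (k + 2 + 1) / 2 = (k + 1) / 2 + 1 := by omega
    rw [h1, pow_succ, pow_add]
    have h2 : (2 : ℂ) ^ ((k + 1) / 2) * 2 * ((((3 : ℂ) + Complex.I) / 2) ^ k
        * (((3 : ℂ) + Complex.I) / 2) ^ 2) =
        ((2 : ℂ) ^ ((k + 1) / 2) * (((3 : ℂ) + Complex.I) / 2) ^ k)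
          * (2 * (((3 : ℂ) + Complex.I) / 2) ^ 2) := by ring
    rw [h2, h]
    push_cast
    linear_combination (((p : ℂ) + (q : ℂ) * Complex.I) / 2 + 3 * (q : ℂ)) * hI

/-- the rational number `Im U1^k - Im V1^k` -/
theorem xneg_rat (k : ℕ) : ∃ (r : ℚ) (z w : ℤ), r = z / 2 ^ ((k + 1) / 2) - w ∧
    (((xnegW 6 (-1) 2 ^ k).im : ℝ) : ℂ) - (((xnegW 4 1 2 ^ k).im : ℝ) : ℂ) = (r : ℂ) := by
  obtain ⟨p, q, hU⟩ := xneg_U_int k
  obtain ⟨p', q', hV⟩ := xneg_V_int k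
  refine ⟨(q : ℚ) / 2 ^ ((k + 1) / 2) - q', q, q', rfl, ?_⟩
  have hI : Complex.I ^ 2 = -1 := Complex.I_sq
  have hU1 : xnegW 6 (-1) 2 = ((3 : ℂ) + Complex.I) / 2 := by
    have hne := xneg_den_ne (by norm_num : (0 : ℝ) < 6) (-1) 2
    unfold xnegW
    rw [div_eq_iff hne]
    push_cast
    linear_combination hI
  have hV1 : xnegW 4 1 2 = (2 : ℂ) - Complex.I := by
    have hne := xneg_den_ne (by norm_num : (0 : ℝ) < 4) 1 2
    unfold xnegW
    rw [div_eq_iff hne]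
    push_cast
    linear_combination (2 : ℂ) * hI
  have h2 : (2 : ℂ) ^ ((k + 1) / 2) ≠ 0 := pow_ne_zero _ two_ne_zero
  have hU2 : (((3 : ℂ) + Complex.I) / 2) ^ k = ((p / 2 ^ ((k + 1) / 2) : ℝ) : ℂ)
      + ((q / 2 ^ ((k + 1) / 2) : ℝ) : ℂ) * Complex.I := by
    have h3 : (((3 : ℂ) + Complex.I) / 2) ^ k
      = ((p : ℂ) + (q : ℂ) * Complex.I) / (2 : ℂ) ^ ((k + 1) / 2) := by
      rw [← hU, mul_div_cancel_left₀ _ h2]
    rw [h3]
    push_cast
    field_simp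
  rw [hU1, hV1, hU2, hV]
  have h4 : ((((p / 2 ^ ((k + 1) / 2) : ℝ) : ℂ)
      + ((q / 2 ^ ((k + 1) / 2) : ℝ) : ℂ) * Complex.I)).im = q / 2 ^ ((k + 1) / 2) := by
    rw [Complex.add_im, Complex.ofReal_im, Complex.im_ofReal_mul, Complex.I_im]
    ring
  have h5 : ((p' : ℂ) + (q' : ℂ) * Complex.I).im = q' := by
    simp
  rw [h4, h5]
  push_cast
  ring

theorem xneg_integrable (a c : ℝ) (ha : 0 < a) (j : ℕ) :
    IntervalIntegrable (fun y => xnegW a c y ^ j) MeasureTheory.volume (-2) 2 :=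
  ((xnegW_continuous ha c).pow j).intervalIntegrable _ _

theorem xneg_J_zero :
    ∫ y in (-2 : ℝ)..2, (xnegW 6 (-1) y ^ (0 + 1) + xnegW 4 1 y ^ (0 + 1)) =
      10 * ((Real.pi : ℂ) / 2) := by
  have h1 := xnegW_integral_one (by norm_num : (0 : ℝ) < 6) (-1) (by norm_num)
  have h2 := xnegW_integral_one (by norm_num : (0 : ℝ) < 4) 1 (by norm_num)
  have i1 := xneg_integrable 6 (-1) (by norm_num) 1
  have i2 := xneg_integrable 4 1 (by norm_num) 1
  rw [zero_add, intervalIntegral.integral_add i1 i2]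
  simp only [pow_one]
  rw [h1, h2]
  have h3 := Real.arctan_inv_2_add_arctan_inv_3
  have h4 : (2 : ℝ) / 6 = 3⁻¹ := by norm_num
  have h5 : (2 : ℝ) / 4 = 2⁻¹ := by norm_num
  rw [h4, h5]
  have h6 : ((Real.arctan 2⁻¹ : ℝ) : ℂ) + ((Real.arctan 3⁻¹ : ℝ) : ℂ) = (Real.pi : ℂ) / 4 := by
    rw [← Complex.ofReal_add, h3]
    push_cast
    rfl
  linear_combination 20 * h6

theorem xneg_J_succ (j : ℕ) (r : ℚ)
    (hr : (((xnegW 6 (-1) 2 ^ (j + 1)).im : ℝ) : ℂ) - (((xnegW 4 1 2 ^ (j + 1)).im : ℝ) : ℂ)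
      = (r : ℂ)) :
    ∫ y in (-2 : ℝ)..2, (xnegW 6 (-1) y ^ (j + 1 + 1) + xnegW 4 1 y ^ (j + 1 + 1)) =
      (20 / ((j : ℂ) + 1)) * (r : ℂ) := by
  have h1 := xnegW_integral_im (by norm_num : (0 : ℝ) < 6) (-1) (by norm_num) j
  have h2 := xnegW_integral_im (by norm_num : (0 : ℝ) < 4) 1 (by norm_num) j
  rw [intervalIntegral.integral_add (xneg_integrable 6 (-1) (by norm_num) _)
    (xneg_integrable 4 1 (by norm_num) _), h1, h2, ← hr]
  push_cast
  ring

theorem xneg_integrand (n : ℕ) (y : ℝ) :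
    ((-1 + (y : ℂ) * Complex.I) ^ 2 - 25) ^ (-((n + 1 : ℕ) : ℤ)) =
      (-1) ^ (n + 1) / 100 ^ (n + 1) *
        ∑ j ∈ range (n + 1), (((2 * n - j).choose n : ℕ) : ℂ) *
          (xnegW 6 (-1) y ^ (j + 1) + xnegW 4 1 y ^ (j + 1)) := by
  have hne1 := xneg_den_ne (by norm_num : (0 : ℝ) < 6) (-1) y
  have hne2 := xneg_den_ne (by norm_num : (0 : ℝ) < 4) 1 y
  have e1 : ((6 : ℝ) : ℂ) + ((-1 : ℝ) : ℂ) * (y : ℂ) * Complex.I = 6 - (y : ℂ) * Complex.I := by
    push_cast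
    ring
  have e2 : ((4 : ℝ) : ℂ) + ((1 : ℝ) : ℂ) * (y : ℂ) * Complex.I = 4 + (y : ℂ) * Complex.I := by
    push_cast
    ring
  rw [e1] at hne1
  rw [e2] at hne2
  have hU : xnegW 6 (-1) y = 10 / (6 - (y : ℂ) * Complex.I) := by
    unfold xnegW
    rw [e1]
  have hV : xnegW 4 1 y = 10 / (4 + (y : ℂ) * Complex.I) := by
    unfold xnegW
    rw [e2]
  have hUV : xnegW 6 (-1) y * xnegW 4 1 y = xnegW 6 (-1) y + xnegW 4 1 y := by
    rw [hU, hV, div_mul_div_comm, div_add_div _ _ hne1 hne2]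
    congr 1
    ring
  rw [← xneg_expand _ _ hUV n, zpow_neg, zpow_natCast, ← inv_pow, ← div_pow, ← mul_pow]
  congr 1
  have h1 : ((-1 + (y : ℂ) * Complex.I) ^ 2 - 25) =
      -((6 - (y : ℂ) * Complex.I) * (4 + (y : ℂ) * Complex.I)) := by
    ring
  rw [h1, hU, hV]
  field_simp
  norm_num

theorem XX_neg (m : ℕ) (hm : 1 ≤ m) :
    ∃ b : ℚ, XX (-(m : ℤ)) = (aco (-(m : ℤ)) : ℂ) * ((Real.pi : ℂ) / 2) + (b : ℂ) ∧
      ∀ D : ℕ, (∀ j, 1 ≤ j → j ≤ m → j ∣ D) →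
        ∃ z : ℤ, (10 : ℚ) ^ (2 * m) * 2 ^ (m / 2) * D * b = z := by
  obtain ⟨n, rfl⟩ : ∃ n, m = n + 1 := ⟨m - 1, by omega⟩
  choose r z w hr hrC using xneg_rat
  refine ⟨(-1) ^ (n + 1) / 100 ^ (n + 1) * ∑ j ∈ range n,
    (((2 * n - (j + 1)).choose n : ℕ) : ℚ) * ((20 / ((j : ℚ) + 1)) * r (j + 1)), ?_, ?_⟩
  · have h1 : XX (-((n + 1 : ℕ) : ℤ)) = ∫ y in (-2 : ℝ)..2,
        ((-1) ^ (n + 1) / 100 ^ (n + 1) *
        ∑ j ∈ range (n + 1), (((2 * n - j).choose n : ℕ) : ℂ) *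
          (xnegW 6 (-1) y ^ (j + 1) + xnegW 4 1 y ^ (j + 1))) := by
      unfold XX segInt
      refine intervalIntegral.integral_congr fun y _ => ?_
      exact xneg_integrand n y
    rw [h1, intervalIntegral.integral_const_mul, intervalIntegral.integral_finsetSum]
    · have h2 : ∀ j ∈ range (n + 1), ∫ y in (-2 : ℝ)..2,
          (((2 * n - j).choose n : ℕ) : ℂ) *
            (xnegW 6 (-1) y ^ (j + 1) + xnegW 4 1 y ^ (j + 1)) =
          (((2 * n - j).choose n : ℕ) : ℂ) * ∫ y in (-2 : ℝ)..2,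
            (xnegW 6 (-1) y ^ (j + 1) + xnegW 4 1 y ^ (j + 1)) := fun j _ =>
        intervalIntegral.integral_const_mul _ _
      rw [sum_congr rfl h2, sum_range_succ', xneg_J_zero]
      have h3 : ∀ j ∈ range n, (((2 * n - (j + 1)).choose n : ℕ) : ℂ) * ∫ y in (-2 : ℝ)..2,
            (xnegW 6 (-1) y ^ (j + 1 + 1) + xnegW 4 1 y ^ (j + 1 + 1)) =
          (((2 * n - (j + 1)).choose n : ℕ) : ℂ) * ((20 / ((j : ℂ) + 1)) * (r (j + 1) : ℂ)) :=
        fun j _ => by rw [xneg_J_succ j (r (j + 1)) (hrC (j + 1))]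
      rw [sum_congr rfl h3]
      have h4 : aco (-((n + 1 : ℕ) : ℤ)) =
          (-1) ^ (n + 1) * ((2 * n).choose n : ℚ) / 10 ^ (2 * n + 1) := by
        unfold aco
        have h5 : ¬ (0 : ℤ) ≤ -((n + 1 : ℕ) : ℤ) := by omega
        rw [if_neg h5]
        have h6 : (-((n + 1 : ℕ) : ℤ)).natAbs = n + 1 := by omega
        rw [h6]
        have h7 : 2 * (n + 1) - 2 = 2 * n := by omega
        have h8 : n + 1 - 1 = n := by omega
        have h9 : 2 * (n + 1) - 1 = 2 * n + 1 := by omega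
        rw [h7, h8, h9]
      rw [h4]
      push_cast
      have h10 : (100 : ℂ) ^ (n + 1) = 10 ^ (2 * n + 1) * 10 := by
        rw [show (100 : ℂ) = 10 ^ 2 by norm_num, ← pow_mul]
        ring
      rw [mul_add, h10, Nat.sub_zero]
      have h11 : (10 : ℂ) ^ (2 * n + 1) ≠ 0 := pow_ne_zero _ (by norm_num)
      field_simp
      ring_nf
    · intro j _
      exact ((continuous_const.mul (((xnegW_continuous (by norm_num) _).pow _).add
        ((xnegW_continuous (by norm_num) _).pow _)))).intervalIntegrable _ _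
  · intro D hD
    have hterm : ∀ j ∈ range n, ∃ t : ℤ, (2 : ℚ) ^ ((n + 1) / 2) * D *
        ((((2 * n - (j + 1)).choose n : ℕ) : ℚ) * ((20 / ((j : ℚ) + 1)) * r (j + 1))) = t := by
      intro j hj
      rw [mem_range] at hj
      obtain ⟨d, hd⟩ := hD (j + 1) (by omega) (by omega)
      obtain ⟨e, he⟩ : ∃ e, (n + 1) / 2 = (j + 1 + 1) / 2 + e :=
        ⟨(n + 1) / 2 - (j + 1 + 1) / 2, by omega⟩
      refine ⟨(((2 * n - (j + 1)).choose n : ℕ) : ℤ) * 20 * d *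
        (2 ^ e * z (j + 1) - 2 ^ ((n + 1) / 2) * w (j + 1)), ?_⟩
      have hj0 : ((j : ℚ) + 1) ≠ 0 := Nat.cast_add_one_ne_zero j
      rw [hr, hd]
      push_cast
      rw [he, pow_add]
      have h2 : (2 : ℚ) ^ ((j + 1 + 1) / 2) ≠ 0 := pow_ne_zero _ two_ne_zero
      field_simp
    choose! t ht using hterm
    refine ⟨(-1) ^ (n + 1) * ∑ j ∈ range n, t j, ?_⟩
    have h1 : (10 : ℚ) ^ (2 * (n + 1)) = 100 ^ (n + 1) := by
      rw [pow_mul]
      norm_num
    rw [h1]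
    push_cast
    rw [← sum_congr rfl ht, ← mul_sum]
    have h2 : (100 : ℚ) ^ (n + 1) ≠ 0 := pow_ne_zero _ (by norm_num)
    generalize (∑ j ∈ range n, (((2 * n - (j + 1)).choose n : ℕ) : ℚ) *
      ((20 / ((j : ℚ) + 1)) * r (j + 1))) = S
    have h3 : (100 : ℚ) ^ (n + 1) * 2 ^ ((n + 1) / 2) * D * ((-1) ^ (n + 1) / 100 ^ (n + 1) * S)
      = (100 ^ (n + 1) / 100 ^ (n + 1)) * ((-1) ^ (n + 1) * (2 ^ ((n + 1) / 2) * D * S)) := by
      ring
    rw [h3, div_self h2, one_mul]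

end Vale.Agent.P021
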