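import Vale.Agent.P021.XNonneg
import Vale.Agent.P021.XNeg

namespace Vale.Agent.P021

/-- existence of the form for every integer exponent -/
theorem XX_form (k : ℤ) :
    ∃ b : ℚ, XX k = (aco k : ℂ) * ((Real.pi : ℂ) / 2) + (b : ℂ) := by
  rcases le_or_gt 0 k with hk | hk
  · obtain ⟨m, rfl⟩ := Int.eq_ofNat_of_zero_le hk
    obtain ⟨z, hz, _⟩ := XX_nonneg m ((2 * m + 1).factorial)
      (fun j hj1 hj2 => Nat.dvd_factorial (by omega) hj2)
    have hD : (((2 * m + 1).factorial : ℕ) : ℂ) ≠ 0 := by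
      exact_mod_cast (Nat.factorial_pos (2 * m + 1)).ne'
    refine ⟨(z : ℚ) / ((2 * m + 1).factorial : ℕ), ?_⟩
    have haco : aco (m : ℤ) = 0 := by
      rw [aco, if_pos (by omega)]
    rw [haco]
    push_cast
    rw [zero_mul, zero_add, eq_div_iff hD, mul_comm]
    exact hz
  · obtain ⟨m, hm⟩ : ∃ m : ℕ, k = -(m : ℤ) := ⟨k.natAbs, by omega⟩
    have hm1 : 1 ≤ m := by omega
    obtain ⟨b, hb, _⟩ := XX_neg m hm1
    rw [hm]
    exact ⟨b, hb⟩

noncomputable def bco (k : ℤ) : ℚ := (XX_form k).choose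

theorem XX_eq (k : ℤ) : XX k = (aco k : ℂ) * ((Real.pi : ℂ) / 2) + (bco k : ℂ) :=
  (XX_form k).choose_spec

theorem form_unique {a b a' b' : ℚ}
    (h : (a : ℂ) * ((Real.pi : ℂ) / 2) + b = (a' : ℂ) * ((Real.pi : ℂ) / 2) + b') :
    a = a' ∧ b = b' := by
  have hR : (a : ℝ) * (Real.pi / 2) + b = (a' : ℝ) * (Real.pi / 2) + b' := by
    exact_mod_cast h
  have ha : a = a' := by
    by_contra hne
    have hne' : ((a : ℝ) - a') ≠ 0 := by
      intro h0
      apply hne
      have : (a : ℝ) = a' := by linarith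
      exact_mod_cast this
    apply irrational_pi
    refine ⟨2 * (b' - b) / (a - a'), ?_⟩
    push_cast
    rw [div_eq_iff hne']
    linarith
  refine ⟨ha, ?_⟩
  rw [ha] at hR
  have : (b : ℝ) = b' := by linarith
  exact_mod_cast this

theorem bco_nonneg (k D : ℕ) (hD : ∀ j, 1 ≤ j → j ≤ 2 * k + 1 → j ∣ D) :
    ∃ z : ℤ, (D : ℚ) * bco k = z ∧ (32 : ℤ) ^ k ∣ z ^ 2 := by
  obtain ⟨z, hz, hdvd⟩ := XX_nonneg k D hD
  refine ⟨z, ?_, hdvd⟩
  have haco : aco (k : ℤ) = 0 := by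
    rw [aco, if_pos (by omega)]
  rw [XX_eq, haco] at hz
  simp only [Rat.cast_zero, zero_mul, zero_add] at hz
  exact_mod_cast hz

theorem bco_neg (m D : ℕ) (hm : 1 ≤ m) (hD : ∀ j, 1 ≤ j → j ≤ m → j ∣ D) :
    ∃ z : ℤ, (10 : ℚ) ^ (2 * m) * 2 ^ (m / 2) * D * bco (-(m : ℤ)) = z := by
  obtain ⟨b, hb, hb2⟩ := XX_neg m hm
  have h1 : bco (-(m : ℤ)) = b := by
    rw [XX_eq] at hb
    exact (form_unique hb).2
  rw [h1]
  exact hb2 D hD

/-- the rational part of the linear form. -/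
noncomputable def BB (N n : ℕ) : ℚ :=
  ∑ j ∈ Finset.range (5 * N * n + 1), ((fpoly N n).coeff j : ℚ) * bco ((j : ℤ) - CC N n)

theorem form_tau_ne (y : ℝ) : ((-1 + (y : ℂ) * Complex.I) ^ 2 - 25) ≠ 0 := by
  intro h
  have h1 : ((-1 + (y : ℂ) * Complex.I) ^ 2 - 25) =
      ((-24 - y ^ 2 : ℝ) : ℂ) + ((-2 * y : ℝ) : ℂ) * Complex.I := by
    push_cast
    linear_combination ((y : ℂ) ^ 2) * Complex.I_sq
  rw [h1] at h
  have h2 := congrArg Complex.re h
  simp only [Complex.add_re, Complex.ofReal_re, Complex.re_ofReal_mul, Complex.I_re, mul_zero,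
    add_zero, Complex.zero_re] at h2
  nlinarith [sq_nonneg y]

theorem form_natDegree (N n : ℕ) : (fpoly N n).natDegree < 5 * N * n + 1 := by
  have h1 : (Polynomial.X + Polynomial.C 25 : Polynomial ℤ).natDegree ≤ 1 := by
    compute_degree
  have h2 : (Polynomial.X ^ 2 + Polynomial.C 56 * Polynomial.X + Polynomial.C 800 :
      Polynomial ℤ).natDegree ≤ 2 := by
    compute_degree
  have h3 := Polynomial.natDegree_pow_le_of_le (N * n) h1
  have h4 := Polynomial.natDegree_pow_le_of_le (2 * N * n) h2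
  have h5 : (fpoly N n).natDegree ≤ N * n * 1 + 2 * N * n * 2 := by
    rw [fpoly]
    exact Polynomial.natDegree_mul_le_of_le h3 h4
  have h6 : N * n * 1 + 2 * N * n * 2 = 5 * N * n := by ring
  omega

theorem form_RR (N n : ℕ) (y : ℝ) : RR N n (-1 + (y : ℂ) * Complex.I) =
    ∑ j ∈ Finset.range (5 * N * n + 1), ((fpoly N n).coeff j : ℂ) *
      ((-1 + (y : ℂ) * Complex.I) ^ 2 - 25) ^ ((j : ℤ) - CC N n) := by
  set s : ℂ := -1 + (y : ℂ) * Complex.I with hs
  have hτ : s ^ 2 - 25 ≠ 0 := form_tau_ne y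
  have h1 := Polynomial.eval₂_eq_sum_range' (Int.castRingHom ℂ) (form_natDegree N n) (s ^ 2 - 25)
  have h2 : (fpoly N n).eval₂ (Int.castRingHom ℂ) (s ^ 2 - 25) =
      (s ^ 2) ^ (N * n) * (s ^ 4 + 6 * s ^ 2 + 25) ^ (2 * N * n) := by
    rw [fpoly]
    simp only [Polynomial.eval₂_mul, Polynomial.eval₂_pow, Polynomial.eval₂_add,
      Polynomial.eval₂_X, Polynomial.eval₂_C]
    congr 1
    · congr 1
      norm_num
    · congr 1
      norm_num
      ring
  rw [RR, ← h2, h1, Finset.sum_div]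
  apply Finset.sum_congr rfl
  intro j _
  rw [zpow_sub₀ hτ, zpow_natCast, zpow_natCast, mul_div_assoc]
  simp

theorem segInt_RR {N : ℕ} (hN : 1 ≤ N) (n : ℕ) :
    segInt (RR N n) = (AA N n : ℂ) * ((Real.pi : ℂ) / 2) + (BB N n : ℂ) := by
  have h1 : segInt (RR N n) = ∑ j ∈ Finset.range (5 * N * n + 1), ((fpoly N n).coeff j : ℂ) *
      XX ((j : ℤ) - CC N n) := by
    rw [segInt, intervalIntegral.integral_congr (fun y _ => form_RR N n y),
      intervalIntegral.integral_finsetSum]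
    · apply Finset.sum_congr rfl
      intro j _
      rw [intervalIntegral.integral_const_mul, XX, segInt]
    · intro j _
      apply Continuous.intervalIntegrable
      apply Continuous.mul continuous_const
      apply Continuous.zpow₀ (by fun_prop)
      intro y
      exact Or.inl (form_tau_ne y)
  rw [h1, AA, BB]
  push_cast
  rw [Finset.sum_mul, ← Finset.sum_add_distrib]
  apply Finset.sum_congr rfl
  intro j _
  rw [XX_eq]
  ring

end Vale.Agent.P021
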