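import Vale.Agent.P021.Basic

open Filter Topology

namespace Vale.Agent.P021

open PowerSeries in
/-- nonnegative coefficients, positive constant coefficient -/
def GrowNN (f : PowerSeries ℚ) : Prop := (∀ i, 0 ≤ coeff i f) ∧ 0 < coeff 0 f

open PowerSeries in
/-- positive coefficients -/
def GrowPos (f : PowerSeries ℚ) : Prop := ∀ i, 0 < coeff i f

open PowerSeries in
theorem growth_nn_mul {f g : PowerSeries ℚ} (hf : GrowNN f) (hg : GrowNN g) : GrowNN (f * g) := by
  refine ⟨fun i => ?_, ?_⟩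
  · rw [coeff_mul]
    exact Finset.sum_nonneg fun p _ => mul_nonneg (hf.1 _) (hg.1 _)
  · have := mul_pos hf.2 hg.2
    simpa [coeff_mul] using this

open PowerSeries in
theorem growth_nn_one : GrowNN 1 := by
  refine ⟨fun i => ?_, by simp⟩
  rw [coeff_one]
  rcases eq_or_ne i 0 with h | h
  · rw [if_pos h]; norm_num
  · rw [if_neg h]

theorem growth_nn_pow {f : PowerSeries ℚ} (hf : GrowNN f) (k : ℕ) : GrowNN (f ^ k) := by
  induction k with
  | zero => rw [pow_zero]; exact growth_nn_one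
  | succ k ih => rw [pow_succ]; exact growth_nn_mul ih hf

open PowerSeries in
theorem growth_pos_mul {f g : PowerSeries ℚ} (hf : GrowNN f) (hg : GrowPos g) :
    GrowPos (f * g) := by
  intro i
  rw [coeff_mul]
  refine Finset.sum_pos' (fun p _ => mul_nonneg (hf.1 _) (hg _).le) ⟨(0, i), ?_, ?_⟩
  · simp
  · exact mul_pos hf.2 (hg i)

theorem growth_pos_nn {f : PowerSeries ℚ} (hf : GrowPos f) : GrowNN f :=
  ⟨fun i => (hf i).le, hf 0⟩

theorem growth_pos_pow {f : PowerSeries ℚ} (hf : GrowPos f) (k : ℕ) : GrowPos (f ^ (k + 1)) := by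
  rw [pow_succ]
  exact growth_pos_mul (growth_nn_pow (growth_pos_nn hf) k) hf

open PowerSeries in
theorem growth_nn_add {f g : PowerSeries ℚ} (hf : GrowNN f) (hg : ∀ i, 0 ≤ coeff i g) :
    GrowNN (f + g) := by
  refine ⟨fun i => ?_, ?_⟩
  · rw [map_add]; exact add_nonneg (hf.1 i) (hg i)
  · rw [map_add]; exact add_pos_of_pos_of_nonneg hf.2 (hg 0)

/-- partial sums of `f` at `y` are bounded by `c` -/
def GrowB (y : ℝ) (f : PowerSeries ℚ) (c : ℝ) : Prop :=
  (∀ i, 0 ≤ PowerSeries.coeff i f) ∧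
    ∀ K, ∑ i ∈ Finset.range K, ((PowerSeries.coeff i f : ℚ) : ℝ) * y ^ i ≤ c

theorem growth_b_nonneg {y : ℝ} {f : PowerSeries ℚ} {c : ℝ} (h : GrowB y f c) : 0 ≤ c := by
  simpa using h.2 0

open PowerSeries in
theorem growth_b_mul {y : ℝ} (hy : 0 ≤ y) {f g : PowerSeries ℚ} {c d : ℝ} (hf : GrowB y f c)
    (hg : GrowB y g d) : GrowB y (f * g) (c * d) := by
  refine ⟨fun i => ?_, fun K => ?_⟩
  · rw [coeff_mul]
    exact Finset.sum_nonneg fun p _ => mul_nonneg (hf.1 _) (hg.1 _)
  · have h1 : ∑ i ∈ Finset.range K, ((coeff i (f * g) : ℚ) : ℝ) * y ^ i =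
        ∑ i ∈ Finset.range K, ∑ p ∈ Finset.HasAntidiagonal.antidiagonal i,
          (((coeff p.1 f : ℚ) : ℝ) * y ^ p.1) * (((coeff p.2 g : ℚ) : ℝ) * y ^ p.2) := by
      refine Finset.sum_congr rfl fun i _ => ?_
      rw [coeff_mul]
      push_cast
      rw [Finset.sum_mul]
      refine Finset.sum_congr rfl fun p hp => ?_
      rw [Finset.HasAntidiagonal.mem_antidiagonal] at hp
      rw [← hp, pow_add]
      ring
    rw [h1]
    have hfn : ∀ i, 0 ≤ ((coeff i f : ℚ) : ℝ) * y ^ i := fun i =>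
      mul_nonneg (by exact_mod_cast hf.1 i) (pow_nonneg hy i)
    have hgn : ∀ i, 0 ≤ ((coeff i g : ℚ) : ℝ) * y ^ i := fun i =>
      mul_nonneg (by exact_mod_cast hg.1 i) (pow_nonneg hy i)
    have h2 : ∑ i ∈ Finset.range K, ∑ p ∈ Finset.HasAntidiagonal.antidiagonal i,
          (((coeff p.1 f : ℚ) : ℝ) * y ^ p.1) * (((coeff p.2 g : ℚ) : ℝ) * y ^ p.2) ≤
        ∑ p ∈ Finset.range K ×ˢ Finset.range K,
          (((coeff p.1 f : ℚ) : ℝ) * y ^ p.1) * (((coeff p.2 g : ℚ) : ℝ) * y ^ p.2) := by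
      rw [← Finset.sum_biUnion]
      · refine Finset.sum_le_sum_of_subset_of_nonneg ?_ fun p _ _ =>
          mul_nonneg (hfn _) (hgn _)
        intro p hp
        rw [Finset.mem_biUnion] at hp
        obtain ⟨i, hi, hp⟩ := hp
        rw [Finset.mem_range] at hi
        rw [Finset.HasAntidiagonal.mem_antidiagonal] at hp
        rw [Finset.mem_product, Finset.mem_range, Finset.mem_range]
        constructor <;> omega
      · intro i _ j _ hij
        rw [Function.onFun, Finset.disjoint_left]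
        intro p hp hq
        rw [Finset.HasAntidiagonal.mem_antidiagonal] at hp hq
        exact hij (hp.symm.trans hq)
    refine h2.trans ?_
    rw [Finset.sum_product]
    simp only
    rw [← Finset.sum_mul_sum]
    exact mul_le_mul (hf.2 K) (hg.2 K) (Finset.sum_nonneg fun i _ => hgn i) (growth_b_nonneg hf)

open PowerSeries in
theorem growth_b_one (y : ℝ) : GrowB y 1 1 := by
  refine ⟨growth_nn_one.1, fun K => ?_⟩
  rcases K with _ | K
  · simp
  · rw [Finset.sum_range_succ']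
    have : ∑ i ∈ Finset.range K, ((coeff (i + 1) (1 : PowerSeries ℚ) : ℚ) : ℝ) * y ^ (i + 1) =
        0 := Finset.sum_eq_zero fun i _ => by
      rw [coeff_one, if_neg (by omega)]
      simp
    rw [this]
    simp

theorem growth_b_pow {y : ℝ} (hy : 0 ≤ y) {f : PowerSeries ℚ} {c : ℝ} (hf : GrowB y f c) (k : ℕ) :
    GrowB y (f ^ k) (c ^ k) := by
  induction k with
  | zero => rw [pow_zero, pow_zero]; exact growth_b_one y
  | succ k ih => rw [pow_succ, pow_succ]; exact growth_b_mul hy ih hf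

theorem growth_b_add {y : ℝ} {f g : PowerSeries ℚ} {c d : ℝ} (hf : GrowB y f c)
    (hg : GrowB y g d) : GrowB y (f + g) (c + d) := by
  refine ⟨fun i => ?_, fun K => ?_⟩
  · rw [map_add]; exact add_nonneg (hf.1 i) (hg.1 i)
  · have := add_le_add (hf.2 K) (hg.2 K)
    rw [← Finset.sum_add_distrib] at this
    refine le_trans (le_of_eq (Finset.sum_congr rfl fun i _ => ?_)) this
    rw [map_add]
    push_cast
    ring

open PowerSeries in
theorem growth_b_X {y : ℝ} (hy : 0 ≤ y) : GrowB y (X : PowerSeries ℚ) y := by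
  refine ⟨fun i => ?_, fun K => ?_⟩
  · rw [coeff_X]
    rcases eq_or_ne i 1 with h | h
    · rw [if_pos h]; norm_num
    · rw [if_neg h]
  · have h1 : ∀ i ∈ Finset.range K, ((coeff i (X : PowerSeries ℚ) : ℚ) : ℝ) * y ^ i =
        if i = 1 then y else 0 := fun i _ => by
      rw [coeff_X]
      rcases eq_or_ne i 1 with h | h
      · rw [if_pos h, if_pos h, h]; simp
      · rw [if_neg h, if_neg h]; simp
    rw [Finset.sum_congr rfl h1, Finset.sum_ite_eq']
    by_cases h2 : 1 ∈ Finset.range K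
    · rw [if_pos h2]
    · rw [if_neg h2]; exact hy

open PowerSeries in
theorem growth_b_geom {y : ℝ} (hy : 0 ≤ y) (hy1 : y < 1) :
    GrowB y (PowerSeries.mk (fun _ => (1 : ℚ))) (1 / (1 - y)) := by
  refine ⟨fun i => by rw [coeff_mk]; norm_num, fun K => ?_⟩
  have h1 : ∑ i ∈ Finset.range K, ((coeff i (PowerSeries.mk (fun _ => (1 : ℚ))) : ℚ) : ℝ) * y ^ i =
      ∑ i ∈ Finset.range K, y ^ i := Finset.sum_congr rfl fun i _ => by
    rw [coeff_mk]; simp
  rw [h1, geom_sum_eq hy1.ne]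
  have h2 : (y ^ K - 1) / (y - 1) = (1 - y ^ K) / (1 - y) := by
    rw [← neg_div_neg_eq]; congr 1 <;> ring
  rw [h2]
  have h3 : 0 < 1 - y := by linarith
  have h4 : 0 ≤ y ^ K := pow_nonneg hy K
  gcongr
  linarith

theorem growth_two : (2 : PowerSeries ℚ) = 1 + 1 := by norm_num

theorem growth_b_two (y : ℝ) : GrowB y (2 : PowerSeries ℚ) 2 := by
  have := growth_b_add (growth_b_one y) (growth_b_one y)
  rw [← growth_two] at this
  have e : (1 : ℝ) + 1 = 2 := by norm_num
  rwa [e] at this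

theorem growth_F_b {N : ℕ} {y : ℝ} (hy : 0 ≤ y) (hy1 : y < 1) : GrowB y (Fser N) (Fval N y) := by
  have hX := growth_b_X hy
  have h2 := growth_b_two y
  have h1 := growth_b_one y
  have a1 := growth_b_add (growth_b_add (growth_b_pow hy hX 2) (growth_b_mul hy h2 hX)) h2
  have a2 := growth_b_add (growth_b_add (growth_b_mul hy h2 (growth_b_pow hy hX 2))
    (growth_b_mul hy h2 hX)) h1
  have a3 := growth_b_add h1 hX
  have a4 := growth_b_geom hy hy1
  have key := growth_b_mul hy (growth_b_mul hy (growth_b_pow hy (growth_b_mul hy a1 a2) (2 * N))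
    (growth_b_pow hy a3 (2 * N))) (growth_b_pow hy a4 (4 * N + 2))
  unfold Fser Fval
  have e : ((y ^ 2 + 2 * y + 2) * (2 * y ^ 2 + 2 * y + 1)) ^ (2 * N) * (1 + y) ^ (2 * N) *
      (1 / (1 - y)) ^ (4 * N + 2) = ((y ^ 2 + 2 * y + 2) * (2 * y ^ 2 + 2 * y + 1)) ^ (2 * N) *
      (1 + y) ^ (2 * N) / (1 - y) ^ (4 * N + 2) := by
    rw [one_div, inv_pow, div_eq_mul_inv]
  rw [e] at key
  exact key

open PowerSeries in
theorem growth_nn_X (k : ℕ) (i : ℕ) : 0 ≤ coeff i ((X : PowerSeries ℚ) ^ k) := by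
  rw [coeff_X_pow]
  rcases eq_or_ne i k with h | h
  · rw [if_pos h]; norm_num
  · rw [if_neg h]

theorem growth_F_pos (N : ℕ) : GrowPos (Fser N) := by
  have h1 := growth_nn_one
  have h2 : GrowNN (2 : PowerSeries ℚ) := by
    rw [growth_two]
    exact growth_nn_add h1 h1.1
  have hb2 := growth_b_two 0
  have hX : ∀ i, 0 ≤ PowerSeries.coeff i (PowerSeries.X : PowerSeries ℚ) := (growth_b_X le_rfl).1
  have h2X : ∀ i, 0 ≤ PowerSeries.coeff i (2 * PowerSeries.X : PowerSeries ℚ) :=
    (growth_b_mul le_rfl hb2 (growth_b_X le_rfl)).1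
  have h2X2 : ∀ i, 0 ≤ PowerSeries.coeff i (2 * PowerSeries.X ^ 2 : PowerSeries ℚ) :=
    (growth_b_mul le_rfl hb2 (growth_b_pow le_rfl (growth_b_X le_rfl) 2)).1
  have a1 : GrowNN (PowerSeries.X ^ 2 + 2 * PowerSeries.X + 2 : PowerSeries ℚ) := by
    have := growth_nn_add (growth_nn_add h2 h2X) (growth_nn_X 2)
    have e : (PowerSeries.X ^ 2 + 2 * PowerSeries.X + 2 : PowerSeries ℚ) =
      2 + 2 * PowerSeries.X + PowerSeries.X ^ 2 := by ring
    rw [e]
    exact this
  have a2 : GrowNN (2 * PowerSeries.X ^ 2 + 2 * PowerSeries.X + 1 : PowerSeries ℚ) := by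
    have := growth_nn_add (growth_nn_add h1 h2X) h2X2
    have e : (2 * PowerSeries.X ^ 2 + 2 * PowerSeries.X + 1 : PowerSeries ℚ) =
      1 + 2 * PowerSeries.X + 2 * PowerSeries.X ^ 2 := by ring
    rw [e]
    exact this
  have a3 : GrowNN (1 + PowerSeries.X : PowerSeries ℚ) := growth_nn_add h1 hX
  have a4 : GrowPos (PowerSeries.mk (fun _ => (1 : ℚ))) := fun i => by
    rw [PowerSeries.coeff_mk]; norm_num
  unfold Fser
  exact growth_pos_mul (growth_nn_mul (growth_nn_pow (growth_nn_mul a1 a2) _)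
    (growth_nn_pow a3 _)) (growth_pos_pow a4 (4 * N + 1))

theorem growth_coeff_pos (N n k : ℕ) (h : n = 0 → k = 0) :
    0 < PowerSeries.coeff k (Fser N ^ n) := by
  rcases n with _ | n
  · rw [h rfl, pow_zero]
    simp
  · exact growth_pos_pow (growth_F_pos N) n k

theorem growth {N : ℕ} (hN : 1 ≤ N) :
    (∀ n, 0 < PowerSeries.coeff ((3 * N - 1) * n) (Fser N ^ n)) ∧
    ∃ α : ℝ, Tendsto (fun n : ℕ =>
      Real.log ((PowerSeries.coeff ((3 * N - 1) * n) (Fser N ^ n) : ℚ) : ℝ) / n) atTop (𝓝 α) ∧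
      ∀ y : ℝ, 0 < y → y < 1 → α ≤ Real.log (Fval N y / y ^ (3 * N - 1)) := by
  have _ := hN
  set M := 3 * N - 1 with hM
  set c : ℕ → ℚ := fun n => PowerSeries.coeff (M * n) (Fser N ^ n) with hc
  have hpos : ∀ n, 0 < c n := fun n => growth_coeff_pos N n (M * n) (by rintro rfl; rw [mul_zero])
  have hposR : ∀ n, (0 : ℝ) < (c n : ℝ) := fun n => by exact_mod_cast hpos n
  have hnn : ∀ n i, 0 ≤ PowerSeries.coeff i (Fser N ^ n) := fun n =>
    (growth_nn_pow (growth_pos_nn (growth_F_pos N)) n).1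
  refine ⟨hpos, ?_⟩
  -- super-multiplicativity
  have hsup : ∀ m n, c m * c n ≤ c (m + n) := by
    intro m n
    have e : c (m + n) = PowerSeries.coeff (M * m + M * n) (Fser N ^ m * Fser N ^ n) := by
      simp only [hc]
      rw [mul_add, pow_add]
    rw [e, PowerSeries.coeff_mul]
    have := Finset.single_le_sum (s := Finset.HasAntidiagonal.antidiagonal (M * m + M * n))
      (f := fun p => PowerSeries.coeff p.1 (Fser N ^ m) * PowerSeries.coeff p.2 (Fser N ^ n))
      (fun p _ => mul_nonneg (hnn m _) (hnn n _)) (a := (M * m, M * n))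
      (by rw [Finset.HasAntidiagonal.mem_antidiagonal])
    exact this
  set u : ℕ → ℝ := fun n => -Real.log (c n : ℝ) with hu
  have hsub : Subadditive u := by
    intro m n
    simp only [hu]
    have h1 : Real.log ((c m : ℝ) * (c n : ℝ)) ≤ Real.log (c (m + n) : ℝ) :=
      Real.log_le_log (mul_pos (hposR m) (hposR n)) (by exact_mod_cast hsup m n)
    rw [Real.log_mul (hposR m).ne' (hposR n).ne'] at h1
    linarith
  -- upper bound
  have hup : ∀ y : ℝ, 0 < y → y < 1 → ∀ n : ℕ, 0 < n →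
      Real.log (c n : ℝ) / n ≤ Real.log (Fval N y / y ^ M) := by
    intro y hy hy1 n hn
    have hB := growth_b_pow hy.le (growth_F_b (N := N) hy.le hy1) n
    have h1 : (c n : ℝ) * y ^ (M * n) ≤ Fval N y ^ n := by
      refine le_trans ?_ (hB.2 (M * n + 1))
      refine Finset.single_le_sum (s := Finset.range (M * n + 1))
        (f := fun i => ((PowerSeries.coeff i (Fser N ^ n) : ℚ) : ℝ) * y ^ i)
        (fun i _ => mul_nonneg (by exact_mod_cast hnn n i) (pow_nonneg hy.le i)) (a := M * n)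
        (by rw [Finset.mem_range]; omega)
    have hyM : 0 < y ^ M := pow_pos hy M
    have h2 : (c n : ℝ) ≤ (Fval N y / y ^ M) ^ n := by
      rw [div_pow, ← pow_mul, le_div_iff₀ (pow_pos hy _)]
      exact h1
    have h3 : 0 < Fval N y / y ^ M := by
      apply div_pos _ hyM
      unfold Fval
      have : 0 < 1 - y := by linarith
      positivity
    have h4 := Real.log_le_log (hposR n) h2
    rw [Real.log_pow] at h4
    have hn' : (0 : ℝ) < n := by exact_mod_cast hn
    rw [div_le_iff₀ hn', mul_comm]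
    exact h4
  have hbdd : BddBelow (Set.range fun n : ℕ => u n / n) := by
    refine ⟨min 0 (-Real.log (Fval N (1 / 2) / (1 / 2) ^ M)), ?_⟩
    rintro _ ⟨n, rfl⟩
    rcases Nat.eq_zero_or_pos n with h | h
    · simp only [h, Nat.cast_zero, div_zero]
      exact min_le_left _ _
    · refine (min_le_right _ _).trans ?_
      have h1 := hup (1 / 2) (by norm_num) (by norm_num) n h
      simp only [hu]
      rw [neg_div]
      linarith
  have hlim := hsub.tendsto_lim hbdd
  have hlim' : Tendsto (fun n : ℕ => Real.log (c n : ℝ) / n) atTop (𝓝 (-hsub.lim)) := by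
    have := hlim.neg
    refine this.congr fun n => ?_
    simp only [hu]
    rw [neg_div, neg_neg]
  refine ⟨-hsub.lim, hlim', fun y hy hy1 => ?_⟩
  refine le_of_tendsto hlim' ?_
  filter_upwards [eventually_gt_atTop 0] with n hn
  exact hup y hy hy1 n hn

end Vale.Agent.P021
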