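import Vale.Agent.P021.Basic
import Vale.Agent.PNT.Main

open Filter Topology

namespace Vale.Agent.P021

/-- integer form of the conditions defining the saved primes -/
theorem pntsum_ints {N Y n p : ℕ} {q : ℕ × ℕ} (hN : 1 ≤ N) (hp : 0 < p)
    (hq : q ∈ FF N Y) (h1 : lo N q.1 q.2 * n < p) (h2 : (p : ℚ) ≤ up N q.1 q.2 * n) :
    1 ≤ q.1 ∧ q.1 ≤ Y ∧ 2 * N * n < (q.1 + 1) * p ∧ (3 * N - 1) * n < (q.2 + 1) * p ∧
      q.1 * p ≤ 2 * N * n ∧ q.2 * p ≤ (3 * N - 1) * n ∧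
      ((4 * N + 2 : ℕ) : ℤ) * n < kk q.1 q.2 * p := by
  unfold FF at hq
  rw [Finset.mem_filter, Finset.mem_product, Finset.mem_Icc, Finset.mem_range] at hq
  obtain ⟨⟨⟨hA1, hA2⟩, hC⟩, hk, hlt⟩ := hq
  have hM : ((3 * N - 1 : ℕ) : ℚ) = 3 * (N : ℚ) - 1 := by
    rw [Nat.cast_sub (by omega)]
    push_cast
    ring
  have hpQ : (0 : ℚ) < p := by exact_mod_cast hp
  have hnQ : (0 : ℚ) ≤ n := by positivity
  have hl1 : (2 * N : ℚ) / (q.1 + 1) * n < p :=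
    lt_of_le_of_lt (mul_le_mul_of_nonneg_right
      ((le_max_left _ _).trans (le_max_left _ _)) hnQ) h1
  have hl2 : (3 * N - 1 : ℚ) / (q.2 + 1) * n < p :=
    lt_of_le_of_lt (mul_le_mul_of_nonneg_right
      ((le_max_right _ _).trans (le_max_left _ _)) hnQ) h1
  have hl3 : (4 * N + 2 : ℚ) / kk q.1 q.2 * n < p :=
    lt_of_le_of_lt (mul_le_mul_of_nonneg_right (le_max_right _ _) hnQ) h1
  have hA0 : (0 : ℚ) < q.1 := by exact_mod_cast hA1
  have hu1 : (p : ℚ) ≤ (2 * N : ℚ) / q.1 * n := by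
    refine h2.trans (mul_le_mul_of_nonneg_right ?_ hnQ)
    unfold up
    by_cases hc : q.2 = 0
    · rw [if_pos hc]
    · rw [if_neg hc]
      exact min_le_left _ _
  refine ⟨hA1, hA2, ?_, ?_, ?_, ?_, ?_⟩
  · have h3 : (2 * N : ℚ) * n < (q.1 + 1) * p := by
      rw [div_mul_eq_mul_div, div_lt_iff₀ (by positivity)] at hl1
      linarith
    exact_mod_cast h3
  · have h3 : ((3 * N - 1 : ℕ) : ℚ) * n < (q.2 + 1) * p := by
      rw [div_mul_eq_mul_div, div_lt_iff₀ (by positivity)] at hl2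
      rw [hM]
      linarith
    exact_mod_cast h3
  · have h3 : (q.1 : ℚ) * p ≤ 2 * N * n := by
      rw [div_mul_eq_mul_div, le_div_iff₀ hA0] at hu1
      linarith
    exact_mod_cast h3
  · by_cases hc : q.2 = 0
    · rw [hc]
      simp
    · have hC0 : (0 : ℚ) < q.2 := by exact_mod_cast Nat.pos_of_ne_zero hc
      have hu2 : (p : ℚ) ≤ (3 * N - 1 : ℚ) / q.2 * n := by
        refine h2.trans (mul_le_mul_of_nonneg_right ?_ hnQ)
        unfold up
        rw [if_neg hc]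
        exact min_le_right _ _
      have h3 : (q.2 : ℚ) * p ≤ ((3 * N - 1 : ℕ) : ℚ) * n := by
        rw [div_mul_eq_mul_div, le_div_iff₀ hC0] at hu2
        rw [hM]
        linarith
      exact_mod_cast h3
  · have hkQ : (0 : ℚ) < (kk q.1 q.2 : ℚ) := by exact_mod_cast hk
    rw [div_mul_eq_mul_div, div_lt_iff₀ hkQ] at hl3
    have h3 : (((4 * N + 2 : ℕ) : ℤ) : ℚ) * n < (kk q.1 q.2 : ℚ) * p := by
      push_cast
      linarith
    exact_mod_cast h3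

theorem saved_spec {N Y n p : ℕ} (hN : 1 ≤ N) (hn : 1 ≤ n) (hp : p ∈ SavedSet N Y n) :
    p.Prime ∧ p ≤ 2 * N * n ∧ 2 * N * n < (Y + 1) * p ∧ ∃ qA qC α γ : ℕ,
      2 * N * n = qA * p + α ∧ α < p ∧ (3 * N - 1) * n = qC * p + γ ∧ γ < p ∧ 1 ≤ qA ∧
      ((Odd qA ∧ 5 * α ≤ 2 * γ) ∨ (Even qA ∧ 5 * α + p ≤ 2 * γ)) := by
  unfold SavedSet at hp
  rw [Finset.mem_filter, Finset.mem_Icc] at hp
  obtain ⟨⟨hp1, hp2⟩, hprime, q, hq, h1, h2⟩ := hp
  obtain ⟨hA1, hA2, i1, i2, i3, i4, i5⟩ := pntsum_ints hN hprime.pos hq h1 h2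
  refine ⟨hprime, hp2, ?_, q.1, q.2, 2 * N * n - q.1 * p, (3 * N - 1) * n - q.2 * p,
    by omega, ?_, by omega, ?_, hA1, ?_⟩
  · exact i1.trans_le (Nat.mul_le_mul_right p (by omega))
  · have : (q.1 + 1) * p = q.1 * p + p := by ring
    omega
  · have : (q.2 + 1) * p = q.2 * p + p := by ring
    omega
  · obtain ⟨M, rfl⟩ : ∃ M, N = M + 1 := ⟨N - 1, by omega⟩
    have e3 : 3 * (M + 1) - 1 = 3 * M + 2 := by omega
    rw [e3] at i2 i4 ⊢
    unfold kk at i5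
    zify [i3, i4]
    rcases Nat.even_or_odd q.1 with he | ho
    · right
      refine ⟨he, ?_⟩
      rw [if_pos he] at i5
      push_cast at i5
      nlinarith
    · left
      refine ⟨ho, ?_⟩
      rw [if_neg (Nat.not_even_iff_odd.2 ho)] at i5
      push_cast at i5
      nlinarith

/-- primes saved by the pair `q` -/
def pntsumSet (N n : ℕ) (q : ℕ × ℕ) : Finset ℕ :=
  (Finset.Icc 1 (2 * N * n)).filter
    (fun p => p.Prime ∧ lo N q.1 q.2 * n < p ∧ (p : ℚ) ≤ up N q.1 q.2 * n)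

theorem pntsum_biUnion (N Y n : ℕ) : SavedSet N Y n = (FF N Y).biUnion (pntsumSet N n) := by
  ext p
  unfold SavedSet pntsumSet
  simp only [Finset.mem_filter, Finset.mem_biUnion]
  constructor
  · rintro ⟨h1, h2, q, hq, h3⟩
    exact ⟨q, hq, h1, h2, h3⟩
  · rintro ⟨q, hq, h1, h2, h3⟩
    exact ⟨h1, h2, q, hq, h3⟩

theorem pntsum_div {a b p q : ℕ} (h1 : q * p ≤ a) (h2 : a < (q + 1) * p) (hb : b = a) :
    q = b / p := by
  subst hb
  symm
  exact Nat.div_eq_of_lt_le h1 h2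

theorem pntsum_disj {N Y n : ℕ} (hN : 1 ≤ N) :
    Set.PairwiseDisjoint (↑(FF N Y)) (pntsumSet N n) := by
  intro q hq q' hq' hne
  rw [Function.onFun, Finset.disjoint_left]
  intro p hp hp'
  apply hne
  unfold pntsumSet at hp hp'
  rw [Finset.mem_filter] at hp hp'
  obtain ⟨-, hprime, h1, h2⟩ := hp
  obtain ⟨-, -, h1', h2'⟩ := hp'
  obtain ⟨-, -, i1, i2, i3, i4, -⟩ := pntsum_ints hN hprime.pos hq h1 h2
  obtain ⟨-, -, j1, j2, j3, j4, -⟩ := pntsum_ints hN hprime.pos hq' h1' h2'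
  have e1 : q.1 = q'.1 := by
    rw [pntsum_div i3 i1 rfl, pntsum_div j3 j1 rfl]
  have e2 : q.2 = q'.2 := by
    rw [pntsum_div i4 i2 rfl, pntsum_div j4 j2 rfl]
  exact Prod.ext e1 e2

theorem pntsum_lo_pos {N Y : ℕ} (hN : 1 ≤ N) {q : ℕ × ℕ} (hq : q ∈ FF N Y) :
    0 < lo N q.1 q.2 := by
  have hNQ : (0 : ℚ) < N := by exact_mod_cast hN
  have : (0 : ℚ) < (2 * N : ℚ) / (q.1 + 1) := by positivity
  exact lt_of_lt_of_le this ((le_max_left _ _).trans (le_max_left _ _))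

theorem pntsum_lo_lt_up {N Y : ℕ} {q : ℕ × ℕ} (hq : q ∈ FF N Y) :
    lo N q.1 q.2 < up N q.1 q.2 := by
  unfold FF at hq
  rw [Finset.mem_filter] at hq
  exact hq.2.2

theorem pntsum_up_le {N Y : ℕ} {q : ℕ × ℕ} (hq : q ∈ FF N Y) :
    up N q.1 q.2 ≤ 2 * N := by
  unfold FF at hq
  rw [Finset.mem_filter, Finset.mem_product, Finset.mem_Icc] at hq
  have hA1 : (1 : ℚ) ≤ q.1 := by exact_mod_cast hq.1.1.1
  have h1 : (2 * N : ℚ) / q.1 ≤ 2 * N := div_le_self (by positivity) hA1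
  unfold up
  by_cases hc : q.2 = 0
  · rw [if_pos hc]
    exact h1
  · rw [if_neg hc]
    exact (min_le_left _ _).trans h1

theorem pntsum_theta_diff {N Y : ℕ} (hN : 1 ≤ N) {q : ℕ × ℕ} (hq : q ∈ FF N Y) (n : ℕ) :
    ∑ p ∈ pntsumSet N n q, Real.log p
      = Chebyshev.theta (((up N q.1 q.2 : ℚ) : ℝ) * n)
        - Chebyshev.theta (((lo N q.1 q.2 : ℚ) : ℝ) * n) := by
  have hlo := pntsum_lo_pos hN hq
  have hlt := pntsum_lo_lt_up hq
  have hle := pntsum_up_le hq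
  have hloR : (0 : ℝ) ≤ ((lo N q.1 q.2 : ℚ) : ℝ) * n := by
    have : (0 : ℝ) ≤ ((lo N q.1 q.2 : ℚ) : ℝ) := by exact_mod_cast hlo.le
    positivity
  have hloup : ((lo N q.1 q.2 : ℚ) : ℝ) * n ≤ ((up N q.1 q.2 : ℚ) : ℝ) * n := by
    apply mul_le_mul_of_nonneg_right _ (by positivity)
    exact_mod_cast hlt.le
  have hupR : (0 : ℝ) ≤ ((up N q.1 q.2 : ℚ) : ℝ) * n := hloR.trans hloup
  rw [eq_sub_iff_add_eq', Chebyshev.theta, Chebyshev.theta]
  rw [← Finset.sum_union]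
  · apply Finset.sum_congr _ (fun _ _ => rfl)
    ext p
    unfold pntsumSet
    simp only [Finset.mem_union, Finset.mem_filter, Finset.mem_Ioc, Finset.mem_Icc,
      Nat.le_floor_iff hloR, Nat.le_floor_iff hupR]
    constructor
    · rintro (⟨⟨h1, h2⟩, h3⟩ | ⟨⟨h1, h2⟩, h3, h4, h5⟩)
      · exact ⟨⟨h1, h2.trans hloup⟩, h3⟩
      · exact ⟨⟨h1, by exact_mod_cast h5⟩, h3⟩
    · rintro ⟨⟨h1, h2⟩, h3⟩
      by_cases hc : (p : ℝ) ≤ ((lo N q.1 q.2 : ℚ) : ℝ) * n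
      · left
        exact ⟨⟨h1, hc⟩, h3⟩
      · right
        push Not at hc
        refine ⟨⟨h1, ?_⟩, h3, by exact_mod_cast hc, by exact_mod_cast h2⟩
        have h4 : (p : ℚ) ≤ up N q.1 q.2 * n := by exact_mod_cast h2
        have h5 : (p : ℚ) ≤ 2 * N * n := h4.trans (mul_le_mul_of_nonneg_right hle (by positivity))
        exact_mod_cast h5
  · rw [Finset.disjoint_left]
    intro p hp hp'
    unfold pntsumSet at hp'
    rw [Finset.mem_filter, Finset.mem_Ioc, Nat.le_floor_iff hloR] at hp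
    rw [Finset.mem_filter] at hp'
    have h1 : (lo N q.1 q.2 : ℝ) * n < p := by exact_mod_cast hp'.2.2.1
    linarith [hp.1.2]

theorem pntsum_theta {c : ℝ} (hc : 0 < c) :
    Tendsto (fun n : ℕ => Chebyshev.theta (c * n) / n) atTop (𝓝 c) := by
  have h1 : Tendsto (fun n : ℕ => c * (n : ℝ)) atTop atTop :=
    tendsto_natCast_atTop_atTop.const_mul_atTop hc
  have h2 := (Vale.Agent.PNT.theta_div_tendsto.comp h1).const_mul c
  rw [mul_one] at h2
  refine h2.congr' ?_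
  filter_upwards [eventually_gt_atTop 0] with n hn
  have hn' : (n : ℝ) ≠ 0 := by exact_mod_cast hn.ne'
  simp only [Function.comp]
  field_simp

theorem log_prod_saved {N Y : ℕ} (hN : 1 ≤ N) :
    Tendsto (fun n : ℕ => Real.log ((∏ p ∈ SavedSet N Y n, p : ℕ) : ℝ) / n) atTop
      (𝓝 ((∑ q ∈ FF N Y, (up N q.1 q.2 - lo N q.1 q.2) : ℚ) : ℝ)) := by
  have h1 : ∀ n : ℕ, Real.log ((∏ p ∈ SavedSet N Y n, p : ℕ) : ℝ) / n
      = ∑ q ∈ FF N Y, (Chebyshev.theta (((up N q.1 q.2 : ℚ) : ℝ) * n) / n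
        - Chebyshev.theta (((lo N q.1 q.2 : ℚ) : ℝ) * n) / n) := by
    intro n
    rw [Nat.cast_prod, Real.log_prod]
    · rw [pntsum_biUnion, Finset.sum_biUnion (pntsum_disj hN), Finset.sum_div]
      apply Finset.sum_congr rfl
      intro q hq
      rw [pntsum_theta_diff hN hq, sub_div]
    · intro p hp
      unfold SavedSet at hp
      rw [Finset.mem_filter] at hp
      exact_mod_cast hp.2.1.ne_zero
  simp only [h1]
  push_cast
  apply tendsto_finset_sum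
  intro q hq
  have hlo : (0 : ℝ) < ((lo N q.1 q.2 : ℚ) : ℝ) := by exact_mod_cast pntsum_lo_pos hN hq
  have hup : (0 : ℝ) < ((up N q.1 q.2 : ℚ) : ℝ) :=
    hlo.trans (by exact_mod_cast pntsum_lo_lt_up hq)
  exact (pntsum_theta hup).sub (pntsum_theta hlo)

end Vale.Agent.P021
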