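import Vale.Agent.P021.Form

namespace Vale.Agent.P021

open Polynomial

theorem saved_seg_ne (y : ℝ) : ((-1 + (y : ℂ) * Complex.I) ^ 2 - 25 : ℂ) ≠ 0 := by
  intro h
  have h1 := congrArg Complex.re h
  have h2 : ((-1 + (y : ℂ) * Complex.I) ^ 2 - 25 : ℂ) = ((-24 - y ^ 2 : ℝ) : ℂ)
      + ((-2 * y : ℝ) : ℂ) * Complex.I := by
    have := Complex.I_sq
    push_cast
    linear_combination (y : ℂ) ^ 2 * this
  rw [h2] at h1
  simp only [Complex.add_re, Complex.ofReal_re, Complex.mul_re, Complex.I_re, Complex.I_im,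
    Complex.ofReal_im, Complex.zero_re] at h1
  nlinarith [sq_nonneg y]

theorem saved_cont_zpow (k : ℤ) :
    Continuous (fun y : ℝ => ((-1 + (y : ℂ) * Complex.I) ^ 2 - 25 : ℂ) ^ k) := by
  apply Continuous.zpow₀ (by fun_prop)
  intro y
  exact Or.inl (saved_seg_ne y)

theorem saved_segInt_sum {ι : Type*} (s : Finset ι) (f : ι → ℂ → ℂ)
    (hf : ∀ i ∈ s, Continuous (fun y : ℝ => f i (-1 + (y : ℂ) * Complex.I))) :
    segInt (fun z => ∑ i ∈ s, f i z) = ∑ i ∈ s, segInt (f i) := by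
  unfold segInt
  rw [intervalIntegral.integral_finsetSum]
  intro i hi
  exact (hf i hi).intervalIntegrable _ _

theorem saved_segInt_mul (c : ℂ) (f : ℂ → ℂ) :
    segInt (fun z => c * f z) = c * segInt f := by
  unfold segInt
  exact intervalIntegral.integral_const_mul _ _

/-- the multiple of all small integers with exactly one factor `p` -/
theorem saved_exists_D {p : ℕ} (hp : p.Prime) (B : ℕ) (hB : B < p ^ 2) :
    ∃ D : ℕ, (∀ j, 1 ≤ j → j ≤ B → j ∣ D) ∧ padicNorm p D = (p : ℚ)⁻¹ := by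
  have := Fact.mk hp
  refine ⟨p * ∏ j ∈ Finset.Icc 1 B, ordCompl[p] j, ?_, ?_⟩
  · intro j h1 h2
    have h3 : ordCompl[p] j ∣ ∏ j ∈ Finset.Icc 1 B, ordCompl[p] j :=
      Finset.dvd_prod_of_mem _ (Finset.mem_Icc.mpr ⟨h1, h2⟩)
    have h4 : ordProj[p] j ∣ p := by
      have h5 : j.factorization p < 2 := by
        by_contra hcon
        push Not at hcon
        have h6 : p ^ 2 ∣ j := (pow_dvd_pow p hcon).trans (Nat.ordProj_dvd j p)
        have := Nat.le_of_dvd (by omega) h6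
        omega
      interval_cases h : j.factorization p
      · simp
      · simp
    calc j = ordProj[p] j * ordCompl[p] j := (Nat.ordProj_mul_ordCompl_eq_self j p).symm
      _ ∣ p * ∏ j ∈ Finset.Icc 1 B, ordCompl[p] j := Nat.mul_dvd_mul h4 h3
  · push_cast
    rw [padicNorm.mul]
    have h1 : padicNorm p (p : ℚ) = (p : ℚ)⁻¹ := padicNorm.padicNorm_p_of_prime
    have h2 : padicNorm p ((∏ j ∈ Finset.Icc 1 B, (ordCompl[p] j : ℕ) : ℕ) : ℚ) = 1 := by
      rw [padicNorm.nat_eq_one_iff]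
      intro hdvd
      rw [Prime.dvd_finsetProd_iff hp.prime] at hdvd
      obtain ⟨j, hj, hj2⟩ := hdvd
      have hj1 := (Finset.mem_Icc.mp hj).1
      exact Nat.not_dvd_ordCompl hp (by omega) hj2
    push_cast at h2
    rw [h1, h2, mul_one]

theorem saved_bco {p : ℕ} (hp : p.Prime) (h2 : p ≠ 2) (h5 : p ≠ 5) (k : ℤ) (B : ℕ)
    (hB : B < p ^ 2) (hk : 2 * k + 1 ≤ B) (hk' : -k ≤ B) :
    padicNorm p (p * bco k) ≤ 1 := by
  have := Fact.mk hp
  obtain ⟨D, hD, hDn⟩ := saved_exists_D hp B hB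
  have hpQ : (0 : ℚ) < p := by exact_mod_cast hp.pos
  rcases le_or_gt 0 k with h | h
  · obtain ⟨k', rfl⟩ := Int.eq_ofNat_of_zero_le h
    obtain ⟨z, hz, _⟩ := bco_nonneg k' D (fun j h1 h2 => hD j h1 (by omega))
    have h3 : padicNorm p ((D : ℚ) * bco (k' : ℤ)) ≤ 1 := by
      rw [hz]; exact padicNorm.of_int z
    rw [padicNorm.mul, hDn] at h3
    rw [padicNorm.mul, padicNorm.padicNorm_p_of_prime]
    exact h3
  · obtain ⟨m, hm⟩ := Int.eq_ofNat_of_zero_le (by omega : 0 ≤ -k)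
    have hk2 : k = -(m : ℤ) := by omega
    subst hk2
    obtain ⟨z, hz⟩ := bco_neg m D (by omega) (fun j h1 h2 => hD j h1 (by omega))
    have h3 : padicNorm p ((10 : ℚ) ^ (2 * m) * 2 ^ (m / 2) * D * bco (-(m : ℤ))) ≤ 1 := by
      rw [hz]; exact padicNorm.of_int z
    have h10 : padicNorm p ((10 : ℚ) ^ (2 * m)) = 1 := by
      have : ((10 : ℚ) ^ (2 * m)) = ((10 ^ (2 * m) : ℕ) : ℚ) := by push_cast; rfl
      rw [this, padicNorm.nat_eq_one_iff]
      intro hdvd
      have h4 := hp.dvd_of_dvd_pow hdvd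
      have h6 : p ∣ 2 * 5 := h4
      rcases (Nat.Prime.dvd_mul hp).mp h6 with h7 | h7
      · exact h2 ((Nat.prime_dvd_prime_iff_eq hp Nat.prime_two).mp h7)
      · exact h5 ((Nat.prime_dvd_prime_iff_eq hp Nat.prime_five).mp h7)
    have h22 : padicNorm p ((2 : ℚ) ^ (m / 2)) = 1 := by
      have : ((2 : ℚ) ^ (m / 2)) = ((2 ^ (m / 2) : ℕ) : ℚ) := by push_cast; rfl
      rw [this, padicNorm.nat_eq_one_iff]
      intro hdvd
      have h4 := hp.dvd_of_dvd_pow hdvd
      exact h2 ((Nat.prime_dvd_prime_iff_eq hp Nat.prime_two).mp h4)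
    rw [padicNorm.mul, padicNorm.mul, padicNorm.mul, h10, h22, one_mul, one_mul, hDn] at h3
    rw [padicNorm.mul, padicNorm.padicNorm_p_of_prime]
    exact h3

/-- The integral of an even polynomial over a power of `s^2-25`. -/
theorem saved_segInt_poly (g : ℤ[X]) (K C' : ℕ) (hK : g.natDegree ≤ K) :
    segInt (fun s => (Polynomial.aeval (s ^ 2) g) * ((s ^ 2 - 25) ^ (-(C' : ℤ))))
      = ∑ i ∈ Finset.range (K + 1), (((g.comp (X + C 25)).coeff i : ℤ) : ℂ) *
        XX ((i : ℤ) - C') := by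
  have h1 : ∀ s : ℂ, s ^ 2 - 25 ≠ 0 → (Polynomial.aeval (s ^ 2) g) * ((s ^ 2 - 25) ^ (-(C' : ℤ)))
      = ∑ i ∈ Finset.range (K + 1), (((g.comp (X + C 25)).coeff i : ℤ) : ℂ) *
        (s ^ 2 - 25) ^ ((i : ℤ) - C') := by
    intro s hs
    have e : Polynomial.aeval (s ^ 2) g = Polynomial.aeval (s ^ 2 - 25) (g.comp (X + C 25)) := by
      rw [Polynomial.aeval_comp]
      have e2 : Polynomial.aeval (s ^ 2 - 25) (X + C 25 : ℤ[X]) = s ^ 2 := by
        rw [map_add, Polynomial.aeval_X, Polynomial.aeval_C]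
        simp
      rw [e2]
    have hdeg : (g.comp (X + C 25)).natDegree < K + 1 := by
      have := Polynomial.natDegree_comp (p := g) (q := (X + C 25 : ℤ[X]))
      rw [this, Polynomial.natDegree_X_add_C]
      omega
    rw [e, Polynomial.aeval_eq_sum_range' hdeg, Finset.sum_mul]
    apply Finset.sum_congr rfl
    intro i _
    rw [zsmul_eq_mul, mul_assoc, ← zpow_natCast, ← zpow_add₀ hs]
    rfl
  have h2 : segInt (fun s => (Polynomial.aeval (s ^ 2) g) * ((s ^ 2 - 25) ^ (-(C' : ℤ))))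
      = segInt (fun s => ∑ i ∈ Finset.range (K + 1), (((g.comp (X + C 25)).coeff i : ℤ) : ℂ) *
        (s ^ 2 - 25) ^ ((i : ℤ) - C')) := by
    unfold segInt
    congr 1
    ext y
    exact h1 _ (saved_seg_ne y)
  rw [h2, saved_segInt_sum]
  · apply Finset.sum_congr rfl
    intro i _
    rw [saved_segInt_mul]
    rfl
  · intro i _
    exact continuous_const.mul (saved_cont_zpow _)

/-- `t^2+6t+25` -/
noncomputable def savedQ : ℤ[X] := X ^ 2 + C 6 * X + C 25

/-- `5t^2+18t+25` -/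
noncomputable def savedR : ℤ[X] := C 5 * X ^ 2 + C 18 * X + C 25

/-- `(t^2+6t+25)^α (t-25)^β` -/
noncomputable def savedH (α β : ℕ) : ℤ[X] := savedQ ^ α * (X - C 25) ^ β

/-- product of the denominators -/
def savedM (α β : ℕ) : ℕ := ∏ i ∈ Finset.range (2 * α + β + 1), (α + 2 * i + 1)

/-- coefficients of the primitive -/
noncomputable def savedc (α β i : ℕ) : ℤ :=
  (savedH α β).coeff i * ((savedM α β / (α + 2 * i + 1) : ℕ) : ℤ)

noncomputable def savedv (α β : ℕ) : ℤ[X] :=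
  ∑ i ∈ Finset.range (2 * α + β + 1), C (savedc α β i) * X ^ i

noncomputable def savedg (m a α β qA qC : ℕ) : ℤ[X] :=
  C (qA : ℤ) * X ^ m * savedQ ^ (a - 1) * savedR * savedv α β * (X - C 25)
    - C (2 * ((qC : ℤ) + 1)) * X ^ (m + 1) * savedQ ^ a * savedv α β

theorem saved_natDegree_Q : savedQ.natDegree ≤ 2 := by
  unfold savedQ
  compute_degree

theorem saved_natDegree_R : savedR.natDegree ≤ 2 := by
  unfold savedR
  compute_degree

theorem saved_natDegree_Qpow (e : ℕ) : (savedQ ^ e).natDegree ≤ 2 * e := by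
  refine (Polynomial.natDegree_pow_le).trans ?_
  have := saved_natDegree_Q
  nlinarith

theorem saved_natDegree_H (α β : ℕ) : (savedH α β).natDegree ≤ 2 * α + β := by
  unfold savedH
  refine (Polynomial.natDegree_mul_le).trans ?_
  have h1 := saved_natDegree_Qpow α
  have h2 : ((X - C 25 : ℤ[X]) ^ β).natDegree ≤ β := by
    refine (Polynomial.natDegree_pow_le).trans ?_
    rw [Polynomial.natDegree_X_sub_C, mul_one]
  omega

theorem saved_natDegree_v (α β : ℕ) : (savedv α β).natDegree ≤ 2 * α + β := by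
  unfold savedv
  apply Polynomial.natDegree_sum_le_of_forall_le
  intro i hi
  refine (Polynomial.natDegree_C_mul_X_pow_le _ _).trans ?_
  have := Finset.mem_range.mp hi
  omega

theorem saved_natDegree_g (m a α β qA qC : ℕ) (ha : 1 ≤ a) :
    (savedg m a α β qA qC).natDegree ≤ m + 2 * a + (2 * α + β) + 1 := by
  unfold savedg
  refine (Polynomial.natDegree_sub_le _ _).trans ?_
  have hv := saved_natDegree_v α β
  have hR := saved_natDegree_R
  have hQ1 := saved_natDegree_Qpow (a - 1)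
  have hQ2 := saved_natDegree_Qpow a
  have hX : ∀ e : ℕ, (X ^ e : ℤ[X]).natDegree ≤ e := fun e => by
    rw [Polynomial.natDegree_X_pow]
  have hC : ∀ c : ℤ, (C c : ℤ[X]).natDegree = 0 := fun c => Polynomial.natDegree_C c
  have hXC : (X - C 25 : ℤ[X]).natDegree ≤ 1 := by rw [Polynomial.natDegree_X_sub_C]
  apply max_le
  · have e1 := Polynomial.natDegree_mul_le (p := C (qA : ℤ) * X ^ m * savedQ ^ (a - 1) * savedR *
      savedv α β) (q := (X - C 25 : ℤ[X]))
    have e2 := Polynomial.natDegree_mul_le (p := C (qA : ℤ) * X ^ m * savedQ ^ (a - 1) * savedR)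
      (q := savedv α β)
    have e3 := Polynomial.natDegree_mul_le (p := C (qA : ℤ) * X ^ m * savedQ ^ (a - 1))
      (q := savedR)
    have e4 := Polynomial.natDegree_mul_le (p := C (qA : ℤ) * X ^ m) (q := savedQ ^ (a - 1))
    have e5 := Polynomial.natDegree_mul_le (p := C (qA : ℤ)) (q := (X ^ m : ℤ[X]))
    have e6 := hX m
    have e7 := hC (qA : ℤ)
    omega
  · have e2 := Polynomial.natDegree_mul_le (p := C (2 * ((qC : ℤ) + 1)) * X ^ (m + 1) *
      savedQ ^ a) (q := savedv α β)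
    have e4 := Polynomial.natDegree_mul_le (p := C (2 * ((qC : ℤ) + 1)) * X ^ (m + 1))
      (q := savedQ ^ a)
    have e5 := Polynomial.natDegree_mul_le (p := C (2 * ((qC : ℤ) + 1))) (q := (X ^ (m + 1) : ℤ[X]))
    have e6 := hX (m + 1)
    have e7 := hC (2 * ((qC : ℤ) + 1))
    omega

theorem saved_c_mul (α β i : ℕ) (hi : i ∈ Finset.range (2 * α + β + 1)) :
    savedc α β i * ((α : ℤ) + 2 * i + 1) = savedM α β * (savedH α β).coeff i := by
  unfold savedc
  have h1 : (α + 2 * i + 1) ∣ savedM α β := Finset.dvd_prod_of_mem _ hi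
  have h2 : (((savedM α β / (α + 2 * i + 1) : ℕ) : ℤ)) * ((α : ℤ) + 2 * i + 1) = savedM α β := by
    have := Nat.div_mul_cancel h1
    exact_mod_cast this
  rw [mul_assoc, h2, mul_comm]

noncomputable def savedV (α β : ℕ) (s : ℂ) : ℂ :=
  ∑ i ∈ Finset.range (2 * α + β + 1), (savedc α β i : ℂ) * s ^ (α + 2 * i + 1)

theorem saved_V_eq (α β : ℕ) (s : ℂ) :
    savedV α β s = s ^ (α + 1) * Polynomial.aeval (s ^ 2) (savedv α β) := by
  unfold savedV savedv
  rw [map_sum, Finset.mul_sum]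
  apply Finset.sum_congr rfl
  intro i _
  rw [map_mul, Polynomial.aeval_C, map_pow, Polynomial.aeval_X]
  rw [← pow_mul]
  simp only [algebraMap_int_eq, eq_intCast]
  ring

theorem saved_V_deriv (α β : ℕ) (s : ℂ) :
    HasDerivAt (savedV α β)
      ((savedM α β : ℂ) * (s ^ α * Polynomial.aeval (s ^ 2) (savedH α β))) s := by
  have h1 : HasDerivAt (savedV α β) (∑ i ∈ Finset.range (2 * α + β + 1),
      (savedc α β i : ℂ) * (((α + 2 * i + 1 : ℕ) : ℂ) * s ^ (α + 2 * i + 1 - 1))) s := by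
    unfold savedV
    apply HasDerivAt.fun_sum
    intro i _
    exact (hasDerivAt_pow (α + 2 * i + 1) s).const_mul _
  have h2 : (∑ i ∈ Finset.range (2 * α + β + 1),
      (savedc α β i : ℂ) * (((α + 2 * i + 1 : ℕ) : ℂ) * s ^ (α + 2 * i + 1 - 1)))
      = ((savedM α β : ℂ) * (s ^ α * Polynomial.aeval (s ^ 2) (savedH α β))) := by
    have hdeg : (savedH α β).natDegree < 2 * α + β + 1 := by
      have := saved_natDegree_H α β
      omega
    rw [Polynomial.aeval_eq_sum_range' hdeg, Finset.mul_sum, Finset.mul_sum]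
    apply Finset.sum_congr rfl
    intro i hi
    have h3 := saved_c_mul α β i hi
    have h4 : (savedc α β i : ℂ) * ((α : ℂ) + 2 * i + 1)
        = (savedM α β : ℂ) * ((savedH α β).coeff i : ℂ) := by exact_mod_cast h3
    rw [Nat.add_sub_cancel, zsmul_eq_mul]
    push_cast
    rw [← pow_mul, pow_add]
    linear_combination (s ^ α * s ^ (2 * i)) * h4
  rw [← h2]
  exact h1

/-- the function `s Q4(s)` -/
noncomputable def savedU (s : ℂ) : ℂ := s * (s ^ 4 + 6 * s ^ 2 + 25)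

theorem saved_aeval_Q (s : ℂ) : Polynomial.aeval (s ^ 2) savedQ = s ^ 4 + 6 * s ^ 2 + 25 := by
  unfold savedQ
  simp only [map_add, map_mul, map_pow, Polynomial.aeval_X, Polynomial.aeval_C]
  simp only [algebraMap_int_eq, eq_intCast]
  push_cast
  ring

theorem saved_aeval_R (s : ℂ) : Polynomial.aeval (s ^ 2) savedR = 5 * s ^ 4 + 18 * s ^ 2 + 25 := by
  unfold savedR
  simp only [map_add, map_mul, map_pow, Polynomial.aeval_X, Polynomial.aeval_C]
  simp only [algebraMap_int_eq, eq_intCast]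
  push_cast
  ring

theorem saved_aeval_H (α β : ℕ) (s : ℂ) : Polynomial.aeval (s ^ 2) (savedH α β)
    = (s ^ 4 + 6 * s ^ 2 + 25) ^ α * (s ^ 2 - 25) ^ β := by
  unfold savedH
  rw [map_mul, map_pow, map_pow, saved_aeval_Q, map_sub, Polynomial.aeval_X, Polynomial.aeval_C]
  simp

theorem saved_U_deriv (s : ℂ) : HasDerivAt savedU (Polynomial.aeval (s ^ 2) savedR) s := by
  rw [saved_aeval_R]
  have h1 : HasDerivAt savedU (1 * (s ^ 4 + 6 * s ^ 2 + 25) +
      s * (((4 : ℕ) : ℂ) * s ^ (4 - 1) + 6 * (((2 : ℕ) : ℂ) * s ^ (2 - 1)))) s := by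
    unfold savedU
    exact (hasDerivAt_id s).mul (((hasDerivAt_pow 4 s).add ((hasDerivAt_pow 2 s).const_mul 6)).add_const 25)
  have h2 : 1 * (s ^ 4 + 6 * s ^ 2 + 25) +
      s * (((4 : ℕ) : ℂ) * s ^ (4 - 1) + 6 * (((2 : ℕ) : ℂ) * s ^ (2 - 1)))
      = 5 * s ^ 4 + 18 * s ^ 2 + 25 := by
    push_cast
    ring
  rw [← h2]
  exact h1

/-- the primitive -/
noncomputable def savedG (a e α β : ℕ) (s : ℂ) : ℂ :=
  savedU s ^ a * savedV α β s * (s ^ 2 - 25) ^ (-(e : ℤ))

theorem saved_G_deriv (N n p qA qC α γ : ℕ) (hp : 1 ≤ p) (hqA : 1 ≤ qA)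
    (hα : 2 * N * n = qA * p + α) (hγ : (3 * N - 1) * n = qC * p + γ) (hγ' : γ < p)
    (s : ℂ) (hs : s ^ 2 - 25 ≠ 0) :
    HasDerivAt (savedG (qA * p) (p * (qC + 1)) α (p - 1 - γ))
      ((savedM α (p - 1 - γ) : ℂ) * RR N n s + (p : ℂ) *
        (Polynomial.aeval (s ^ 2) (savedg (N * n) (qA * p) α (p - 1 - γ) qA qC) *
          (s ^ 2 - 25) ^ (-((p * (qC + 1) + 1 : ℕ) : ℤ)))) s := by
  set a := qA * p with ha
  set e := p * (qC + 1) with he
  set β := p - 1 - γ with hβ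
  have ha1 : 1 ≤ a := Nat.mul_pos hqA hp
  have hd1 := (saved_U_deriv s).pow a
  have hd2 := saved_V_deriv α β s
  have hd3 : HasDerivAt (fun s : ℂ => (s ^ 2 - 25) ^ (-(e : ℤ)))
      ((((-(e : ℤ) : ℤ) : ℂ) * (s ^ 2 - 25) ^ (-(e : ℤ) - 1)) * (((2 : ℕ) : ℂ) * s ^ (2 - 1))) s := by
    have h1 := (hasDerivAt_zpow (-(e : ℤ)) (s ^ 2 - 25) (Or.inl hs))
    have h2 : HasDerivAt (fun s : ℂ => s ^ 2 - 25) (((2 : ℕ) : ℂ) * s ^ (2 - 1)) s :=
      (hasDerivAt_pow 2 s).sub_const 25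
    exact h1.comp s h2
  have hd := (hd1.mul hd2).mul hd3
  refine HasDerivAt.congr_deriv hd ?_
  have hV := saved_V_eq α β s
  have hH := saved_aeval_H α β s
  have hQ := saved_aeval_Q s
  set T : ℂ := s ^ 2 - 25 with hT
  set Q : ℂ := s ^ 4 + 6 * s ^ 2 + 25 with hQdef
  set v : ℂ := Polynomial.aeval (s ^ 2) (savedv α β) with hv
  set r : ℂ := Polynomial.aeval (s ^ 2) savedR with hr
  have hZ1 : T ^ (-(e : ℤ) - 1) = T ^ (-((e + 1 : ℕ) : ℤ)) := by
    congr 1; push_cast; ring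
  have hZ2 : T ^ (-(e : ℤ)) = T * T ^ (-((e + 1 : ℕ) : ℤ)) := by
    rw [← zpow_one_add₀ hs]
    congr 1; push_cast; ring
  set Z : ℂ := T ^ (-((e + 1 : ℕ) : ℤ)) with hZ
  have hU : savedU s = s * Q := rfl
  have hUa : savedU s ^ (a - 1) = s ^ (a - 1) * Q ^ (a - 1) := by rw [hU, mul_pow]
  have haα : a + α = 2 * (N * n) := by rw [← mul_assoc]; exact hα.symm
  have hs1 : s ^ (a - 1) * s ^ (α + 1) = (s ^ 2) ^ (N * n) := by
    rw [← pow_add, ← pow_mul]
    congr 1
    omega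
  have hs2 : s ^ a * s ^ (α + 1) * s = (s ^ 2) ^ (N * n + 1) := by
    rw [← pow_add, ← pow_succ, ← pow_mul]
    congr 1
    omega
  have hg : Polynomial.aeval (s ^ 2) (savedg (N * n) a α β qA qC)
      = (qA : ℂ) * (s ^ 2) ^ (N * n) * Q ^ (a - 1) * r * v * T
        - (2 * ((qC : ℂ) + 1)) * (s ^ 2) ^ (N * n + 1) * Q ^ a * v := by
    unfold savedg
    simp only [map_sub, map_mul, map_pow, Polynomial.aeval_X, Polynomial.aeval_C, hQ]
    simp only [algebraMap_int_eq, eq_intCast]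
    push_cast
    rfl
  have hRR : savedU s ^ a * (s ^ α * (Q ^ α * T ^ β)) * T ^ (-(e : ℤ)) = RR N n s := by
    unfold RR
    have hCC : CC N n = qC * p + γ + 1 := by unfold CC; rw [hγ]
    have h1 : T ^ β * T ^ (-(e : ℤ)) = (T ^ CC N n)⁻¹ := by
      rw [← zpow_natCast, ← zpow_add₀ hs, ← zpow_natCast, ← zpow_neg]
      congr 1
      rw [hCC, hβ, he]
      have : ((p - 1 - γ : ℕ) : ℤ) = p - 1 - γ := by omega
      rw [this]
      push_cast
      ring
    have h2 : s ^ a * s ^ α = (s ^ 2) ^ (N * n) := by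
      rw [← pow_add, ← pow_mul, haα]
    have h3 : Q ^ a * Q ^ α = Q ^ (2 * N * n) := by
      rw [← pow_add, haα, mul_assoc]
    rw [hU, mul_pow, div_eq_mul_inv]
    calc s ^ a * Q ^ a * (s ^ α * (Q ^ α * T ^ β)) * T ^ (-(e : ℤ))
        = (s ^ a * s ^ α) * (Q ^ a * Q ^ α) * (T ^ β * T ^ (-(e : ℤ))) := by ring
      _ = _ := by rw [h1, h2, h3]
  have hcast1 : ((a : ℕ) : ℂ) = (p : ℂ) * qA := by rw [ha]; push_cast; ring
  have hcast2 : (((-(e : ℤ) : ℤ)) : ℂ) = -((p : ℂ) * ((qC : ℂ) + 1)) := by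
    rw [he]; push_cast; ring
  simp only [Pi.mul_apply, Pi.pow_apply]
  rw [hg, ← hRR, hH, hV, hZ1, hcast1, hcast2, hUa, hZ2]
  have hUa2 : savedU s ^ a = s ^ a * Q ^ a := by rw [hU, mul_pow]
  rw [hUa2]
  push_cast
  have e1 : (s ^ (2 - 1) : ℂ) = s := by simp
  rw [e1]
  linear_combination ((p : ℂ) * qA * Q ^ (a - 1) * r * v * T * Z) * hs1
    - (2 * (p : ℂ) * ((qC : ℂ) + 1) * Q ^ a * v * Z) * hs2

theorem saved_RR_cont (N n : ℕ) :
    Continuous (fun y : ℝ => RR N n (-1 + (y : ℂ) * Complex.I)) := by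
  unfold RR
  apply Continuous.div (by fun_prop) (by fun_prop)
  intro y
  exact pow_ne_zero _ (saved_seg_ne y)

theorem saved_g_cont (g : ℤ[X]) (k : ℤ) :
    Continuous (fun y : ℝ => Polynomial.aeval ((-1 + (y : ℂ) * Complex.I) ^ 2) g *
      (((-1 + (y : ℂ) * Complex.I) ^ 2 - 25 : ℂ) ^ k)) := by
  apply Continuous.mul _ (saved_cont_zpow k)
  exact g.continuous_aeval.comp (by fun_prop)

theorem saved_G_zero (a e α β : ℕ) (ha : 1 ≤ a) (s : ℂ) (hs : s ^ 4 + 6 * s ^ 2 + 25 = 0) :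
    savedG a e α β s = 0 := by
  unfold savedG savedU
  rw [hs, mul_zero, zero_pow (by omega), zero_mul, zero_mul]

theorem saved_root (ε : ℂ) (hε : ε ^ 2 = 4) :
    (-1 + ε * Complex.I) ^ 4 + 6 * (-1 + ε * Complex.I) ^ 2 + 25 = 0 := by
  have hI := Complex.I_sq
  have h1 : (-1 + ε * Complex.I) ^ 2 = -3 - 2 * ε * Complex.I := by
    linear_combination ε ^ 2 * hI - hε
  have h2 : (-1 + ε * Complex.I) ^ 4 = ((-1 + ε * Complex.I) ^ 2) ^ 2 := by ring
  rw [h2, h1]
  linear_combination (4 * ε ^ 2) * hI - 4 * hε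

theorem saved_segInt_eq (N n p qA qC α γ : ℕ) (hp : 1 ≤ p) (hqA : 1 ≤ qA)
    (hα : 2 * N * n = qA * p + α) (hγ : (3 * N - 1) * n = qC * p + γ) (hγ' : γ < p) :
    (savedM α (p - 1 - γ) : ℂ) * segInt (RR N n) = -((p : ℂ) *
      segInt (fun s => Polynomial.aeval (s ^ 2) (savedg (N * n) (qA * p) α (p - 1 - γ) qA qC) *
          (s ^ 2 - 25) ^ (-((p * (qC + 1) + 1 : ℕ) : ℤ)))) := by
  set M : ℂ := (savedM α (p - 1 - γ) : ℂ) with hM
  set g : ℤ[X] := savedg (N * n) (qA * p) α (p - 1 - γ) qA qC with hg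
  set k : ℤ := (-((p * (qC + 1) + 1 : ℕ) : ℤ)) with hk
  have hderiv : ∀ y : ℝ, HasDerivAt (fun y : ℝ => savedG (qA * p) (p * (qC + 1)) α (p - 1 - γ)
      (-1 + (y : ℂ) * Complex.I))
      ((M * RR N n (-1 + (y : ℂ) * Complex.I) + (p : ℂ) *
        (Polynomial.aeval ((-1 + (y : ℂ) * Complex.I) ^ 2) g *
          ((-1 + (y : ℂ) * Complex.I) ^ 2 - 25) ^ k)) * Complex.I) y := by
    intro y
    have h1 := saved_G_deriv N n p qA qC α γ hp hqA hα hγ hγ' (-1 + (y : ℂ) * Complex.I)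
      (saved_seg_ne y)
    have h2 : HasDerivAt (fun z : ℂ => -1 + z * Complex.I) (1 * Complex.I) (y : ℂ) :=
      ((hasDerivAt_id (y : ℂ)).mul_const Complex.I).const_add (-1)
    have h3 := h1.comp (y : ℂ) h2
    have h4 := h3.comp_ofReal
    rw [one_mul] at h4
    exact h4
  have hcont : Continuous (fun y : ℝ => ((M * RR N n (-1 + (y : ℂ) * Complex.I) + (p : ℂ) *
        (Polynomial.aeval ((-1 + (y : ℂ) * Complex.I) ^ 2) g *
          ((-1 + (y : ℂ) * Complex.I) ^ 2 - 25) ^ k)) * Complex.I)) :=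
    (((saved_RR_cont N n).const_mul M).add ((saved_g_cont g k).const_mul (p : ℂ))).mul_const _
  have hFTC := intervalIntegral.integral_eq_sub_of_hasDerivAt (a := (-2 : ℝ)) (b := 2)
    (fun y _ => hderiv y) (hcont.intervalIntegrable _ _)
  have ha : 1 ≤ qA * p := Nat.mul_pos hqA hp
  rw [saved_G_zero _ _ _ _ ha _ (saved_root _ (by push_cast; norm_num)),
    saved_G_zero _ _ _ _ ha _ (saved_root _ (by push_cast; norm_num)), sub_zero,
    intervalIntegral.integral_mul_const] at hFTC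
  have h5 : (∫ y in (-2 : ℝ)..2, (M * RR N n (-1 + (y : ℂ) * Complex.I) + (p : ℂ) *
        (Polynomial.aeval ((-1 + (y : ℂ) * Complex.I) ^ 2) g *
          ((-1 + (y : ℂ) * Complex.I) ^ 2 - 25) ^ k))) = 0 := by
    rcases mul_eq_zero.mp hFTC with h | h
    · exact h
    · exact absurd h Complex.I_ne_zero
  rw [intervalIntegral.integral_add (((saved_RR_cont N n).const_mul M).intervalIntegrable _ _)
    (((saved_g_cont g k).const_mul (p : ℂ)).intervalIntegrable _ _),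
    intervalIntegral.integral_const_mul, intervalIntegral.integral_const_mul] at h5
  unfold segInt
  exact eq_neg_of_add_eq_zero_left h5

theorem saved_not_dvd_M {N n p qA : ℕ} (hp : p.Prime) (h2 : p ≠ 2)
    {α γ : ℕ} (hα : 2 * N * n = qA * p + α)
    (hγ' : γ < p)
    (hcond : (Odd qA ∧ 5 * α ≤ 2 * γ) ∨ (Even qA ∧ 5 * α + p ≤ 2 * γ)) :
    ¬ p ∣ savedM α (p - 1 - γ) := by
  intro hdvd
  unfold savedM at hdvd
  rw [Prime.dvd_finsetProd_iff hp.prime] at hdvd
  obtain ⟨i, hi, hpi⟩ := hdvd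
  rw [Finset.mem_range] at hi
  have hpos := hp.pos
  rcases hcond with ⟨hodd, hc⟩ | ⟨_, hc⟩
  · have hpodd : Odd p := hp.odd_of_ne_two h2
    have hαodd : Odd α := by
      have h3 : Even (qA * p + α) := by rw [← hα, mul_assoc]; exact even_two_mul _
      have h4 : Odd (qA * p) := hodd.mul hpodd
      rcases Nat.even_or_odd α with h | h
      · exact absurd h3 (Nat.not_even_iff_odd.mpr (h4.add_even h))
      · exact h
    obtain ⟨c, hcc⟩ := hpi
    have hlt : α + 2 * i + 1 < 2 * p := by omega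
    have hc1 : c < 2 := by
      by_contra hcon
      push Not at hcon
      have : p * 2 ≤ p * c := Nat.mul_le_mul_left p hcon
      omega
    have hc2 : c ≠ 0 := by
      rintro rfl
      omega
    have hc3 : c = 1 := by omega
    subst hc3
    obtain ⟨x, hx⟩ := hpodd
    obtain ⟨y, hy⟩ := hαodd
    omega
  · have hlt : α + 2 * i + 1 < p := by omega
    have := Nat.le_of_dvd (by omega) hpi
    omega

theorem BB_saved {N n p qA qC : ℕ} (hN : 1 ≤ N) (hn : 1 ≤ n) (hp : p.Prime) (h2 : p ≠ 2)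
    (h5 : p ≠ 5) {α γ : ℕ} (hα : 2 * N * n = qA * p + α) (hα' : α < p)
    (hγ : (3 * N - 1) * n = qC * p + γ) (hγ' : γ < p) (hqA : 1 ≤ qA)
    (hcond : (Odd qA ∧ 5 * α ≤ 2 * γ) ∨ (Even qA ∧ 5 * α + p ≤ 2 * γ))
    (hbig : 100 * N * n < p ^ 2) :
    padicNorm p (BB N n) ≤ 1 := by
  have := Fact.mk hp
  have hppos : 1 ≤ p := hp.pos
  set β := p - 1 - γ with hβ
  set g : ℤ[X] := savedg (N * n) (qA * p) α β qA qC with hg
  set C' : ℕ := p * (qC + 1) + 1 with hC'
  set K : ℕ := N * n + 2 * (qA * p) + (2 * α + β) + 1 with hK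
  set M : ℕ := savedM α β with hM
  have hMnd : ¬ p ∣ M := saved_not_dvd_M (N := N) (n := n) (qA := qA) hp h2 hα hγ' hcond
  have hNn : 1 ≤ N * n := Nat.mul_pos hN hn
  have hqAp : qA * p ≤ 2 * (N * n) := by
    have : 2 * N * n = 2 * (N * n) := by ring
    omega
  have hpA : p ≤ 2 * (N * n) := le_trans (Nat.le_mul_of_pos_left p hqA) hqAp
  have hKb : K ≤ 8 * (N * n) := by
    have h1 : 2 * α + β ≤ p - 1 := by omega
    omega
  have hCb : C' ≤ 10 * (N * n) := by
    have h1 : (3 * N - 1) * n ≤ 3 * (N * n) := by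
      calc (3 * N - 1) * n ≤ (3 * N) * n := Nat.mul_le_mul_right n (Nat.sub_le _ _)
        _ = 3 * (N * n) := by ring
    have h2 : p * (qC + 1) = qC * p + p := by ring
    omega
  -- the linear relation
  have hseg := saved_segInt_eq N n p qA qC α γ hppos hqA hα hγ hγ'
  rw [saved_segInt_poly g K C' (saved_natDegree_g _ _ _ _ _ _ (Nat.mul_pos hqA hppos)),
    segInt_RR hN n] at hseg
  have hsum : ∑ i ∈ Finset.range (K + 1), (((g.comp (X + C 25)).coeff i : ℤ) : ℂ) *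
        XX ((i : ℤ) - C')
      = ((∑ i ∈ Finset.range (K + 1), ((g.comp (X + C 25)).coeff i : ℚ) *
          aco ((i : ℤ) - C') : ℚ) : ℂ) * ((Real.pi : ℂ) / 2)
        + ((∑ i ∈ Finset.range (K + 1), ((g.comp (X + C 25)).coeff i : ℚ) *
          bco ((i : ℤ) - C') : ℚ) : ℂ) := by
    push_cast
    rw [Finset.sum_mul, ← Finset.sum_add_distrib]
    apply Finset.sum_congr rfl
    intro i _
    rw [XX_eq]
    ring
  rw [hsum] at hseg
  have hform := form_unique (a := M * AA N n) (b := M * BB N n)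
    (a' := -(p * ∑ i ∈ Finset.range (K + 1), ((g.comp (X + C 25)).coeff i : ℚ) *
          aco ((i : ℤ) - C')))
    (b' := -(p * ∑ i ∈ Finset.range (K + 1), ((g.comp (X + C 25)).coeff i : ℚ) *
          bco ((i : ℤ) - C'))) (by
      push_cast
      push_cast at hseg
      linear_combination hseg)
  have hBB := hform.2
  have hM1 : padicNorm p (M : ℚ) = 1 := by
    rw [padicNorm.nat_eq_one_iff]; exact hMnd
  have h1 : padicNorm p (M * BB N n) = padicNorm p (BB N n) := by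
    rw [padicNorm.mul, hM1, one_mul]
  rw [← h1, hBB, padicNorm.neg, Finset.mul_sum]
  apply padicNorm.sum_le' _ zero_le_one
  intro i hi
  rw [Finset.mem_range] at hi
  have e : (p : ℚ) * (((g.comp (X + C 25)).coeff i : ℚ) * bco ((i : ℤ) - C'))
      = (((g.comp (X + C 25)).coeff i : ℤ) : ℚ) * (p * bco ((i : ℤ) - C')) := by
    push_cast; ring
  rw [e, padicNorm.mul]
  have h3 : padicNorm p (((g.comp (X + C 25)).coeff i : ℤ) : ℚ) ≤ 1 := padicNorm.of_int _
  have h4 : padicNorm p (p * bco ((i : ℤ) - C')) ≤ 1 := by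
    apply saved_bco hp h2 h5 _ (100 * N * n) hbig
    · push_cast
      have : ((K : ℕ) : ℤ) ≤ 8 * (N * n) := by exact_mod_cast hKb
      have h6 : (i : ℤ) ≤ K := by exact_mod_cast (by omega : i ≤ K)
      have h7 : (1 : ℤ) ≤ N * n := by exact_mod_cast hNn
      have h8 : (0 : ℤ) ≤ C' := by positivity
      nlinarith
    · have h6 : (C' : ℤ) ≤ 10 * (N * n) := by exact_mod_cast hCb
      have h7 : (1 : ℤ) ≤ N * n := by exact_mod_cast hNn
      have h8 : (0 : ℤ) ≤ i := by positivity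
      push_cast
      nlinarith
  calc _ ≤ (1 : ℚ) * 1 := mul_le_mul h3 h4 (padicNorm.nonneg _) zero_le_one
    _ = 1 := one_mul 1

end Vale.Agent.P021
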