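import Vale.Agent.P021.Basic

namespace Vale.Agent.P021

/-- pointwise bound used along the contour -/
def upperGood (N : ℕ) (B ρ : ℝ) (s : ℂ) : Prop :=
  ‖s * (s ^ 4 + 6 * s ^ 2 + 25)‖ ^ (2 * N) ≤ B * ‖s ^ 2 - 25‖ ^ (3 * N - 1) ∧ ‖s‖ ≤ ρ

theorem upperGood_conj {N : ℕ} {B ρ : ℝ} {s : ℂ} (h : upperGood N B ρ s) :
    upperGood N B ρ ((starRingEnd ℂ) s) := by
  obtain ⟨h1, h2⟩ := h
  have e1 : (starRingEnd ℂ) s * (((starRingEnd ℂ) s) ^ 4 + 6 * ((starRingEnd ℂ) s) ^ 2 + 25)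
      = (starRingEnd ℂ) (s * (s ^ 4 + 6 * s ^ 2 + 25)) := by
    simp only [map_mul, map_add, map_pow, map_ofNat]
  have e2 : ((starRingEnd ℂ) s) ^ 2 - 25 = (starRingEnd ℂ) (s ^ 2 - 25) := by
    simp only [map_sub, map_pow, map_ofNat]
  refine ⟨?_, ?_⟩
  · rw [e1, e2, RCLike.norm_conj, RCLike.norm_conj]
    exact h1
  · rw [RCLike.norm_conj]
    exact h2

theorem upper_ne {s : ℂ} (hs : ‖s‖ < 5) : s ^ 2 - 25 ≠ 0 := by
  intro h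
  have h1 : s ^ 2 = 25 := by linear_combination h
  have h2 : ‖s‖ ^ 2 = 25 := by
    rw [← norm_pow, h1]
    norm_num
  nlinarith [norm_nonneg s]

theorem upper_lower {ρ : ℝ} {s : ℂ} (hs : ‖s‖ ≤ ρ) : 25 - ρ ^ 2 ≤ ‖s ^ 2 - 25‖ := by
  have h1 : ‖(25 : ℂ)‖ - ‖s ^ 2‖ ≤ ‖(25 : ℂ) - s ^ 2‖ := norm_sub_norm_le _ _
  rw [norm_sub_rev, norm_pow] at h1
  have h2 : ‖(25 : ℂ)‖ = 25 := by norm_num
  rw [h2] at h1
  have h3 : ‖s‖ ^ 2 ≤ ρ ^ 2 := pow_le_pow_left₀ (norm_nonneg s) hs 2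
  linarith

theorem upper_norm_RR {N : ℕ} {B ρ : ℝ} (hρ : ρ < 5) (hρ0 : 0 ≤ ρ) {s : ℂ}
    (h : upperGood N B ρ s) (n : ℕ) : ‖RR N n s‖ ≤ B ^ n / (25 - ρ ^ 2) := by
  obtain ⟨h1, h2⟩ := h
  have hlow := upper_lower h2
  have hpos : 0 < 25 - ρ ^ 2 := by nlinarith
  have hne : 0 < ‖s ^ 2 - 25‖ := lt_of_lt_of_le hpos hlow
  unfold RR CC
  rw [norm_div, norm_mul, norm_pow, norm_pow, norm_pow, norm_pow]
  have e1 : (‖s‖ ^ 2) ^ (N * n) * ‖s ^ 4 + 6 * s ^ 2 + 25‖ ^ (2 * N * n)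
      = (‖s * (s ^ 4 + 6 * s ^ 2 + 25)‖ ^ (2 * N)) ^ n := by
    rw [norm_mul, mul_pow, mul_pow, ← pow_mul, ← pow_mul, ← pow_mul]
    congr 2
    ring
  have e2 : ‖s ^ 2 - 25‖ ^ ((3 * N - 1) * n + 1)
      = (‖s ^ 2 - 25‖ ^ (3 * N - 1)) ^ n * ‖s ^ 2 - 25‖ := by
    rw [pow_succ, pow_mul]
  rw [e1, e2]
  have hM : 0 < ‖s ^ 2 - 25‖ ^ (3 * N - 1) := pow_pos hne _
  have hB : 0 ≤ B := by
    have h3 : 0 ≤ B * ‖s ^ 2 - 25‖ ^ (3 * N - 1) :=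
      le_trans (pow_nonneg (norm_nonneg _) _) h1
    exact nonneg_of_mul_nonneg_left h3 hM
  have h4 : (‖s * (s ^ 4 + 6 * s ^ 2 + 25)‖ ^ (2 * N)) ^ n
      ≤ (B * ‖s ^ 2 - 25‖ ^ (3 * N - 1)) ^ n :=
    pow_le_pow_left₀ (pow_nonneg (norm_nonneg _) _) h1 n
  rw [mul_pow] at h4
  have hMn : 0 < (‖s ^ 2 - 25‖ ^ (3 * N - 1)) ^ n := pow_pos hM n
  rw [div_le_div_iff₀ (mul_pos hMn hne) hpos]
  calc (‖s * (s ^ 4 + 6 * s ^ 2 + 25)‖ ^ (2 * N)) ^ n * (25 - ρ ^ 2)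
      ≤ (B ^ n * (‖s ^ 2 - 25‖ ^ (3 * N - 1)) ^ n) * ‖s ^ 2 - 25‖ :=
        mul_le_mul h4 hlow hpos.le (mul_nonneg (pow_nonneg hB n) hMn.le)
    _ = B ^ n * ((‖s ^ 2 - 25‖ ^ (3 * N - 1)) ^ n * ‖s ^ 2 - 25‖) := by ring

theorem upper_step {N : ℕ} {B ρ : ℝ} (hρ : ρ < 5) (hρ0 : 0 ≤ ρ) (n : ℕ) (V : ℂ → ℂ)
    (hV : ∀ z ∈ Metric.ball (0 : ℂ) 5, HasDerivAt V (RR N n z) z) (a b : ℂ)
    (hab : ∀ s ∈ segment ℝ a b, upperGood N B ρ s) :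
    ‖V b - V a‖ ≤ B ^ n / (25 - ρ ^ 2) * ‖b - a‖ := by
  apply Convex.norm_image_sub_le_of_norm_hasDerivWithin_le (f' := RR N n)
    (s := segment ℝ a b)
  · intro s hs
    apply (hV s ?_).hasDerivWithinAt
    rw [Metric.mem_ball, dist_zero_right]
    exact lt_of_le_of_lt (hab s hs).2 hρ
  · intro s hs
    exact upper_norm_RR hρ hρ0 (hab s hs) n
  · exact convex_segment a b
  · exact left_mem_segment ℝ a b
  · exact right_mem_segment ℝ a b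

theorem upper_segment_conj {a b s : ℂ}
    (hs : s ∈ segment ℝ ((starRingEnd ℂ) a) ((starRingEnd ℂ) b)) :
    (starRingEnd ℂ) s ∈ segment ℝ a b := by
  obtain ⟨x, y, hx, hy, hxy, rfl⟩ := hs
  refine ⟨x, y, hx, hy, hxy, ?_⟩
  simp [Complex.real_smul]

theorem upper_good_segment {N : ℕ} {B ρ : ℝ} {a b : ℂ}
    (ha : ‖a‖ ≤ ρ) (hb : ‖b‖ ≤ ρ)
    (h : ∀ s ∈ segment ℝ a b,
      ‖s * (s ^ 4 + 6 * s ^ 2 + 25)‖ ^ (2 * N) ≤ B * ‖s ^ 2 - 25‖ ^ (3 * N - 1)) :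
    ∀ s ∈ segment ℝ a b, upperGood N B ρ s := by
  intro s hs
  refine ⟨h s hs, ?_⟩
  have hc : Convex ℝ (Metric.closedBall (0 : ℂ) ρ) := convex_closedBall 0 ρ
  have := hc.segment_subset (x := a) (y := b) (by simpa using ha) (by simpa using hb) hs
  simpa using this

theorem upper_diff (N n : ℕ) : DifferentiableOn ℂ (RR N n) (Metric.ball (0 : ℂ) 5) := by
  intro s hs
  have h5 : ‖s‖ < 5 := by simpa using hs
  have hne := upper_ne h5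
  unfold RR
  apply DifferentiableAt.differentiableWithinAt
  apply DifferentiableAt.div
  · fun_prop
  · fun_prop
  · exact pow_ne_zero _ hne

theorem segInt_le {N : ℕ} (hN : 1 ≤ N) (v : ℂ) (hv : ‖v‖ < 5) (B : ℝ)
    (h1 : ∀ s ∈ segment ℝ (0 : ℂ) v,
      ‖s * (s ^ 4 + 6 * s ^ 2 + 25)‖ ^ (2 * N) ≤ B * ‖s ^ 2 - 25‖ ^ (3 * N - 1))
    (h2 : ∀ s ∈ segment ℝ v (-1 + 2 * Complex.I),
      ‖s * (s ^ 4 + 6 * s ^ 2 + 25)‖ ^ (2 * N) ≤ B * ‖s ^ 2 - 25‖ ^ (3 * N - 1)) :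
    ∃ K : ℝ, ∀ n : ℕ, ‖segInt (RR N n)‖ ≤ K * B ^ n := by
  set s1 : ℂ := -1 + 2 * Complex.I with hs1
  have hs1n : ‖s1‖ < 3 := by
    have : ‖s1‖ ^ 2 = 5 := by
      rw [← Complex.normSq_eq_norm_sq, Complex.normSq_apply, hs1]
      simp
      norm_num
    nlinarith [norm_nonneg s1]
  set ρ : ℝ := max ‖v‖ 3 with hρdef
  have hρ : ρ < 5 := max_lt hv (by norm_num)
  have hρ0 : 0 ≤ ρ := le_trans (norm_nonneg v) (le_max_left _ _)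
  have hpos : 0 < 25 - ρ ^ 2 := by nlinarith
  have g1 : ∀ s ∈ segment ℝ (0 : ℂ) v, upperGood N B ρ s :=
    upper_good_segment (by simpa using hρ0) (le_max_left _ _) h1
  have g2 : ∀ s ∈ segment ℝ v s1, upperGood N B ρ s :=
    upper_good_segment (le_max_left _ _) (hs1n.le.trans (le_max_right _ _)) h2
  have g3 : ∀ s ∈ segment ℝ (0 : ℂ) ((starRingEnd ℂ) v), upperGood N B ρ s := by
    intro s hs
    have h3 : (starRingEnd ℂ) s ∈ segment ℝ (0 : ℂ) v := by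
      apply upper_segment_conj
      simpa using hs
    simpa using upperGood_conj (g1 _ h3)
  have g4 : ∀ s ∈ segment ℝ ((starRingEnd ℂ) v) ((starRingEnd ℂ) s1), upperGood N B ρ s := by
    intro s hs
    simpa using upperGood_conj (g2 _ (upper_segment_conj hs))
  refine ⟨(‖s1 - v‖ + ‖v - 0‖ + ‖(starRingEnd ℂ) v - 0‖ +
    ‖(starRingEnd ℂ) s1 - (starRingEnd ℂ) v‖) / (25 - ρ ^ 2), fun n => ?_⟩
  obtain ⟨V, hV⟩ := (upper_diff N n).isExactOn_ball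
  have k1 := upper_step hρ hρ0 n V hV v s1 g2
  have k2 := upper_step hρ hρ0 n V hV 0 v g1
  have k3 := upper_step hρ hρ0 n V hV 0 ((starRingEnd ℂ) v) g3
  have k4 := upper_step hρ hρ0 n V hV ((starRingEnd ℂ) v) ((starRingEnd ℂ) s1) g4
  -- the path
  have hball : ∀ y ∈ Set.uIcc (-2 : ℝ) 2, (-1 + (y : ℂ) * Complex.I) ∈ Metric.ball (0 : ℂ) 5 := by
    intro y hy
    rw [Set.uIcc_of_le (by norm_num)] at hy
    rw [Metric.mem_ball, dist_zero_right]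
    have : ‖(-1 + (y : ℂ) * Complex.I)‖ ^ 2 = 1 + y ^ 2 := by
      rw [← Complex.normSq_eq_norm_sq, Complex.normSq_apply]
      simp
      ring
    have hy2 : y ^ 2 ≤ 4 := by nlinarith [hy.1, hy.2]
    nlinarith [norm_nonneg (-1 + (y : ℂ) * Complex.I)]
  have hderiv : ∀ y ∈ Set.uIcc (-2 : ℝ) 2,
      HasDerivAt (fun t : ℝ => V (-1 + (t : ℂ) * Complex.I))
        (RR N n (-1 + (y : ℂ) * Complex.I) * Complex.I) y := by
    intro y hy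
    have hg : HasDerivAt (fun t : ℝ => (-1 + (t : ℂ) * Complex.I)) Complex.I y := by
      have h5 : HasDerivAt (fun t : ℝ => (t : ℂ)) 1 y := Complex.ofRealCLM.hasDerivAt
      simpa using (h5.mul_const Complex.I).const_add (-1)
    exact HasDerivAt.comp y (hV _ (hball y hy)) hg
  have hcont : ContinuousOn (fun y : ℝ => RR N n (-1 + (y : ℂ) * Complex.I) * Complex.I)
      (Set.uIcc (-2 : ℝ) 2) := by
    apply ContinuousOn.mul _ continuousOn_const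
    apply ((upper_diff N n).continuousOn).comp
    · fun_prop
    · exact hball
  have hint : ∫ y in (-2 : ℝ)..2, RR N n (-1 + (y : ℂ) * Complex.I) * Complex.I
      = V (-1 + ((2 : ℝ) : ℂ) * Complex.I) - V (-1 + ((-2 : ℝ) : ℂ) * Complex.I) :=
    intervalIntegral.integral_eq_sub_of_hasDerivAt hderiv hcont.intervalIntegrable
  rw [intervalIntegral.integral_mul_const] at hint
  have e1 : (-1 + ((2 : ℝ) : ℂ) * Complex.I) = s1 := by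
    rw [hs1]; push_cast; ring
  have e2 : (-1 + ((-2 : ℝ) : ℂ) * Complex.I) = (starRingEnd ℂ) s1 := by
    rw [hs1]
    simp only [map_add, map_mul, map_neg, map_one, map_ofNat, Complex.conj_I]
    push_cast
    ring
  rw [e1, e2] at hint
  have hn : ‖segInt (RR N n)‖ = ‖V s1 - V ((starRingEnd ℂ) s1)‖ := by
    rw [← hint]
    unfold segInt
    rw [norm_mul, Complex.norm_I, mul_one]
  rw [hn]
  have e3 : V s1 - V ((starRingEnd ℂ) s1) = (V s1 - V v) + (V v - V 0)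
      - (V ((starRingEnd ℂ) v) - V 0) - (V ((starRingEnd ℂ) s1) - V ((starRingEnd ℂ) v)) := by
    ring
  rw [e3]
  have t1 := norm_sub_le ((V s1 - V v) + (V v - V 0) - (V ((starRingEnd ℂ) v) - V 0))
    (V ((starRingEnd ℂ) s1) - V ((starRingEnd ℂ) v))
  have t2 := norm_sub_le ((V s1 - V v) + (V v - V 0)) (V ((starRingEnd ℂ) v) - V 0)
  have t3 := norm_add_le (V s1 - V v) (V v - V 0)
  have key : (‖s1 - v‖ + ‖v - 0‖ + ‖(starRingEnd ℂ) v - 0‖ +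
      ‖(starRingEnd ℂ) s1 - (starRingEnd ℂ) v‖) / (25 - ρ ^ 2) * B ^ n
      = B ^ n / (25 - ρ ^ 2) * ‖s1 - v‖ + B ^ n / (25 - ρ ^ 2) * ‖v - 0‖
        + B ^ n / (25 - ρ ^ 2) * ‖(starRingEnd ℂ) v - 0‖
        + B ^ n / (25 - ρ ^ 2) * ‖(starRingEnd ℂ) s1 - (starRingEnd ℂ) v‖ := by
    ring
  rw [key]
  linarith

end Vale.Agent.P021
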