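import Vale.Agent.P021.Basic

open Polynomial

namespace Vale.Agent.P021

/-- all coefficients satisfy `|a_i|_p ^ e ≤ c * t ^ i` -/
def valB (p e : ℕ) (c t : ℚ) (P : ℤ[X]) : Prop :=
  ∀ i, (padicNorm p (P.coeff i : ℚ)) ^ e ≤ c * t ^ i

theorem val_exists_max {ι : Type*} (p : ℕ) [Fact p.Prime] (s : Finset ι) (F : ι → ℚ)
    (hs : s.Nonempty) : ∃ i ∈ s, padicNorm p (∑ j ∈ s, F j) ≤ padicNorm p (F i) := by
  obtain ⟨i, hi, hmax⟩ := Finset.exists_max_image s (fun j => padicNorm p (F j)) hs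
  exact ⟨i, hi, padicNorm.sum_le hs hmax⟩

theorem val_sum_le {ι : Type*} (p e : ℕ) [Fact p.Prime] (s : Finset ι) (F : ι → ℚ) {b : ℚ}
    (hb : 0 ≤ b) (he : e ≠ 0) (h : ∀ i ∈ s, (padicNorm p (F i)) ^ e ≤ b) :
    (padicNorm p (∑ j ∈ s, F j)) ^ e ≤ b := by
  rcases s.eq_empty_or_nonempty with h0 | hs
  · subst h0
    simpa [he] using hb
  · obtain ⟨i, hi, h1⟩ := val_exists_max p s F hs
    exact (pow_le_pow_left₀ (padicNorm.nonneg _) h1 e).trans (h i hi)

theorem valB_mul {p e : ℕ} [Fact p.Prime] (he : e ≠ 0) {c c' t : ℚ} (hc : 0 ≤ c) (hc' : 0 ≤ c')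
    (ht : 0 ≤ t) {P Q : ℤ[X]} (hP : valB p e c t P) (hQ : valB p e c' t Q) :
    valB p e (c * c') t (P * Q) := by
  intro i
  rw [Polynomial.coeff_mul]
  push_cast
  apply val_sum_le p e _ _ (by positivity) he
  intro x hx
  rw [Finset.HasAntidiagonal.mem_antidiagonal] at hx
  rw [padicNorm.mul, mul_pow]
  calc padicNorm p (P.coeff x.1 : ℚ) ^ e * padicNorm p (Q.coeff x.2 : ℚ) ^ e
      ≤ (c * t ^ x.1) * (c' * t ^ x.2) :=
        mul_le_mul (hP x.1) (hQ x.2) (pow_nonneg (padicNorm.nonneg _) _) (by positivity)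
    _ = c * c' * t ^ i := by rw [← hx, pow_add]; ring

theorem valB_pow {p e : ℕ} [Fact p.Prime] (he : e ≠ 0) {c t : ℚ} (hc : 0 ≤ c)
    (ht : 0 ≤ t) {P : ℤ[X]} (hP : valB p e c t P) (n : ℕ) :
    valB p e (c ^ n) t (P ^ n) := by
  induction n with
  | zero =>
    intro i
    rw [pow_zero, pow_zero, Polynomial.coeff_one]
    by_cases h : i = 0
    · subst h
      simp
    · simp only [h, if_false, Int.cast_zero, padicNorm.zero, one_mul]
      rw [zero_pow he]
      positivity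
  | succ n ih =>
    rw [pow_succ, pow_succ]
    exact valB_mul he (pow_nonneg hc n) hc ht ih hP

theorem val_coeff1 (i : ℕ) : ((X + C 25 : ℤ[X])).coeff i = if i = 0 then 25 else if i = 1 then 1
    else 0 := by
  rw [Polynomial.coeff_add, Polynomial.coeff_X, Polynomial.coeff_C]
  rcases i with _ | _ | i
  · simp
  · simp
  · simp

theorem val_coeff2 (i : ℕ) : ((X ^ 2 + C 56 * X + C 800 : ℤ[X])).coeff i =
    if i = 0 then 800 else if i = 1 then 56 else if i = 2 then 1 else 0 := by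
  rw [Polynomial.coeff_add, Polynomial.coeff_add, Polynomial.coeff_X_pow,
    Polynomial.coeff_C_mul, Polynomial.coeff_X, Polynomial.coeff_C]
  rcases i with _ | _ | _ | i
  · simp
  · simp
  · simp
  · simp

theorem val_norm_pow (p : ℕ) [Fact p.Prime] (x : ℚ) (k : ℕ) :
    padicNorm p (x ^ k) = (padicNorm p x) ^ k := by
  induction k with
  | zero => simp
  | succ k ih => rw [pow_succ, pow_succ, padicNorm.mul, ih]

theorem val_two_two : padicNorm 2 (2 : ℚ) = 1 / 2 := by
  have := padicNorm.padicNorm_p (p := 2) (by norm_num)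
  norm_num at this ⊢
  exact this

theorem val_five_five : padicNorm 5 (5 : ℚ) = 1 / 5 := by
  have := padicNorm.padicNorm_p (p := 5) (by norm_num)
  norm_num at this ⊢
  exact this

theorem val_norm_nat_eq_one {p m : ℕ} [Fact p.Prime] (h : ¬ p ∣ m) :
    padicNorm p (m : ℚ) = 1 := by
  rw [padicNorm.nat_eq_one_iff]
  exact h

theorem val_two_five : padicNorm 2 (5 : ℚ) = 1 := by
  have : Fact (Nat.Prime 2) := ⟨Nat.prime_two⟩
  exact_mod_cast val_norm_nat_eq_one (p := 2) (m := 5) (by norm_num)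

theorem val_five_two : padicNorm 5 (2 : ℚ) = 1 := by
  have : Fact (Nat.Prime 5) := ⟨Nat.prime_five⟩
  exact_mod_cast val_norm_nat_eq_one (p := 5) (m := 2) (by norm_num)

theorem val_ten_two : padicNorm 2 (10 : ℚ) = 1 / 2 := by
  have : Fact (Nat.Prime 2) := ⟨Nat.prime_two⟩
  rw [show (10 : ℚ) = 2 * 5 by norm_num, padicNorm.mul, val_two_two, val_two_five]
  norm_num

theorem val_ten_five : padicNorm 5 (10 : ℚ) = 1 / 5 := by
  have : Fact (Nat.Prime 5) := ⟨Nat.prime_five⟩
  rw [show (10 : ℚ) = 2 * 5 by norm_num, padicNorm.mul, val_five_five, val_five_two]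
  norm_num

theorem valB_two_lin : valB 2 2 1 32 (X + C 25 : ℤ[X]) := by
  have : Fact (Nat.Prime 2) := ⟨Nat.prime_two⟩
  intro i
  rw [val_coeff1]
  rcases i with _ | _ | i
  · simp only [if_true, Int.cast_ofNat, pow_zero, mul_one]
    have : padicNorm 2 (25 : ℚ) = 1 := by
      exact_mod_cast val_norm_nat_eq_one (p := 2) (m := 25) (by norm_num)
    rw [this]
    norm_num
  · simp
  · simp

theorem valB_two_quad : valB 2 2 ((1 / 32) ^ 2) 32 (X ^ 2 + C 56 * X + C 800 : ℤ[X]) := by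
  have : Fact (Nat.Prime 2) := ⟨Nat.prime_two⟩
  intro i
  rw [val_coeff2]
  rcases i with _ | _ | _ | i
  · simp only [if_true, Int.cast_ofNat, pow_zero, mul_one]
    rw [show (800 : ℚ) = 2 ^ 5 * 5 ^ 2 by norm_num, padicNorm.mul, val_norm_pow, val_norm_pow,
      val_two_two, val_two_five]
    norm_num
  · simp only [zero_add, one_ne_zero, if_true, if_false, Int.cast_ofNat]
    have h7 : padicNorm 2 (7 : ℚ) = 1 := by
      exact_mod_cast val_norm_nat_eq_one (p := 2) (m := 7) (by norm_num)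
    rw [show (56 : ℚ) = 2 ^ 3 * 7 by norm_num, padicNorm.mul, val_norm_pow, val_two_two, h7]
    norm_num
  · simp
  · simp

theorem valB_five_lin : valB 5 1 (1 / 25) 25 (X + C 25 : ℤ[X]) := by
  have : Fact (Nat.Prime 5) := ⟨Nat.prime_five⟩
  intro i
  rw [val_coeff1]
  rcases i with _ | _ | i
  · simp only [if_true, Int.cast_ofNat, pow_zero, mul_one, pow_one]
    rw [show (25 : ℚ) = 5 ^ 2 by norm_num, val_norm_pow, val_five_five]
    norm_num
  · simp
  · simp

theorem valB_five_quad : valB 5 1 (1 / 25) 25 (X ^ 2 + C 56 * X + C 800 : ℤ[X]) := by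
  have : Fact (Nat.Prime 5) := ⟨Nat.prime_five⟩
  intro i
  rw [val_coeff2]
  rcases i with _ | _ | _ | i
  · simp only [if_true, Int.cast_ofNat, pow_zero, mul_one, pow_one]
    rw [show (800 : ℚ) = 2 ^ 5 * 5 ^ 2 by norm_num, padicNorm.mul, val_norm_pow, val_norm_pow,
      val_five_five, val_five_two]
    norm_num
  · simp only [zero_add, one_ne_zero, if_true, if_false, Int.cast_ofNat, pow_one]
    have : padicNorm 5 (56 : ℚ) ≤ 1 := by
      exact_mod_cast padicNorm.of_nat (p := 5) 56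
    linarith
  · norm_num
  · simp

theorem val_two_coeff (N n j : ℕ) :
    (padicNorm 2 ((fpoly N n).coeff j : ℚ)) ^ 2 ≤ (1 / 32) ^ (4 * N * n) * 32 ^ j := by
  have : Fact (Nat.Prime 2) := ⟨Nat.prime_two⟩
  have h1 := valB_pow (two_ne_zero) zero_le_one (by norm_num) valB_two_lin (N * n)
  have h2 := valB_pow (two_ne_zero) (by norm_num) (by norm_num) valB_two_quad (2 * N * n)
  have h3 := valB_mul (two_ne_zero) (by positivity) (by positivity) (by norm_num) h1 h2 j
  unfold fpoly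
  refine h3.trans (le_of_eq ?_)
  rw [one_pow, one_mul, ← pow_mul]
  congr 2
  ring

theorem val_five_coeff (N n j : ℕ) :
    padicNorm 5 ((fpoly N n).coeff j : ℚ) ≤ (1 / 25) ^ (3 * N * n) * 25 ^ j := by
  have : Fact (Nat.Prime 5) := ⟨Nat.prime_five⟩
  have h1 := valB_pow (one_ne_zero) (by norm_num) (by norm_num) valB_five_lin (N * n)
  have h2 := valB_pow (one_ne_zero) (by norm_num) (by norm_num) valB_five_quad (2 * N * n)
  have h3 := valB_mul (one_ne_zero) (by positivity) (by positivity) (by norm_num) h1 h2 j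
  rw [pow_one] at h3
  unfold fpoly
  refine h3.trans (le_of_eq ?_)
  rw [← pow_add]
  congr 2
  ring

/-- the exponent identity -/
theorem val_CC {N : ℕ} (hN : 1 ≤ N) (n : ℕ) : CC N n + (N + 1) * n = 4 * N * n + 1 := by
  unfold CC
  obtain ⟨M, rfl⟩ : ∃ M, N = M + 1 := ⟨N - 1, by omega⟩
  have : 3 * (M + 1) - 1 = 3 * M + 2 := by omega
  rw [this]
  ring

theorem val_CC' {N : ℕ} (hN : 1 ≤ N) (n : ℕ) : CC N n + n = 3 * N * n + 1 := by
  unfold CC
  obtain ⟨M, rfl⟩ : ∃ M, N = M + 1 := ⟨N - 1, by omega⟩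
  have : 3 * (M + 1) - 1 = 3 * M + 2 := by omega
  rw [this]
  ring

theorem val_general {N : ℕ} (hN : 1 ≤ N) (n D : ℕ) (c : ℤ → ℚ)
    (h1 : ∀ k : ℕ, k < (2 * N + 1) * n → ∃ z : ℤ, (D : ℚ) * c k = z ∧ (32 : ℤ) ^ k ∣ z ^ 2)
    (h2 : ∀ m : ℕ, 1 ≤ m → m ≤ CC N n →
      ∃ z : ℤ, (10 : ℚ) ^ (2 * m) * 2 ^ (m / 2) * D * c (-(m : ℤ)) = z)
    (S : ℚ)
    (hS : S = D * ∑ j ∈ Finset.range (5 * N * n + 1),
      ((fpoly N n).coeff j : ℚ) * c ((j : ℤ) - CC N n)) :
    (∀ p : ℕ, p.Prime → p ≠ 2 → p ≠ 5 → padicNorm p S ≤ 1) ∧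
    (padicNorm 2 S) ^ 2 * 2 ^ (5 * ((N + 1) * n)) ≤ 32 ∧
    padicNorm 5 S ≤ 25 := by
  have hS' : S = ∑ j ∈ Finset.range (5 * N * n + 1),
      ((fpoly N n).coeff j : ℚ) * (D * c ((j : ℤ) - CC N n)) := by
    rw [hS, Finset.mul_sum]
    apply Finset.sum_congr rfl
    intro j _
    ring
  -- case analysis for one term
  have hcase : ∀ j ∈ Finset.range (5 * N * n + 1),
      (∃ k : ℕ, j = CC N n + k ∧ ∃ z : ℤ, (D : ℚ) * c ((j : ℤ) - CC N n) = z ∧
        (32 : ℤ) ^ k ∣ z ^ 2) ∨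
      (∃ m : ℕ, j + m = CC N n ∧ ∃ z : ℤ,
        (10 : ℚ) ^ (2 * m) * 2 ^ (m / 2) * (D * c ((j : ℤ) - CC N n)) = z) := by
    intro j hj
    rw [Finset.mem_range] at hj
    by_cases hjc : CC N n ≤ j
    · left
      obtain ⟨k, rfl⟩ : ∃ k, j = CC N n + k := ⟨j - CC N n, by omega⟩
      refine ⟨k, rfl, ?_⟩
      have e : ((CC N n + k : ℕ) : ℤ) - CC N n = (k : ℤ) := by push_cast; ring
      rw [e]
      apply h1
      have h3 := val_CC' hN n
      have h4 : (2 * N + 1) * n + 3 * N * n = 5 * N * n + n := by ring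
      omega
    · right
      push Not at hjc
      refine ⟨CC N n - j, by omega, ?_⟩
      have e : ((j : ℤ) - CC N n) = -((CC N n - j : ℕ) : ℤ) := by
        rw [Nat.cast_sub hjc.le]; ring
      rw [e]
      obtain ⟨z, hz⟩ := h2 (CC N n - j) (by omega) (by omega)
      exact ⟨z, by rw [← hz]; ring⟩
  refine ⟨?_, ?_, ?_⟩
  · intro p hp hp2 hp5
    have : Fact p.Prime := ⟨hp⟩
    have h := val_sum_le p 1 (Finset.range (5 * N * n + 1))
      (fun j => ((fpoly N n).coeff j : ℚ) * (D * c ((j : ℤ) - CC N n))) zero_le_one one_ne_zero ?_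
    · rw [hS']
      simpa using h
    · intro j hj
      rw [pow_one, padicNorm.mul]
      apply mul_le_one₀ (padicNorm.of_int _) (padicNorm.nonneg _)
      rcases hcase j hj with ⟨k, _, z, hz, _⟩ | ⟨m, _, z, hz⟩
      · rw [hz]
        exact padicNorm.of_int _
      · have hn2 : padicNorm p (2 : ℚ) = 1 := by
          exact_mod_cast val_norm_nat_eq_one (p := p) (m := 2)
            (fun h => hp2 ((Nat.prime_dvd_prime_iff_eq hp Nat.prime_two).1 h))
        have hn5 : padicNorm p (5 : ℚ) = 1 := by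
          exact_mod_cast val_norm_nat_eq_one (p := p) (m := 5)
            (fun h => hp5 ((Nat.prime_dvd_prime_iff_eq hp Nat.prime_five).1 h))
        have hn10 : padicNorm p (10 : ℚ) = 1 := by
          rw [show (10 : ℚ) = 2 * 5 by norm_num, padicNorm.mul, hn2, hn5, one_mul]
        have h3 : padicNorm p ((10 : ℚ) ^ (2 * m) * 2 ^ (m / 2) * (D * c ((j : ℤ) - CC N n)))
            = padicNorm p (D * c ((j : ℤ) - CC N n)) := by
          rw [padicNorm.mul, padicNorm.mul, val_norm_pow, val_norm_pow, hn10, hn2, one_pow,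
            one_pow, one_mul, one_mul]
        rw [← h3, hz]
        exact padicNorm.of_int _
  · have : Fact (Nat.Prime 2) := ⟨Nat.prime_two⟩
    have hpos : (0 : ℚ) < 2 ^ (5 * ((N + 1) * n)) := by positivity
    rw [← le_div_iff₀ hpos, hS']
    apply val_sum_le 2 2 _ _ (by positivity) two_ne_zero
    intro j hj
    have hexp : (1 / 32 : ℚ) ^ (4 * N * n) * 32 ^ (CC N n) = 32 / 2 ^ (5 * ((N + 1) * n)) := by
      have e1 := val_CC hN n
      rw [eq_div_iff hpos.ne']
      have e2 : (2 : ℚ) ^ (5 * ((N + 1) * n)) = 32 ^ ((N + 1) * n) := by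
        rw [pow_mul]; norm_num
      rw [e2, mul_assoc, ← pow_add, e1, pow_add, ← mul_assoc, ← mul_pow]
      norm_num
    rw [← hexp, padicNorm.mul, mul_pow]
    have hc1 := val_two_coeff N n j
    rcases hcase j hj with ⟨k, hk, z, hz, hdvd⟩ | ⟨m, hm, z, hz⟩
    · rw [hz]
      obtain ⟨w, hw⟩ := hdvd
      have hz2 : (padicNorm 2 (z : ℚ)) ^ 2 ≤ (1 / 32) ^ k := by
        rw [← val_norm_pow]
        have : ((z : ℚ)) ^ 2 = 32 ^ k * (w : ℚ) := by exact_mod_cast hw
        rw [this, padicNorm.mul, val_norm_pow, show (32 : ℚ) = 2 ^ 5 by norm_num, val_norm_pow,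
          val_two_two]
        have h3 : padicNorm 2 (w : ℚ) ≤ 1 := padicNorm.of_int _
        calc (((1 : ℚ) / 2) ^ 5) ^ k * padicNorm 2 (w : ℚ) ≤ (((1 : ℚ) / 2) ^ 5) ^ k * 1 :=
              mul_le_mul_of_nonneg_left h3 (by positivity)
          _ = (1 / 2 ^ 5) ^ k := by norm_num
      calc padicNorm 2 ((fpoly N n).coeff j : ℚ) ^ 2 * padicNorm 2 (z : ℚ) ^ 2
          ≤ ((1 / 32) ^ (4 * N * n) * 32 ^ j) * (1 / 32) ^ k :=
            mul_le_mul hc1 hz2 (by positivity) (by positivity)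
        _ = (1 / 32) ^ (4 * N * n) * 32 ^ (CC N n) * (32 * (1 / 32)) ^ k := by
            rw [hk, pow_add, mul_pow]; ring
        _ = (1 / 32) ^ (4 * N * n) * 32 ^ (CC N n) := by norm_num
    · have hnz : padicNorm 2 (z : ℚ) ≤ 1 := padicNorm.of_int _
      rw [← hz, padicNorm.mul, padicNorm.mul, val_norm_pow, val_norm_pow, val_ten_two,
        val_two_two] at hnz
      set x := padicNorm 2 ((D : ℚ) * c ((j : ℤ) - CC N n)) with hx
      have hx0 : 0 ≤ x := padicNorm.nonneg _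
      have hx1 : x ≤ 2 ^ (2 * m + m / 2) := by
        rw [← pow_add, one_div, inv_pow] at hnz
        have h4 : (0 : ℚ) < 2 ^ (2 * m + m / 2) := by positivity
        rwa [inv_mul_le_iff₀ h4, mul_one] at hnz
      have hx2 : x ^ 2 ≤ 32 ^ m := by
        calc x ^ 2 ≤ (2 ^ (2 * m + m / 2)) ^ 2 := pow_le_pow_left₀ hx0 hx1 2
          _ = 2 ^ ((2 * m + m / 2) * 2) := by rw [← pow_mul]
          _ ≤ 2 ^ (5 * m) := pow_le_pow_right₀ (by norm_num) (by omega)
          _ = 32 ^ m := by rw [pow_mul]; norm_num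
      calc padicNorm 2 ((fpoly N n).coeff j : ℚ) ^ 2 * x ^ 2
          ≤ ((1 / 32) ^ (4 * N * n) * 32 ^ j) * 32 ^ m :=
            mul_le_mul hc1 hx2 (by positivity) (by positivity)
        _ = (1 / 32) ^ (4 * N * n) * 32 ^ (CC N n) := by
            rw [← hm, pow_add]; ring
  · have : Fact (Nat.Prime 5) := ⟨Nat.prime_five⟩
    have h := val_sum_le 5 1 (Finset.range (5 * N * n + 1))
      (fun j => ((fpoly N n).coeff j : ℚ) * (D * c ((j : ℤ) - CC N n)))
      (b := 25) (by norm_num) one_ne_zero ?_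
    · rw [hS']
      simpa using h
    · intro j hj
      rw [pow_one, padicNorm.mul]
      rcases hcase j hj with ⟨k, _, z, hz, _⟩ | ⟨m, hm, z, hz⟩
      · rw [hz]
        have h3 : padicNorm 5 ((fpoly N n).coeff j : ℚ) * padicNorm 5 (z : ℚ) ≤ 1 :=
          mul_le_one₀ (padicNorm.of_int _) (padicNorm.nonneg _) (padicNorm.of_int _)
        linarith
      · have hnz : padicNorm 5 (z : ℚ) ≤ 1 := padicNorm.of_int _
        rw [← hz, padicNorm.mul, padicNorm.mul, val_norm_pow, val_norm_pow, val_ten_five,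
          val_five_two, one_pow, mul_one, pow_mul] at hnz
        set x := padicNorm 5 ((D : ℚ) * c ((j : ℤ) - CC N n)) with hx
        have hx0 : 0 ≤ x := padicNorm.nonneg _
        have hx1 : x ≤ 25 ^ m := by
          have h4 : (0 : ℚ) < 25 ^ m := by positivity
          have h5 : (((1 : ℚ) / 5) ^ 2) ^ m = (25 ^ m)⁻¹ := by
            rw [← inv_pow]; norm_num
          rw [h5] at hnz
          rwa [inv_mul_le_iff₀ h4, mul_one] at hnz
        have hc5 := val_five_coeff N n j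
        have e1 := val_CC' hN n
        calc padicNorm 5 ((fpoly N n).coeff j : ℚ) * x
            ≤ ((1 / 25) ^ (3 * N * n) * 25 ^ j) * 25 ^ m :=
              mul_le_mul hc5 hx1 hx0 (by positivity)
          _ = (1 / 25) ^ (3 * N * n) * 25 ^ (CC N n) := by
              rw [← hm, pow_add]; ring
          _ ≤ (1 / 25) ^ (3 * N * n) * 25 ^ (3 * N * n + 1) := by
              apply mul_le_mul_of_nonneg_left _ (by positivity)
              exact pow_le_pow_right₀ (by norm_num) (by omega)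
          _ = ((1 / 25) * 25) ^ (3 * N * n) * 25 := by rw [pow_succ, mul_pow]; ring
          _ = 25 := by norm_num

end Vale.Agent.P021
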