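import Vale.Agent.P021.Hata
import Vale.Agent.P021.Form
import Vale.Agent.P021.Val
import Vale.Agent.P021.Saved
import Vale.Agent.P021.Coef
import Vale.Agent.P021.Growth
import Vale.Agent.P021.Upper
import Vale.Agent.P021.PNTSum

open Filter Topology

namespace Vale.Agent.P021

theorem asm_isInt {x : ℚ} (h : ∀ p : ℕ, p.Prime → padicNorm p x ≤ 1) : ∃ z : ℤ, x = z := by
  by_contra hne
  have hden : x.den ≠ 1 := by
    intro h1
    exact hne ⟨x.num, ((Rat.den_eq_one_iff x).mp h1).symm⟩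
  obtain ⟨p, hp, hpd⟩ := Nat.exists_prime_and_dvd hden
  have : Fact p.Prime := ⟨hp⟩
  have hnum : ¬ (p : ℤ) ∣ x.num := by
    intro hdiv
    have hc := x.reduced
    have h1 : p ∣ x.num.natAbs := Int.natCast_dvd.mp hdiv
    have h2 : p ∣ Nat.gcd x.num.natAbs x.den := Nat.dvd_gcd h1 hpd
    rw [hc] at h2
    exact hp.one_lt.ne' (Nat.dvd_one.mp h2)
  have h1 : padicNorm p x * padicNorm p (x.den : ℚ) = padicNorm p (x.num : ℚ) := by
    rw [← padicNorm.mul, Rat.mul_den_eq_num]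
  have h2 : padicNorm p (x.num : ℚ) = 1 := (padicNorm.int_eq_one_iff x.num).mpr hnum
  have h3 : padicNorm p (x.den : ℚ) < 1 := (padicNorm.nat_lt_one_iff x.den).mpr hpd
  have h4 := h p hp
  have h5 : 0 ≤ padicNorm p (x.den : ℚ) := padicNorm.nonneg _
  have h6 : 0 ≤ padicNorm p x := padicNorm.nonneg _
  have : padicNorm p x * padicNorm p (x.den : ℚ) < 1 := by
    calc padicNorm p x * padicNorm p (x.den : ℚ) ≤ 1 * padicNorm p (x.den : ℚ) :=
          mul_le_mul_of_nonneg_right h4 h5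
      _ < 1 := by rwa [one_mul]
  rw [h1, h2] at this
  exact lt_irrefl _ this

/-- the multiplier -/
noncomputable def TT (N Y n : ℕ) : ℚ :=
  (Nat.lcmUpto ((4 * N + 2) * n) : ℚ) * 200 /
    ((∏ p ∈ SavedSet N Y n, p : ℕ) * 2 ^ (5 * (N + 1) * n / 2))

theorem asm_dvd_lcmUpto {j n : ℕ} (h1 : 1 ≤ j) (h2 : j ≤ n) : j ∣ Nat.lcmUpto n := by
  have := Finset.dvd_lcm (f := id) (Finset.mem_Icc.mpr ⟨h1, h2⟩)
  simpa [Nat.lcmUpto] using this

theorem asm_prime_dvd_prod {N Y n p : ℕ} (hp : p.Prime) :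
    p ∣ (∏ q ∈ SavedSet N Y n, q) ↔ p ∈ SavedSet N Y n := by
  constructor
  · intro h
    obtain ⟨q, hq, hpq⟩ := (Prime.dvd_finsetProd_iff hp.prime _).mp h
    have hq' : q.Prime := by
      have := (Finset.mem_filter.mp hq).2.1
      exact this
    have := (Nat.prime_dvd_prime_iff_eq hp hq').mp hpq
    rwa [this]
  · intro h
    exact Finset.dvd_prod_of_mem (fun q => q) h

theorem asm_prod_pos (N Y n : ℕ) : 0 < ∏ q ∈ SavedSet N Y n, q := by
  apply Finset.prod_pos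
  intro q hq
  have : q.Prime := (Finset.mem_filter.mp hq).2.1
  exact this.pos

theorem asm_norm_prod {N Y n p : ℕ} (hp : p.Prime) (h : p ∈ SavedSet N Y n) :
    padicNorm p ((∏ q ∈ SavedSet N Y n, q : ℕ) : ℚ) = (p : ℚ)⁻¹ := by
  have : Fact p.Prime := ⟨hp⟩
  rw [← Finset.mul_prod_erase _ _ h]
  push_cast
  rw [padicNorm.mul, padicNorm.padicNorm_p_of_prime]
  have : padicNorm p (∏ q ∈ (SavedSet N Y n).erase p, (q : ℚ)) = 1 := by
    rw [← Nat.cast_prod, padicNorm.nat_eq_one_iff]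
    intro hd
    obtain ⟨q, hq, hpq⟩ := (Prime.dvd_finsetProd_iff hp.prime _).mp hd
    have hq1 := Finset.mem_erase.mp hq
    have hq' : q.Prime := (Finset.mem_filter.mp hq1.2).2.1
    exact hq1.1 ((Nat.prime_dvd_prime_iff_eq hp hq').mp hpq).symm
  rw [this, mul_one]

theorem asm_val_AA {N : ℕ} (hN : 1 ≤ N) (n : ℕ) :
    (∀ p : ℕ, p.Prime → p ≠ 2 → p ≠ 5 → padicNorm p (AA N n) ≤ 1) ∧
    (padicNorm 2 (AA N n)) ^ 2 * 2 ^ (5 * ((N + 1) * n)) ≤ 32 ∧
    padicNorm 5 (AA N n) ≤ 25 := by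
  refine val_general hN n 1 aco ?_ ?_ (AA N n) ?_
  · intro k _
    refine ⟨0, ?_, ?_⟩
    · simp [aco]
    · simp
  · intro m hm _
    refine ⟨(-1) ^ m * ((2 * m - 2).choose (m - 1)) * 10 * 2 ^ (m / 2), ?_⟩
    have h0 : ¬ (0 ≤ (-(m : ℤ))) := by omega
    have h1 : (-(m : ℤ)).natAbs = m := by omega
    rw [aco, if_neg h0, h1]
    have h2 : (10 : ℚ) ^ (2 * m) = 10 ^ (2 * m - 1) * 10 := by
      rw [← pow_succ]
      congr 1
      omega
    rw [h2]
    push_cast
    field_simp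
  · rw [AA]
    push_cast
    ring

theorem asm_val_BB {N : ℕ} (hN : 1 ≤ N) {n : ℕ} (hn : 1 ≤ n) :
    (∀ p : ℕ, p.Prime → p ≠ 2 → p ≠ 5 →
      padicNorm p ((Nat.lcmUpto ((4 * N + 2) * n) : ℚ) * BB N n) ≤ 1) ∧
    (padicNorm 2 ((Nat.lcmUpto ((4 * N + 2) * n) : ℚ) * BB N n)) ^ 2 *
      2 ^ (5 * ((N + 1) * n)) ≤ 32 ∧
    padicNorm 5 ((Nat.lcmUpto ((4 * N + 2) * n) : ℚ) * BB N n) ≤ 25 := by
  refine val_general hN n (Nat.lcmUpto ((4 * N + 2) * n)) bco ?_ ?_ _ ?_
  · intro k hk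
    apply bco_nonneg
    intro j hj1 hj2
    apply asm_dvd_lcmUpto hj1
    have : (4 * N + 2) * n = 2 * ((2 * N + 1) * n) := by ring
    omega
  · intro m hm hm2
    apply bco_neg m _ hm
    intro j hj1 hj2
    apply asm_dvd_lcmUpto hj1
    have h1 : (3 * N - 1) * n + 1 ≤ (4 * N + 2) * n := by
      have : (3 * N - 1) * n + n ≤ (4 * N + 2) * n := by
        calc (3 * N - 1) * n + n = (3 * N - 1 + 1) * n := by ring
          _ ≤ (4 * N + 2) * n := Nat.mul_le_mul_right n (by omega)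
      omega
    rw [CC] at hm2
    omega
  · rw [BB]

theorem asm_norm_TT_mul_le {N Y n : ℕ} (hN : 1 ≤ N) (hn : 1 ≤ n)
    (hbig : 25 * (Y + 1) ^ 2 ≤ N * n) {x : ℚ}
    (hx : ∀ p : ℕ, p.Prime → p ≠ 2 → p ≠ 5 →
      padicNorm p ((Nat.lcmUpto ((4 * N + 2) * n) : ℚ) * x) ≤ 1)
    (hx2 : (padicNorm 2 ((Nat.lcmUpto ((4 * N + 2) * n) : ℚ) * x)) ^ 2 *
      2 ^ (5 * ((N + 1) * n)) ≤ 32)
    (hx5 : padicNorm 5 ((Nat.lcmUpto ((4 * N + 2) * n) : ℚ) * x) ≤ 25)
    (hxs : ∀ p ∈ SavedSet N Y n, p ≠ 2 → p ≠ 5 → 100 * N * n < p ^ 2 → padicNorm p x ≤ 1)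
    (p : ℕ) (hp : p.Prime) : padicNorm p (TT N Y n * x) ≤ 1 := by
  have : Fact p.Prime := ⟨hp⟩
  have hsav : ∀ q ∈ SavedSet N Y n, q ≠ 2 ∧ q ≠ 5 ∧ 100 * N * n < q ^ 2 := by
    intro q hq
    obtain ⟨_, _, h3, _⟩ := saved_spec hN hn hq
    have h4 : 50 * (Y + 1) < q := by
      by_contra hle
      rw [not_lt] at hle
      have h5 : (Y + 1) * q ≤ (Y + 1) * (50 * (Y + 1)) := Nat.mul_le_mul_left _ hle
      have h6 : (Y + 1) * (50 * (Y + 1)) = 2 * (25 * (Y + 1) ^ 2) := by ring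
      have h7 : 2 * N * n = 2 * (N * n) := by ring
      omega
    refine ⟨by omega, by omega, ?_⟩
    have h8 : 100 * N * n = 50 * (2 * N * n) := by ring
    calc 100 * N * n = 50 * (2 * N * n) := h8
      _ < 50 * ((Y + 1) * q) := Nat.mul_lt_mul_of_pos_left h3 (by norm_num)
      _ = (50 * (Y + 1)) * q := by ring
      _ ≤ q * q := Nat.mul_le_mul_right q h4.le
      _ = q ^ 2 := (sq q).symm
  have hTx : TT N Y n * x = ((Nat.lcmUpto ((4 * N + 2) * n) : ℚ) * x) * 200 /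
      (((∏ p ∈ SavedSet N Y n, p : ℕ) : ℚ) * 2 ^ (5 * (N + 1) * n / 2)) := by
    rw [TT]
    push_cast
    ring
  have h200 : padicNorm p (200 : ℚ) ≤ 1 := by
    have := padicNorm.of_nat (p := p) 200
    exact_mod_cast this
  by_cases hps : p ∈ SavedSet N Y n
  · obtain ⟨h2, h5, hb⟩ := hsav p hps
    have hTx2 : TT N Y n * x = (Nat.lcmUpto ((4 * N + 2) * n) : ℚ) * x * 200 /
      (((∏ p ∈ SavedSet N Y n, p : ℕ) : ℚ) * 2 ^ (5 * (N + 1) * n / 2)) := by
      rw [hTx]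
    rw [hTx2, padicNorm.div, padicNorm.mul, padicNorm.mul, padicNorm.mul, asm_norm_prod hp hps]
    have h2n : padicNorm p ((2 : ℚ) ^ (5 * (N + 1) * n / 2)) = 1 := by
      have : ((2 : ℚ) ^ (5 * (N + 1) * n / 2)) = ((2 ^ (5 * (N + 1) * n / 2) : ℕ) : ℚ) := by
        push_cast; rfl
      rw [this, padicNorm.nat_eq_one_iff]
      intro hd
      have := hp.dvd_of_dvd_pow hd
      exact h2 ((Nat.prime_dvd_prime_iff_eq hp Nat.prime_two).mp this)
    have hD : padicNorm p (Nat.lcmUpto ((4 * N + 2) * n) : ℚ) ≤ (p : ℚ)⁻¹ := by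
      have hpd : p ∣ Nat.lcmUpto ((4 * N + 2) * n) := by
        apply asm_dvd_lcmUpto hp.one_lt.le
        have h3 := (saved_spec hN hn hps).2.1
        have h4 : (4 * N + 2) * n = 2 * N * n + (2 * N + 2) * n := by ring
        omega
      have := (padicNorm.dvd_iff_norm_le (p := p) (n := 1)
        (z := (Nat.lcmUpto ((4 * N + 2) * n) : ℤ))).mp (by
          rw [pow_one]
          exact_mod_cast hpd)
      simpa using this
    have hxp := hxs p hps h2 h5 hb
    have hp0 : (0 : ℚ) < (p : ℚ)⁻¹ := by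
      have : (0 : ℚ) < p := by exact_mod_cast hp.pos
      positivity
    rw [h2n, mul_one, div_le_one hp0]
    calc padicNorm p (Nat.lcmUpto ((4 * N + 2) * n) : ℚ) * padicNorm p x * padicNorm p 200
        ≤ (p : ℚ)⁻¹ * 1 * 1 := by
          apply mul_le_mul _ h200 (padicNorm.nonneg _) (by positivity)
          apply mul_le_mul hD hxp (padicNorm.nonneg _) hp0.le
      _ = (p : ℚ)⁻¹ := by ring
  · have hprod : padicNorm p ((∏ q ∈ SavedSet N Y n, q : ℕ) : ℚ) = 1 := by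
      rw [padicNorm.nat_eq_one_iff]
      rw [asm_prime_dvd_prod hp]
      exact hps
    have hm1 : padicNorm p ((Nat.lcmUpto ((4 * N + 2) * n) : ℚ) * x * 200) =
        padicNorm p ((Nat.lcmUpto ((4 * N + 2) * n) : ℚ) * x) * padicNorm p 200 :=
      padicNorm.mul _ _
    rw [hTx, padicNorm.div, hm1, padicNorm.mul ((∏ q ∈ SavedSet N Y n, q : ℕ) : ℚ), hprod,
      one_mul]
    by_cases h2 : p = 2
    · subst h2
      have h8 : padicNorm 2 (200 : ℚ) ≤ 1 / 8 := by
        have := (padicNorm.dvd_iff_norm_le (p := 2) (n := 3) (z := 200)).mp (by norm_num)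
        norm_num at this
        simpa using this
      have h2k : padicNorm 2 ((2 : ℚ) ^ (5 * (N + 1) * n / 2)) =
          ((2 : ℚ) ^ (5 * (N + 1) * n / 2))⁻¹ := by
        generalize 5 * (N + 1) * n / 2 = κ
        induction κ with
        | zero => simp
        | succ k ih =>
          rw [pow_succ, padicNorm.mul, ih]
          have := padicNorm.padicNorm_p_of_prime (p := 2)
          push_cast at this
          rw [this, mul_inv]
      rw [h2k, div_inv_eq_mul]
      set z := padicNorm 2 ((Nat.lcmUpto ((4 * N + 2) * n) : ℚ) * x) with hz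
      have hz0 : 0 ≤ z := padicNorm.nonneg _
      set w := (2 : ℚ) ^ (5 * (N + 1) * n / 2) with hw
      have hw0 : 0 < w := by positivity
      have hw2 : w ^ 2 ≤ 2 ^ (5 * ((N + 1) * n)) := by
        rw [hw, ← pow_mul]
        apply pow_le_pow_right₀ (by norm_num)
        have : 5 * (N + 1) * n = 5 * ((N + 1) * n) := by ring
        omega
      have hzw : (z * w) ^ 2 ≤ 8 ^ 2 := by
        calc (z * w) ^ 2 = z ^ 2 * w ^ 2 := by ring
          _ ≤ z ^ 2 * 2 ^ (5 * ((N + 1) * n)) := mul_le_mul_of_nonneg_left hw2 (by positivity)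
          _ ≤ 32 := hx2
          _ ≤ 8 ^ 2 := by norm_num
      have hzw' : z * w ≤ 8 := by
        exact (sq_le_sq₀ (mul_nonneg hz0 hw0.le) (by norm_num)).mp hzw
      calc z * padicNorm 2 200 * w ≤ z * (1 / 8) * w := by
            apply mul_le_mul_of_nonneg_right _ hw0.le
            exact mul_le_mul_of_nonneg_left h8 hz0
        _ = (z * w) / 8 := by ring
        _ ≤ 1 := by linarith
    · have h2n : padicNorm p ((2 : ℚ) ^ (5 * (N + 1) * n / 2)) = 1 := by
        have : ((2 : ℚ) ^ (5 * (N + 1) * n / 2)) = ((2 ^ (5 * (N + 1) * n / 2) : ℕ) : ℚ) := by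
          push_cast; rfl
        rw [this, padicNorm.nat_eq_one_iff]
        intro hd
        have := hp.dvd_of_dvd_pow hd
        exact h2 ((Nat.prime_dvd_prime_iff_eq hp Nat.prime_two).mp this)
      rw [h2n, div_one]
      by_cases h5 : p = 5
      · subst h5
        have h25 : padicNorm 5 (200 : ℚ) ≤ 1 / 25 := by
          have := (padicNorm.dvd_iff_norm_le (p := 5) (n := 2) (z := 200)).mp (by norm_num)
          norm_num at this
          simpa using this
        calc padicNorm 5 ((Nat.lcmUpto ((4 * N + 2) * n) : ℚ) * x) * padicNorm 5 200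
            ≤ 25 * (1 / 25) := mul_le_mul hx5 h25 (padicNorm.nonneg _) (by norm_num)
          _ = 1 := by norm_num
      · calc padicNorm p ((Nat.lcmUpto ((4 * N + 2) * n) : ℚ) * x) * padicNorm p 200
            ≤ 1 * 1 := mul_le_mul (hx p hp h2 h5) h200 (padicNorm.nonneg _) (by norm_num)
          _ = 1 := by norm_num

theorem asm_TT_pos (N Y n : ℕ) : 0 < TT N Y n := by
  have h1 : (0 : ℚ) < (Nat.lcmUpto ((4 * N + 2) * n) : ℚ) := by
    exact_mod_cast Nat.lcmUpto_pos _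
  have h2 : (0 : ℚ) < ((∏ p ∈ SavedSet N Y n, p : ℕ) : ℚ) := by
    exact_mod_cast asm_prod_pos N Y n
  rw [TT]
  positivity

theorem asm_tendsto_half (c : ℕ) :
    Tendsto (fun n : ℕ => ((c * n / 2 : ℕ) : ℝ) / n) atTop (𝓝 ((c : ℝ) / 2)) := by
  have h := (tendsto_nat_floor_mul_div_atTop (R := ℝ) (a := (c : ℝ) / 2) (by positivity)).comp
    tendsto_natCast_atTop_atTop
  refine h.congr fun n => ?_
  simp only [Function.comp]
  congr 2
  have : (c : ℝ) / 2 * n = ((c * n : ℕ) : ℝ) / ((2 : ℕ) : ℝ) := by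
    push_cast; ring
  rw [this, Nat.floor_div_eq_div]

theorem asm_log_TT {N Y : ℕ} (hN : 1 ≤ N) :
    Tendsto (fun n : ℕ => Real.log (TT N Y n : ℝ) / n) atTop
      (𝓝 ((4 * N + 2 : ℝ) - ((∑ q ∈ FF N Y, (up N q.1 q.2 - lo N q.1 q.2) : ℚ) : ℝ) -
        5 * (N + 1) / 2 * Real.log 2)) := by
  have hlcm : Tendsto (fun n : ℕ => Real.log (Nat.lcmUpto ((4 * N + 2) * n)) / n) atTop
      (𝓝 (4 * N + 2 : ℝ)) := by
    have h1 : Tendsto (fun n : ℕ => (4 * N + 2) * n) atTop atTop :=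
      tendsto_id.const_mul_atTop' (by omega)
    have h2 := (Vale.Agent.PNT.log_lcmUpto_div_tendsto.comp h1).mul_const (4 * N + 2 : ℝ)
    rw [one_mul] at h2
    refine h2.congr' ?_
    filter_upwards [eventually_gt_atTop 0] with n hn
    have hn' : (n : ℝ) ≠ 0 := by exact_mod_cast hn.ne'
    simp only [Function.comp]
    push_cast
    have : (4 * (N : ℝ) + 2) ≠ 0 := by positivity
    field_simp
  have h200 : Tendsto (fun n : ℕ => Real.log 200 / (n : ℝ)) atTop (𝓝 0) :=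
    tendsto_const_div_atTop_nhds_zero_nat _
  have hprod := log_prod_saved (N := N) (Y := Y) hN
  have hhalf := (asm_tendsto_half (5 * (N + 1))).mul_const (Real.log 2)
  have hall := ((hlcm.add h200).sub hprod).sub hhalf
  rw [add_zero] at hall
  have hlim : (4 * (N : ℝ) + 2 - ((∑ q ∈ FF N Y, (up N q.1 q.2 - lo N q.1 q.2) : ℚ) : ℝ) -
      ((5 * (N + 1) : ℕ) : ℝ) / 2 * Real.log 2) =
      (4 * N + 2 : ℝ) - ((∑ q ∈ FF N Y, (up N q.1 q.2 - lo N q.1 q.2) : ℚ) : ℝ) -
        5 * (N + 1) / 2 * Real.log 2 := by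
    push_cast; ring
  rw [← hlim]
  refine hall.congr fun n => ?_
  have h1 : (0 : ℝ) < (Nat.lcmUpto ((4 * N + 2) * n) : ℝ) := by
    exact_mod_cast Nat.lcmUpto_pos _
  have h2 : (0 : ℝ) < ((∏ p ∈ SavedSet N Y n, p : ℕ) : ℝ) := by
    exact_mod_cast asm_prod_pos N Y n
  have h3 : (TT N Y n : ℝ) = (Nat.lcmUpto ((4 * N + 2) * n) : ℝ) * 200 /
      (((∏ p ∈ SavedSet N Y n, p : ℕ) : ℝ) * 2 ^ (5 * (N + 1) * n / 2)) := by
    rw [TT]
    push_cast
    ring
  rw [h3, Real.log_div (by positivity) (by positivity), Real.log_mul (by positivity) (by norm_num),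
    Real.log_mul (by positivity) (by positivity), Real.log_pow]
  ring

theorem main_bound {N Y : ℕ} (hN : 1 ≤ N) {B K y s σ τ : ℝ} (hB : 0 < B)
    (hU : ∀ n : ℕ, ‖segInt (RR N n)‖ ≤ K * B ^ n) (hy : 0 < y) (hy1 : y < 1)
    (hs : s ≤ ((∑ q ∈ FF N Y, (up N q.1 q.2 - lo N q.1 q.2) : ℚ) : ℝ))
    (hσ : Real.log (100 * 4 ^ N) + Real.log (Fval N y / y ^ (3 * N - 1)) +
      ((4 * N + 2) - s - 5 * (N + 1) / 2 * Real.log 2) ≤ σ)
    (hτ : τ ≤ - (Real.log B + ((4 * N + 2) - s - 5 * (N + 1) / 2 * Real.log 2)))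
    (hτ0 : 0 < τ) :
    irrationalityExponent Real.pi ≤ ((1 + σ / τ : ℝ) : EReal) := by
  obtain ⟨hcpos, α, hα, hαy⟩ := growth hN
  have hTT := asm_log_TT (N := N) (Y := Y) hN
  set S : ℝ := ((∑ q ∈ FF N Y, (up N q.1 q.2 - lo N q.1 q.2) : ℚ) : ℝ) with hS
  set d : ℝ := (4 * N + 2 : ℝ) - S - 5 * (N + 1) / 2 * Real.log 2 with hd
  set σ₀ : ℝ := d + Real.log (100 * 4 ^ N) + α with hσ₀
  set τ₀ : ℝ := -(Real.log B + d) with hτ₀
  have hpos : ∀ n : ℕ, (0 : ℝ) <
      ((PowerSeries.coeff ((3 * N - 1) * n) (Fser N ^ n) : ℚ) : ℝ) := by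
    intro n
    exact_mod_cast hcpos n
  -- the real number `TT * AA`
  have hTA : ∀ n : ℕ, |((TT N Y n * AA N n : ℚ) : ℝ)| =
      (TT N Y n : ℝ) * ((1 / 10) * (100 * 4 ^ N) ^ n *
        ((PowerSeries.coeff ((3 * N - 1) * n) (Fser N ^ n) : ℚ) : ℝ)) := by
    intro n
    have h1 : (0 : ℝ) < (TT N Y n : ℝ) := by exact_mod_cast asm_TT_pos N Y n
    rw [AA_eq hN n]
    push_cast
    rw [mul_neg, abs_neg, abs_of_pos]
    have := hpos n
    positivity
  have hlogQ : Tendsto (fun n : ℕ => Real.log |((TT N Y n * AA N n : ℚ) : ℝ)| / n) atTop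
      (𝓝 σ₀) := by
    have h10 : Tendsto (fun n : ℕ => Real.log (1 / 10) / (n : ℝ)) atTop (𝓝 0) :=
      tendsto_const_div_atTop_nhds_zero_nat _
    have hc : Tendsto (fun _ : ℕ => Real.log (100 * 4 ^ N)) atTop
      (𝓝 (Real.log (100 * 4 ^ N))) := tendsto_const_nhds
    have hall := ((hTT.add h10).add hc).add hα
    rw [add_zero] at hall
    refine hall.congr' ?_
    filter_upwards [eventually_gt_atTop 0] with n hn
    have hn' : (n : ℝ) ≠ 0 := by exact_mod_cast hn.ne'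
    have h1 : (0 : ℝ) < (TT N Y n : ℝ) := by exact_mod_cast asm_TT_pos N Y n
    have h2 := hpos n
    rw [hTA n, Real.log_mul h1.ne' (by positivity), Real.log_mul (by positivity) h2.ne',
      Real.log_mul (by norm_num : (1 / 10 : ℝ) ≠ 0) (by positivity), Real.log_pow]
    generalize Real.log (100 * 4 ^ N) = L1
    generalize Real.log (1 / 10) = L2
    field_simp
    ring
  -- integrality
  have hbig : ∀ᶠ n : ℕ in atTop, 1 ≤ n ∧ 25 * (Y + 1) ^ 2 ≤ N * n := by
    filter_upwards [eventually_ge_atTop 1, eventually_ge_atTop (25 * (Y + 1) ^ 2)] with n h1 h2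
    refine ⟨h1, h2.trans ?_⟩
    calc n = 1 * n := (one_mul n).symm
      _ ≤ N * n := Nat.mul_le_mul_right n hN
  have hintA : ∀ᶠ n : ℕ in atTop, (TT N Y n * AA N n : ℚ) = ((TT N Y n * AA N n).num : ℚ) := by
    filter_upwards [hbig] with n hn
    obtain ⟨z, hz⟩ := asm_isInt (x := TT N Y n * AA N n) (by
      intro p hp
      obtain ⟨v1, v2, v3⟩ := asm_val_AA hN n
      have hD : ∀ q : ℕ, q.Prime → padicNorm q (Nat.lcmUpto ((4 * N + 2) * n) : ℚ) ≤ 1 := by
        intro q hq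
        have : Fact q.Prime := ⟨hq⟩
        exact padicNorm.of_nat _
      have hmul : ∀ q : ℕ, q.Prime →
          padicNorm q ((Nat.lcmUpto ((4 * N + 2) * n) : ℚ) * AA N n) ≤
            padicNorm q (AA N n) := by
        intro q hq
        have : Fact q.Prime := ⟨hq⟩
        rw [padicNorm.mul]
        calc _ ≤ 1 * padicNorm q (AA N n) :=
              mul_le_mul_of_nonneg_right (hD q hq) (padicNorm.nonneg _)
          _ = _ := one_mul _
      refine asm_norm_TT_mul_le hN hn.1 hn.2 ?_ ?_ ?_ ?_ p hp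
      · intro q hq h2 h5
        exact (hmul q hq).trans (v1 q hq h2 h5)
      · refine le_trans ?_ v2
        apply mul_le_mul_of_nonneg_right _ (by positivity)
        have := hmul 2 Nat.prime_two
        exact pow_le_pow_left₀ (padicNorm.nonneg _) this 2
      · exact (hmul 5 Nat.prime_five).trans v3
      · intro q hq h2 h5 _
        exact v1 q (Finset.mem_filter.mp hq).2.1 h2 h5)
    rw [hz]
    simp
  have hintB : ∀ᶠ n : ℕ in atTop,
      (-2 * (TT N Y n * BB N n) : ℚ) = ((-2 * (TT N Y n * BB N n)).num : ℚ) := by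
    filter_upwards [hbig] with n hn
    obtain ⟨z, hz⟩ := asm_isInt (x := TT N Y n * BB N n) (by
      intro p hp
      obtain ⟨v1, v2, v3⟩ := asm_val_BB hN hn.1
      refine asm_norm_TT_mul_le hN hn.1 hn.2 v1 v2 v3 ?_ p hp
      intro q hq h2 h5 h100
      obtain ⟨hqp, _, _, qA, qC, a, g, e1, e2, e3, e4, e5, e6⟩ := saved_spec hN hn.1 hq
      exact BB_saved hN hn.1 hqp h2 h5 e1 e2 e3 e4 e5 e6 h100)
    have : (-2 * (TT N Y n * BB N n) : ℚ) = ((-2 * z : ℤ) : ℚ) := by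
      rw [hz]; push_cast; ring
    rw [this, Rat.num_intCast]
  -- apply Hata's lemma
  have hQreal : ∀ᶠ n : ℕ in atTop,
      (((TT N Y n * AA N n).num : ℤ) : ℝ) = ((TT N Y n * AA N n : ℚ) : ℝ) := by
    filter_upwards [hintA] with n hn
    have : ((((TT N Y n * AA N n).num : ℤ) : ℚ) : ℝ) = ((TT N Y n * AA N n : ℚ) : ℝ) := by
      rw [← hn]
    exact_mod_cast this
  have hPreal : ∀ᶠ n : ℕ in atTop,
      (((-2 * (TT N Y n * BB N n)).num : ℤ) : ℝ) = ((-2 * (TT N Y n * BB N n) : ℚ) : ℝ) := by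
    filter_upwards [hintB] with n hn
    have : ((((-2 * (TT N Y n * BB N n)).num : ℤ) : ℚ) : ℝ) =
        ((-2 * (TT N Y n * BB N n) : ℚ) : ℝ) := by
      rw [← hn]
    exact_mod_cast this
  have hQ0 : ∀ᶠ n : ℕ in atTop, (TT N Y n * AA N n).num ≠ 0 := by
    refine Eventually.of_forall fun n => ?_
    intro h
    have h1 : TT N Y n * AA N n = 0 := Rat.num_eq_zero.mp h
    have h2 := hTA n
    rw [h1] at h2
    have h3 : (0 : ℝ) < (TT N Y n : ℝ) := by exact_mod_cast asm_TT_pos N Y n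
    have h4 := hpos n
    have h5 : (0 : ℝ) < (TT N Y n : ℝ) * ((1 / 10) * (100 * 4 ^ N) ^ n *
        ((PowerSeries.coeff ((3 * N - 1) * n) (Fser N ^ n) : ℚ) : ℝ)) := by positivity
    rw [← h2] at h5
    simp at h5
  have hQlim : Tendsto (fun n : ℕ => Real.log |(((TT N Y n * AA N n).num : ℤ) : ℝ)| / n) atTop
      (𝓝 σ₀) := by
    refine hlogQ.congr' ?_
    filter_upwards [hQreal] with n hn
    rw [hn]
  have hσ₀0 : 0 ≤ σ₀ := by
    refine ge_of_tendsto hQlim ?_
    filter_upwards [hQ0] with n hn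
    apply div_nonneg _ (Nat.cast_nonneg n)
    apply Real.log_nonneg
    have : 1 ≤ |(TT N Y n * AA N n).num| := Int.one_le_abs hn
    exact_mod_cast this
  have hS' : s ≤ S := hs
  have hτle : τ ≤ τ₀ := by
    rw [hτ₀, hd]
    linarith
  have hτ₀0 : 0 < τ₀ := lt_of_lt_of_le hτ0 hτle
  have hσle : σ₀ ≤ σ := by
    have := hαy y hy hy1
    rw [hσ₀, hd]
    linarith
  have hHata := hata (x := Real.pi) (Q := fun n => (TT N Y n * AA N n).num)
    (P := fun n => (-2 * (TT N Y n * BB N n)).num) (σ := σ₀) (τ := τ₀) hσ₀0 hτ₀0 hQ0 hQlim ?_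
  · refine hHata.trans ?_
    rw [EReal.coe_le_coe_iff]
    have : σ₀ / τ₀ ≤ σ / τ := by
      apply div_le_div₀ (hσ₀0.trans hσle) hσle hτ0 hτle
    linarith
  · intro ε hε
    set K' : ℝ := max K 1 with hK'
    have hK'0 : 0 < K' := lt_of_lt_of_le one_pos (le_max_right _ _)
    have hlim : Tendsto (fun n : ℕ => (Real.log 2 + Real.log K') / n + Real.log (TT N Y n : ℝ) / n
        + Real.log B) atTop (𝓝 (-τ₀)) := by
      have h1 : Tendsto (fun n : ℕ => (Real.log 2 + Real.log K') / (n : ℝ)) atTop (𝓝 0) :=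
        tendsto_const_div_atTop_nhds_zero_nat _
      have h2 := (h1.add hTT).add_const (Real.log B)
      have h3 : (0 + d) + Real.log B = -τ₀ := by
        rw [hτ₀]; ring
      rw [h3] at h2
      exact h2
    have hlt : ∀ᶠ n : ℕ in atTop, (Real.log 2 + Real.log K') / n + Real.log (TT N Y n : ℝ) / n
        + Real.log B < -τ₀ + ε := hlim.eventually_lt_const (by linarith)
    filter_upwards [hlt, hQreal, hPreal, eventually_gt_atTop 0] with n hn hq hp hn0
    rw [hq, hp]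
    have hn' : (0 : ℝ) < n := by exact_mod_cast hn0
    have hT0 : (0 : ℝ) < (TT N Y n : ℝ) := by exact_mod_cast asm_TT_pos N Y n
    have hform : ((TT N Y n * AA N n : ℚ) : ℝ) * Real.pi -
        ((-2 * (TT N Y n * BB N n) : ℚ) : ℝ) =
        2 * (TT N Y n : ℝ) * ((AA N n : ℝ) * (Real.pi / 2) + (BB N n : ℝ)) := by
      push_cast; ring
    have hnorm : |(AA N n : ℝ) * (Real.pi / 2) + (BB N n : ℝ)| = ‖segInt (RR N n)‖ := by
      rw [segInt_RR hN n]
      have : (AA N n : ℂ) * ((Real.pi : ℂ) / 2) + (BB N n : ℂ) =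
          (((AA N n : ℝ) * (Real.pi / 2) + (BB N n : ℝ) : ℝ) : ℂ) := by
        push_cast; ring
      rw [this, Complex.norm_real, Real.norm_eq_abs]
    rw [hform, abs_mul, abs_of_pos (by positivity : (0 : ℝ) < 2 * (TT N Y n : ℝ)), hnorm]
    have hBn : 0 < B ^ n := pow_pos hB n
    calc 2 * (TT N Y n : ℝ) * ‖segInt (RR N n)‖ ≤ 2 * (TT N Y n : ℝ) * (K' * B ^ n) := by
          apply mul_le_mul_of_nonneg_left _ (by positivity)
          exact (hU n).trans (mul_le_mul_of_nonneg_right (le_max_left _ _) hBn.le)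
      _ = Real.exp (((Real.log 2 + Real.log K') / n + Real.log (TT N Y n : ℝ) / n
            + Real.log B) * n) := by
          have : ((Real.log 2 + Real.log K') / n + Real.log (TT N Y n : ℝ) / n
            + Real.log B) * n = Real.log 2 + Real.log K' + Real.log (TT N Y n : ℝ) +
              n * Real.log B := by
            field_simp
          rw [this, ← Real.log_pow, Real.exp_add, Real.exp_add, Real.exp_add,
            Real.exp_log (by norm_num), Real.exp_log hK'0, Real.exp_log hT0, Real.exp_log hBn]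
          ring
      _ ≤ Real.exp (-(τ₀ - ε) * n) := by
          apply Real.exp_le_exp.mpr
          apply mul_le_mul_of_nonneg_right _ hn'.le
          linarith

end Vale.Agent.P021
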