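import Mathlib

open Polynomial Filter Topology

namespace Vale.Agent.P021

/-- `∫_{-2}^{2} f(-1+iy) dy`. -/
noncomputable def segInt (f : ℂ → ℂ) : ℂ := ∫ y in (-2 : ℝ)..2, f (-1 + (y : ℂ) * Complex.I)

/-- `XX k = ∫ (s^2-25)^k` over the segment. -/
noncomputable def XX (k : ℤ) : ℂ := segInt (fun s => (s ^ 2 - 25) ^ k)

/-- coefficient of `π/2` in `XX k`. -/
def aco (k : ℤ) : ℚ :=
  if 0 ≤ k then 0 else (-1) ^ k.natAbs * ((2 * k.natAbs - 2).choose (k.natAbs - 1) : ℚ) /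
    10 ^ (2 * k.natAbs - 1)

/-- `C = M n + 1`, `M = 3N-1`. -/
def CC (N n : ℕ) : ℕ := (3 * N - 1) * n + 1

/-- `f_n(τ) = (τ+25)^{Nn} (τ^2+56τ+800)^{2Nn}`. -/
noncomputable def fpoly (N n : ℕ) : ℤ[X] :=
  (X + C 25) ^ (N * n) * (X ^ 2 + C 56 * X + C 800) ^ (2 * N * n)

/-- `R_n(s) = f_n(s^2-25)/(s^2-25)^C`. -/
noncomputable def RR (N n : ℕ) (s : ℂ) : ℂ :=
  (s ^ 2) ^ (N * n) * (s ^ 4 + 6 * s ^ 2 + 25) ^ (2 * N * n) / (s ^ 2 - 25) ^ CC N n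

/-- the `π/2`-coefficient of the linear form. -/
noncomputable def AA (N n : ℕ) : ℚ :=
  ∑ j ∈ Finset.range (5 * N * n + 1), ((fpoly N n).coeff j : ℚ) * aco ((j : ℤ) - CC N n)

/-- generating series -/
noncomputable def Fser (N : ℕ) : PowerSeries ℚ :=
  ((PowerSeries.X ^ 2 + 2 * PowerSeries.X + 2) * (2 * PowerSeries.X ^ 2 + 2 * PowerSeries.X + 1))
    ^ (2 * N) * (1 + PowerSeries.X) ^ (2 * N) * (PowerSeries.mk (fun _ => (1 : ℚ))) ^ (4 * N + 2)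

/-- value of the generating function -/
noncomputable def Fval (N : ℕ) (y : ℝ) : ℝ :=
  ((y ^ 2 + 2 * y + 2) * (2 * y ^ 2 + 2 * y + 1)) ^ (2 * N) * (1 + y) ^ (2 * N) /
    (1 - y) ^ (4 * N + 2)

/-- `5 qA - 2 qC - [qA even]` -/
def kk (qA qC : ℕ) : ℤ := 5 * qA - 2 * qC - (if Even qA then 1 else 0)

/-- upper end of the interval of saved primes, divided by `n` -/
def up (N qA qC : ℕ) : ℚ :=
  if qC = 0 then (2 * N : ℚ) / qA else min ((2 * N : ℚ) / qA) ((3 * N - 1 : ℚ) / qC)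

/-- lower end of the interval of saved primes, divided by `n` -/
def lo (N qA qC : ℕ) : ℚ :=
  max (max ((2 * N : ℚ) / (qA + 1)) ((3 * N - 1 : ℚ) / (qC + 1))) ((4 * N + 2 : ℚ) / kk qA qC)

/-- the pairs `(qA, qC)` used -/
def FF (N Y : ℕ) : Finset (ℕ × ℕ) :=
  ((Finset.Icc 1 Y) ×ˢ (Finset.range (2 * Y))).filter
    (fun q => 0 < kk q.1 q.2 ∧ lo N q.1 q.2 < up N q.1 q.2)

/-- the saved primes -/
def SavedSet (N Y n : ℕ) : Finset ℕ :=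
  (Finset.Icc 1 (2 * N * n)).filter
    (fun p => p.Prime ∧ ∃ q ∈ FF N Y, lo N q.1 q.2 * n < p ∧ (p : ℚ) ≤ up N q.1 q.2 * n)

end Vale.Agent.P021
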