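import Vale.Agent.P021.MathlibUsed

namespace Vale.Agent.P021

/-- The exponents `ν > 0` such that `0 < |x - p/q| < q ^ (-ν)` holds for infinitely many pairs of
coprime integers `p`, `q` with `q ≥ 2`. -/
def approxExponents (x : ℝ) : Set ℝ :=
  {ν : ℝ | 0 < ν ∧ {pq : ℤ × ℤ | IsCoprime pq.1 pq.2 ∧ 2 ≤ pq.2 ∧
    0 < |x - (pq.1 : ℝ) / (pq.2 : ℝ)| ∧
    |x - (pq.1 : ℝ) / (pq.2 : ℝ)| < (pq.2 : ℝ) ^ (-ν)}.Infinite}

/-- The irrationality exponent, an element of `[-∞, ∞]`. -/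
noncomputable def irrationalityExponent (x : ℝ) : EReal :=
  ⨆ ν ∈ approxExponents x, (ν : EReal)

end Vale.Agent.P021
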