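import Mathlib
import Vale.Agent.P021.Defs

open Filter Topology

namespace Vale.Agent.P021

theorem hata_bound {x : ℝ} {Q P : ℕ → ℤ} {n0 : ℕ} {s s' t : ℝ} (hs : 0 ≤ s)
    (ht : 0 < t) (hss : s' ≤ s) (hr : 0 < t + s' - s)
    (h1 : ∀ n : ℕ, n0 ≤ n → Q n ≠ 0)
    (h2 : ∀ n : ℕ, n0 ≤ n → Real.exp (s' * n) ≤ |(Q n : ℝ)|)
    (h3 : ∀ n : ℕ, n0 ≤ n → |(Q n : ℝ)| ≤ Real.exp (s * n))
    (h4 : ∀ n : ℕ, n0 ≤ n → |(Q n : ℝ) * x - P n| ≤ Real.exp (-t * n))
    (p q : ℤ) (hq : 2 ≤ q) (hx : 0 < |x - (p : ℝ) / (q : ℝ)|) :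
    Real.exp (-(s * (n0 + 1 + s / (t + s' - s)))) *
      ((2 * q : ℝ) ^ (-(1 + s / (t + s' - s)))) ≤ |x - (p : ℝ) / (q : ℝ)| := by
  set r : ℝ := t + s' - s with hrdef
  have hq0 : (0 : ℝ) < q := by
    have : (0 : ℤ) < q := by omega
    exact_mod_cast this
  have h2q : (1 : ℝ) ≤ 2 * q := by
    have : (2 : ℝ) ≤ q := by exact_mod_cast hq
    linarith
  have h2q0 : (0 : ℝ) < 2 * q := by linarith
  have hlog : 0 ≤ Real.log (2 * q) := Real.log_nonneg h2q
  -- general lower bound when the fractions differ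
  have key : ∀ n : ℕ, n0 ≤ n → Real.log (2 * q) ≤ t * n → P n * q ≠ p * Q n →
      1 / (2 * (q : ℝ)) ≤ |(Q n : ℝ)| * |x - (p : ℝ) / q| := by
    intro n hn hlt hne
    have hne' : (1 : ℝ) ≤ |(Q n : ℝ) * p - P n * q| := by
      have : (1 : ℤ) ≤ |Q n * p - P n * q| := by
        apply Int.one_le_abs
        intro h0
        apply hne
        linarith
      exact_mod_cast this
    have hsmall : |(Q n : ℝ) * x - P n| ≤ 1 / (2 * q) := by
      refine (h4 n hn).trans ?_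
      rw [show -t * (n : ℝ) = -(t * n) by ring, Real.exp_neg, one_div]
      apply inv_anti₀ h2q0
      calc (2 * q : ℝ) = Real.exp (Real.log (2 * q)) := (Real.exp_log h2q0).symm
        _ ≤ Real.exp (t * n) := Real.exp_le_exp.mpr hlt
    have e1 : (Q n : ℝ) * p - P n * q =
        q * ((Q n : ℝ) * x - P n) - (q : ℝ) * (Q n * (x - (p : ℝ) / q)) := by
      field_simp
      ring
    have h5 : (1 : ℝ) ≤ q * (1 / (2 * q)) + q * (|(Q n : ℝ)| * |x - (p : ℝ) / q|) := by
      refine hne'.trans ?_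
      rw [e1]
      refine (abs_sub _ _).trans ?_
      rw [abs_mul, abs_mul, abs_mul, abs_of_pos hq0]
      gcongr
    have h6 : (q : ℝ) * (1 / (2 * q)) = 1 / 2 := by
      field_simp
    rw [h6] at h5
    rw [div_le_iff₀ h2q0]
    nlinarith
  -- conclusion from an index `n` with a bound
  have fin : ∀ n : ℕ, n0 ≤ n → (n : ℝ) ≤ n0 + 1 + s / r + Real.log (2 * q) / r →
      1 / (2 * (q : ℝ)) ≤ |(Q n : ℝ)| * |x - (p : ℝ) / q| →
      Real.exp (-(s * (n0 + 1 + s / r))) * ((2 * q : ℝ) ^ (-(1 + s / r))) ≤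
        |x - (p : ℝ) / (q : ℝ)| := by
    intro n hn hnle h
    have h5 : 1 / (2 * (q : ℝ)) ≤ Real.exp (s * n) * |x - (p : ℝ) / q| :=
      h.trans (mul_le_mul_of_nonneg_right (h3 n hn) (abs_nonneg _))
    have h6 : Real.exp (-(s * n)) * (1 / (2 * (q : ℝ))) ≤ |x - (p : ℝ) / q| := by
      calc Real.exp (-(s * n)) * (1 / (2 * (q : ℝ))) ≤
            Real.exp (-(s * n)) * (Real.exp (s * n) * |x - (p : ℝ) / q|) :=
            mul_le_mul_of_nonneg_left h5 (Real.exp_pos _).le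
        _ = |x - (p : ℝ) / q| := by
            rw [← mul_assoc, ← Real.exp_add]
            simp
    refine le_trans ?_ h6
    rw [Real.rpow_def_of_pos h2q0, ← Real.exp_add, one_div, ← Real.exp_log (inv_pos.mpr h2q0),
      ← Real.exp_add, Real.log_inv]
    apply Real.exp_le_exp.mpr
    have h7 : s * (n : ℝ) ≤ s * (n0 + 1 + s / r + Real.log (2 * q) / r) :=
      mul_le_mul_of_nonneg_left hnle hs
    have h8 : Real.log (2 * q) * -(1 + s / r) = -Real.log (2 * q) - s * (Real.log (2 * q) / r) := by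
      ring
    rw [h8]
    nlinarith
  -- the index n1
  set n1 : ℕ := n0 + ⌈Real.log (2 * q) / t⌉₊ with hn1
  have hn1le : (n1 : ℝ) ≤ n0 + 1 + s / r + Real.log (2 * q) / r := by
    have h5 : (⌈Real.log (2 * q) / t⌉₊ : ℝ) < Real.log (2 * q) / t + 1 :=
      Nat.ceil_lt_add_one (div_nonneg hlog ht.le)
    have h6 : Real.log (2 * q) / t ≤ Real.log (2 * q) / r := by
      apply div_le_div_of_nonneg_left hlog hr
      rw [hrdef]
      linarith
    have h7 : 0 ≤ s / r := div_nonneg hs hr.le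
    rw [hn1]
    push_cast
    linarith
  have hn1log : ∀ n : ℕ, n1 ≤ n → Real.log (2 * q) ≤ t * n := by
    intro n hn
    have h5 : Real.log (2 * q) / t ≤ ⌈Real.log (2 * q) / t⌉₊ := Nat.le_ceil _
    have h6 : (⌈Real.log (2 * q) / t⌉₊ : ℝ) ≤ n := by
      have : ⌈Real.log (2 * q) / t⌉₊ ≤ n := by omega
      exact_mod_cast this
    have h7 := h5.trans h6
    rw [div_le_iff₀ ht] at h7
    linarith
  have hn01 : n0 ≤ n1 := by omega
  by_cases hc : P n1 * q ≠ p * Q n1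
  · exact fin n1 hn01 hn1le (key n1 hn01 (hn1log n1 le_rfl) hc)
  · push Not at hc
    -- there is a failure after n1
    have hex : ∃ n : ℕ, n1 ≤ n ∧ P n * q ≠ p * Q n := by
      by_contra hno
      push Not at hno
      have h5 : ∀ n : ℕ, n1 ≤ n → |x - (p : ℝ) / q| ≤ Real.exp (-t * n) := by
        intro n hn
        have hQn : (Q n : ℝ) ≠ 0 := by exact_mod_cast h1 n (hn01.trans hn)
        have hQ1 : (1 : ℝ) ≤ |(Q n : ℝ)| := by
          have : (1 : ℤ) ≤ |Q n| := Int.one_le_abs (h1 n (hn01.trans hn))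
          exact_mod_cast this
        have h6 : (P n : ℝ) * q = p * Q n := by exact_mod_cast hno n hn
        have h7 : (Q n : ℝ) * x - P n = Q n * (x - (p : ℝ) / q) := by
          have : (P n : ℝ) = p * Q n / q := by
            rw [eq_div_iff hq0.ne']
            exact h6
          rw [this]
          field_simp
        have h8 := h4 n (hn01.trans hn)
        rw [h7, abs_mul] at h8
        refine le_trans ?_ h8
        nlinarith [abs_nonneg (x - (p : ℝ) / q)]
      have h9 : Tendsto (fun n : ℕ => Real.exp (-t * n)) atTop (𝓝 0) := by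
        apply Real.tendsto_exp_atBot.comp
        apply Tendsto.const_mul_atTop_of_neg (by linarith) tendsto_natCast_atTop_atTop
      have h10 : |x - (p : ℝ) / q| ≤ 0 := by
        apply ge_of_tendsto h9
        filter_upwards [eventually_ge_atTop n1] with n hn
        exact h5 n hn
      linarith
    classical
    set n2 := Nat.find hex with hn2
    obtain ⟨hn2a, hn2b⟩ := Nat.find_spec hex
    have hmin : ∀ m : ℕ, m < n2 → n1 ≤ m → P m * q = p * Q m := by
      intro m hm hm1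
      have := Nat.find_min hex hm
      push Not at this
      exact this hm1
    have hlt : n1 < n2 := by
      rcases Nat.lt_or_ge n1 n2 with h | h
      · exact h
      · exfalso
        have : n2 = n1 := le_antisymm h hn2a
        rw [← hn2, this] at hn2b
        exact hn2b hc
    obtain ⟨m, hm⟩ : ∃ m, n2 = m + 1 := ⟨n2 - 1, by omega⟩
    have hm1 : n1 ≤ m := by omega
    have hmeq := hmin m (by omega) hm1
    have hkey := key n2 (by omega) (hn1log n2 hn2a) hn2b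
    refine fin n2 (by omega) ?_ hkey
    -- bound for n2
    have hm0 : n0 ≤ m := by omega
    have h6 : (P m : ℝ) * q = p * Q m := by exact_mod_cast hmeq
    have h7 : (Q m : ℝ) * x - P m = Q m * (x - (p : ℝ) / q) := by
      have : (P m : ℝ) = p * Q m / q := by
        rw [eq_div_iff hq0.ne']
        exact h6
      rw [this]
      field_simp
    have h8 := h4 m hm0
    rw [h7, abs_mul] at h8
    have h9 : Real.exp (s' * m) * |x - (p : ℝ) / q| ≤ Real.exp (-t * m) :=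
      (mul_le_mul_of_nonneg_right (h2 m hm0) (abs_nonneg _)).trans h8
    have h10 : |x - (p : ℝ) / q| ≤ Real.exp (-t * m - s' * m) := by
      have : |x - (p : ℝ) / q| = Real.exp (-(s' * m)) * (Real.exp (s' * m) * |x - (p : ℝ) / q|) := by
        rw [← mul_assoc, ← Real.exp_add]
        simp
      rw [this]
      calc Real.exp (-(s' * m)) * (Real.exp (s' * m) * |x - (p : ℝ) / q|) ≤
            Real.exp (-(s' * m)) * Real.exp (-t * m) :=
            mul_le_mul_of_nonneg_left h9 (Real.exp_pos _).le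
        _ = Real.exp (-t * m - s' * m) := by
            rw [← Real.exp_add]
            congr 1
            ring
    have h11 : 1 / (2 * (q : ℝ)) ≤ Real.exp (s * n2) * Real.exp (-t * m - s' * m) :=
      hkey.trans (mul_le_mul (h3 n2 (by omega)) h10 (abs_nonneg _) (Real.exp_pos _).le)
    rw [← Real.exp_add, one_div, ← Real.exp_log (inv_pos.mpr h2q0), Real.exp_le_exp,
      Real.log_inv, hm] at h11
    push_cast at h11
    have h12 : r * m ≤ s + Real.log (2 * q) := by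
      rw [hrdef]
      linarith
    have h13 : (m : ℝ) ≤ s / r + Real.log (2 * q) / r := by
      rw [← add_div, le_div_iff₀ hr]
      linarith
    have h14 : (0 : ℝ) ≤ n0 := Nat.cast_nonneg _
    rw [hm]
    push_cast
    linarith

theorem hata {x : ℝ} {Q P : ℕ → ℤ} {σ τ : ℝ} (hσ : 0 ≤ σ) (hτ : 0 < τ)
    (hQ0 : ∀ᶠ n in atTop, Q n ≠ 0)
    (hQ : Tendsto (fun n : ℕ => Real.log |(Q n : ℝ)| / n) atTop (𝓝 σ))
    (hP : ∀ ε > 0, ∀ᶠ n : ℕ in atTop, |(Q n : ℝ) * x - P n| ≤ Real.exp (-(τ - ε) * n)) :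
    irrationalityExponent x ≤ ((1 + σ / τ : ℝ) : EReal) := by
  rw [irrationalityExponent]
  refine iSup₂_le fun ν hν => ?_
  rw [EReal.coe_le_coe_iff]
  by_contra hlt
  push Not at hlt
  obtain ⟨hν0, hinf⟩ := hν
  -- choose ε
  have hcont : Tendsto (fun ε : ℝ => 1 + (σ + ε) / (τ - 3 * ε)) (𝓝 0) (𝓝 (1 + (σ + 0) / (τ - 3 * 0))) := by
    apply Tendsto.const_add
    apply Tendsto.div
    · exact Tendsto.const_add _ tendsto_id
    · exact Tendsto.const_sub _ (Tendsto.const_mul _ tendsto_id)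
    · simpa using hτ.ne'
  simp only [add_zero, mul_zero, sub_zero] at hcont
  have hev1 : ∀ᶠ ε : ℝ in 𝓝[>] 0, 1 + (σ + ε) / (τ - 3 * ε) < ν :=
    (hcont.eventually_lt_const hlt).filter_mono nhdsWithin_le_nhds
  have hev2 : ∀ᶠ ε : ℝ in 𝓝[>] 0, 3 * ε < τ := by
    have : Tendsto (fun ε : ℝ => 3 * ε) (𝓝 0) (𝓝 (3 * 0)) := Tendsto.const_mul _ tendsto_id
    rw [mul_zero] at this
    exact (this.eventually_lt_const hτ).filter_mono nhdsWithin_le_nhds
  obtain ⟨ε, ⟨hε1, hε2⟩, hε0⟩ := ((hev1.and hev2).and self_mem_nhdsWithin).exists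
  have hε0' : 0 < ε := hε0
  -- eventually statements
  have hev3 : ∀ᶠ n : ℕ in atTop, Real.log |(Q n : ℝ)| / n < σ + ε :=
    hQ.eventually_lt_const (by linarith)
  have hev4 : ∀ᶠ n : ℕ in atTop, σ - ε < Real.log |(Q n : ℝ)| / n :=
    hQ.eventually_const_lt (by linarith)
  obtain ⟨n0, hn0⟩ := eventually_atTop.mp
    ((((hQ0.and hev3).and hev4).and (hP ε hε0')).and (eventually_gt_atTop 0))
  have h1 : ∀ n : ℕ, n0 ≤ n → Q n ≠ 0 := fun n hn => (hn0 n hn).1.1.1.1
  have hlogexp : ∀ n : ℕ, n0 ≤ n → |(Q n : ℝ)| = Real.exp (Real.log |(Q n : ℝ)|) := by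
    intro n hn
    rw [Real.exp_log]
    exact abs_pos.mpr (by exact_mod_cast h1 n hn)
  have h2 : ∀ n : ℕ, n0 ≤ n → Real.exp ((σ - ε) * n) ≤ |(Q n : ℝ)| := by
    intro n hn
    rw [hlogexp n hn]
    apply Real.exp_le_exp.mpr
    have h5 := (hn0 n hn).1.1.2
    have h6 : (0 : ℝ) < n := by exact_mod_cast (hn0 n hn).2
    rw [lt_div_iff₀ h6] at h5
    exact h5.le
  have h3 : ∀ n : ℕ, n0 ≤ n → |(Q n : ℝ)| ≤ Real.exp ((σ + ε) * n) := by
    intro n hn
    rw [hlogexp n hn]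
    apply Real.exp_le_exp.mpr
    have h5 := (hn0 n hn).1.1.1.2
    have h6 : (0 : ℝ) < n := by exact_mod_cast (hn0 n hn).2
    rw [div_lt_iff₀ h6] at h5
    exact h5.le
  have h4 : ∀ n : ℕ, n0 ≤ n → |(Q n : ℝ) * x - P n| ≤ Real.exp (-(τ - ε) * n) :=
    fun n hn => (hn0 n hn).1.2
  have hr : τ - ε + (σ - ε) - (σ + ε) = τ - 3 * ε := by ring
  have hr0 : 0 < τ - 3 * ε := by linarith
  set μ : ℝ := 1 + (σ + ε) / (τ - 3 * ε) with hμ
  set c : ℝ := Real.exp (-((σ + ε) * (n0 + 1 + (σ + ε) / (τ - 3 * ε)))) with hc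
  have hc0 : 0 < c := Real.exp_pos _
  have hbound : ∀ p q : ℤ, 2 ≤ q → 0 < |x - (p : ℝ) / (q : ℝ)| →
      c * ((2 * q : ℝ) ^ (-μ)) ≤ |x - (p : ℝ) / (q : ℝ)| := by
    intro p q hq hx
    have := hata_bound (x := x) (Q := Q) (P := P) (n0 := n0) (s := σ + ε) (s' := σ - ε)
      (t := τ - ε) (by linarith) (by linarith) (by linarith) (by rw [hr]; exact hr0) h1 h2 h3 h4
      p q hq hx
    rw [hr] at this
    exact this
  -- q is bounded
  set B : ℝ := (2 ^ μ / c) ^ (1 / (ν - μ)) with hB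
  have hνμ : 0 < ν - μ := by linarith
  apply hinf
  -- finite box
  set N : ℤ := ⌈B⌉ with hN
  set M : ℤ := ⌈B * (|x| + 1)⌉ with hM
  apply Set.Finite.subset ((Set.finite_Icc (-M) M).prod (Set.finite_Icc (0 : ℤ) N))
  rintro ⟨p, q⟩ ⟨_, hq, hx, hxlt⟩
  simp only at hq hx hxlt
  have hq0 : (0 : ℝ) < q := by
    have : (0 : ℤ) < q := by omega
    exact_mod_cast this
  have h5 := (hbound p q hq hx).trans_lt hxlt
  have hqB : (q : ℝ) ≤ B := by
    have h6 : (q : ℝ) ^ (ν - μ) ≤ 2 ^ μ / c := by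
      rw [le_div_iff₀ hc0]
      rw [Real.mul_rpow (by norm_num) hq0.le, Real.rpow_neg (by norm_num : (0 : ℝ) ≤ 2)] at h5
      have h2μ : (0 : ℝ) < 2 ^ μ := Real.rpow_pos_of_pos (by norm_num) _
      have hqν : (0 : ℝ) < (q : ℝ) ^ ν := Real.rpow_pos_of_pos hq0 _
      have h7 : c * ((2 ^ μ)⁻¹ * (q : ℝ) ^ (-μ)) * (2 ^ μ * (q : ℝ) ^ ν) ≤
          (q : ℝ) ^ (-ν) * (2 ^ μ * (q : ℝ) ^ ν) :=
        mul_le_mul_of_nonneg_right h5.le (by positivity)
      have h8 : c * ((2 ^ μ)⁻¹ * (q : ℝ) ^ (-μ)) * (2 ^ μ * (q : ℝ) ^ ν) =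
          (q : ℝ) ^ (ν - μ) * c := by
        rw [show ν - μ = -μ + ν by ring, Real.rpow_add hq0]
        field_simp
      have h9 : (q : ℝ) ^ (-ν) * (2 ^ μ * (q : ℝ) ^ ν) = 2 ^ μ := by
        rw [mul_comm ((2 : ℝ) ^ μ), ← mul_assoc, ← Real.rpow_add hq0]
        simp
      rw [h8, h9] at h7
      exact h7
    rw [hB]
    calc (q : ℝ) = ((q : ℝ) ^ (ν - μ)) ^ (1 / (ν - μ)) := by
          rw [← Real.rpow_mul hq0.le, mul_one_div_cancel hνμ.ne', Real.rpow_one]
      _ ≤ (2 ^ μ / c) ^ (1 / (ν - μ)) :=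
          Real.rpow_le_rpow (Real.rpow_nonneg hq0.le _) h6 (by positivity)
  have hle1 : (q : ℝ) ^ (-ν) ≤ 1 := by
    apply Real.rpow_le_one_of_one_le_of_nonpos
    · have : (1 : ℤ) ≤ q := by omega
      exact_mod_cast this
    · linarith
  have hpq : |(p : ℝ)| ≤ B * (|x| + 1) := by
    have h6 : |(p : ℝ) / q| ≤ |x| + 1 := by
      have : (p : ℝ) / q = x - (x - (p : ℝ) / q) := by ring
      rw [this]
      refine (abs_sub _ _).trans ?_
      linarith
    rw [abs_div, abs_of_pos hq0, div_le_iff₀ hq0] at h6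
    have h7 : 0 ≤ |x| + 1 := by positivity
    nlinarith
  simp only [Set.mem_prod, Set.mem_Icc]
  have hpM : |(p : ℝ)| ≤ M := hpq.trans (Int.le_ceil _)
  have hpM' : |p| ≤ M := by exact_mod_cast hpM
  have hqN : (q : ℝ) ≤ N := hqB.trans (Int.le_ceil _)
  have hqN' : q ≤ N := by exact_mod_cast hqN
  rw [abs_le] at hpM'
  refine ⟨⟨hpM'.1, hpM'.2⟩, by omega, hqN'⟩

end Vale.Agent.P021
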