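import Vale.Agent.P021.Basic

namespace Vale.Agent.P021

/-- Two-sided bound for `log ((1+x)/(1-x))`. -/
theorem logs_pair {x : ℝ} (h0 : 0 ≤ x) (h1 : x < 1) :
    2 * (x + x ^ 3 / 3) ≤ Real.log ((1 + x) / (1 - x)) ∧
      Real.log ((1 + x) / (1 - x)) ≤ 2 * (x + x ^ 3 / 3) + 2 * (x ^ 5 / (1 - x ^ 2)) := by
  have h2 := Real.sum_range_le_log_div h0 h1 2
  have h3 := Real.log_div_le_sum_range_add h0 h1 2
  simp only [Finset.sum_range_succ, Finset.sum_range_zero] at h2 h3
  norm_num at h2 h3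
  constructor <;> linarith

theorem logs_Fval (N : ℕ) {y : ℝ} (hy : 0 < y) (hy1 : y < 1) :
    Real.log (Fval N y / y ^ (3 * N - 1)) =
      ((2 * N : ℕ) : ℝ) * Real.log ((y ^ 2 + 2 * y + 2) * (2 * y ^ 2 + 2 * y + 1) * (1 + y)) -
      ((4 * N + 2 : ℕ) : ℝ) * Real.log (1 - y) - ((3 * N - 1 : ℕ) : ℝ) * Real.log y := by
  have h1 : 0 < 1 - y := by linarith
  unfold Fval
  rw [← mul_pow, Real.log_div (by positivity) (by positivity),
    Real.log_div (by positivity) (by positivity), Real.log_pow, Real.log_pow, Real.log_pow]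

/-- `log` of the value of the generating polynomial at `299/1250`. -/
theorem logs_A : Real.log (((299 / 1250 : ℝ) ^ 2 + 2 * (299 / 1250) + 2) *
    (2 * (299 / 1250 : ℝ) ^ 2 + 2 * (299 / 1250) + 1) * (1 + 299 / 1250)) ≤
      Real.log 5 + 97932324 / 10 ^ 11 := by
  have e : (((299 / 1250 : ℝ) ^ 2 + 2 * (299 / 1250) + 2) *
    (2 * (299 / 1250 : ℝ) ^ 2 + 2 * (299 / 1250) + 1) * (1 + 299 / 1250)) =
      5 * ((1 + 7475302950249 / 15266264365450249) / (1 - 7475302950249 / 15266264365450249)) := by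
    norm_num
  have h := (logs_pair (x := 7475302950249 / 15266264365450249) (by norm_num) (by norm_num)).2
  rw [e, Real.log_mul (by norm_num) (by norm_num)]
  have h2 : 2 * ((7475302950249 / 15266264365450249 : ℝ) +
      (7475302950249 / 15266264365450249) ^ 3 / 3) +
      2 * ((7475302950249 / 15266264365450249) ^ 5 / (1 - (7475302950249 / 15266264365450249) ^ 2))
      ≤ 97932324 / 10 ^ 11 := by norm_num
  linarith

theorem logs_B : Real.log 3 - 2 * Real.log 2 + 1429730469 / 10 ^ 11 ≤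
    Real.log (1 - 299 / 1250) := by
  have e : (1 - 299 / 1250 : ℝ) = 3 / 2 ^ 2 * ((1 + 9 / 1259) / (1 - 9 / 1259)) := by norm_num
  have h := (logs_pair (x := 9 / 1259) (by norm_num) (by norm_num)).1
  rw [e, Real.log_mul (by norm_num) (by norm_num), Real.log_div (by norm_num) (by norm_num),
    Real.log_pow]
  have h2 : (1429730469 / 10 ^ 11 : ℝ) ≤ 2 * ((9 / 1259 : ℝ) + (9 / 1259) ^ 3 / 3) := by norm_num
  push_cast
  linarith

theorem logs_C : Real.log 2 + Real.log 3 - 2 * Real.log 5 - 333890128 / 10 ^ 11 ≤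
    Real.log (299 / 1250) := by
  have e : (299 / 1250 : ℝ) = 2 * 3 / 5 ^ 2 / ((1 + 1 / 599) / (1 - 1 / 599)) := by norm_num
  have h := (logs_pair (x := 1 / 599) (by norm_num) (by norm_num)).2
  rw [e, Real.log_div (by norm_num) (by norm_num), Real.log_div (by norm_num) (by norm_num),
    Real.log_mul (by norm_num) (by norm_num), Real.log_pow]
  have h2 : 2 * ((1 / 599 : ℝ) + (1 / 599) ^ 3 / 3) + 2 * ((1 / 599) ^ 5 / (1 - (1 / 599) ^ 2)) ≤
      333890128 / 10 ^ 11 := by norm_num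
  push_cast
  linarith

theorem logs_D : Real.log (2945852 / 10 ^ 8) ≤
    Real.log 3 - 2 * Real.log 2 - 2 * Real.log 5 - 1821420947 / 10 ^ 11 := by
  have e : (2945852 / 10 ^ 8 : ℝ) = 3 / (2 ^ 2 * 5 ^ 2) /
      ((1 + 13537 / 1486463) / (1 - 13537 / 1486463)) := by norm_num
  have h := (logs_pair (x := 13537 / 1486463) (by norm_num) (by norm_num)).1
  rw [e, Real.log_div (by norm_num) (by norm_num), Real.log_div (by norm_num) (by norm_num),
    Real.log_mul (by norm_num) (by norm_num), Real.log_pow, Real.log_pow]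
  have h2 : (1821420947 / 10 ^ 11 : ℝ) ≤
      2 * ((13537 / 1486463 : ℝ) + (13537 / 1486463) ^ 3 / 3) := by norm_num
  push_cast
  linarith

theorem logs_E : Real.log (7257 / 10) ≤
    4 * Real.log 2 + 2 * Real.log 3 + Real.log 5 + 788550000 / 10 ^ 11 := by
  have e : (7257 / 10 : ℝ) = 2 ^ 4 * 3 ^ 2 * 5 *
      ((1 + 19 / 4819) / (1 - 19 / 4819)) := by norm_num
  have h := (logs_pair (x := 19 / 4819) (by norm_num) (by norm_num)).2
  rw [e, Real.log_mul (by norm_num) (by norm_num), Real.log_mul (by norm_num) (by norm_num),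
    Real.log_mul (by norm_num) (by norm_num), Real.log_pow, Real.log_pow]
  have h2 : 2 * ((19 / 4819 : ℝ) + (19 / 4819) ^ 3 / 3) +
      2 * ((19 / 4819) ^ 5 / (1 - (19 / 4819) ^ 2)) ≤ 788550000 / 10 ^ 11 := by norm_num
  push_cast
  linarith

theorem logs_sigma : Real.log (100 * 4 ^ 1850) +
    Real.log (Fval 1850 (299 / 1250) / (299 / 1250 : ℝ) ^ (3 * 1850 - 1)) +
    ((4 * ((1850 : ℕ) : ℝ) + 2) - 1198.0308 - 5 * (((1850 : ℕ) : ℝ) + 1) / 2 * Real.log 2)
      ≤ 21485.418 := by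
  have e1 : Real.log (100 * 4 ^ 1850) = 3702 * Real.log 2 + 2 * Real.log 5 := by
    have e2 : Real.log (100 * 4 ^ 1850) = Real.log (2 ^ 2 * 5 ^ 2) + 1850 * Real.log (2 ^ 2) := by
      have e3 : (2 ^ 2 * 5 ^ 2 : ℝ) = 100 := by norm_num
      have e4 : (2 ^ 2 : ℝ) = 4 := by norm_num
      rw [e3, e4, Real.log_mul (by norm_num) (pow_ne_zero _ (by norm_num)), Real.log_pow]
      norm_num
    rw [e2, Real.log_mul (by norm_num) (by norm_num), Real.log_pow, Real.log_pow]
    push_cast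
    ring
  rw [e1, logs_Fval 1850 (y := 299 / 1250) (by norm_num) (by norm_num)]
  have c1 : ((2 * 1850 : ℕ) : ℝ) = 3700 := by norm_num
  have c2 : ((4 * 1850 + 2 : ℕ) : ℝ) = 7402 := by norm_num
  have c3 : ((3 * 1850 - 1 : ℕ) : ℝ) = 5549 := by norm_num
  have c4 : ((1850 : ℕ) : ℝ) = 1850 := by norm_num
  rw [c1, c2, c3, c4]
  have hA := logs_A
  have hB := logs_B
  have hC := logs_C
  have h2 := Real.log_two_lt_d9
  have h2' := Real.log_two_gt_d9
  have h3 := Real.log_three_gt_d9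
  have h3' := Real.log_three_lt_d9
  have h5 := Real.log_five_lt_d9
  have h5' := Real.log_five_gt_d9
  norm_num at hA hB hC h2 h2' h3 h3' h5 h5' ⊢
  linarith

theorem logs_tau : (3521.103 : ℝ) ≤
    -(Real.log ((2945852 / 10 ^ 8 : ℝ) ^ 1850 * Real.sqrt (7257 / 10)) +
      ((4 * ((1850 : ℕ) : ℝ) + 2) - 1198.0308 - 5 * (((1850 : ℕ) : ℝ) + 1) / 2 * Real.log 2)) := by
  have hs : 0 < Real.sqrt (7257 / 10) := Real.sqrt_pos.2 (by norm_num)
  rw [Real.log_mul (pow_ne_zero _ (by norm_num)) hs.ne', Real.log_pow,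
    Real.log_sqrt (by norm_num)]
  have c4 : ((1850 : ℕ) : ℝ) = 1850 := by norm_num
  rw [c4]
  have hD := logs_D
  have hE := logs_E
  have h2 := Real.log_two_lt_d9
  have h2' := Real.log_two_gt_d9
  have h3 := Real.log_three_gt_d9
  have h3' := Real.log_three_lt_d9
  have h5 := Real.log_five_lt_d9
  have h5' := Real.log_five_gt_d9
  norm_num at hD hE h2 h2' h3 h3' h5 h5' ⊢
  linarith

end Vale.Agent.P021
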