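import Mathlib.Algebra.Ring.IsFormallyReal
import Mathlib.Analysis.Fourier.RiemannLebesgueLemma
import Mathlib.Analysis.Real.Pi.Bounds
import Mathlib.Analysis.Real.Pi.Irrational
import Mathlib.Analysis.SpecialFunctions.Complex.Arctan
import Mathlib.Computability.Reduce
import Mathlib.Data.Int.Star
import Mathlib.Data.Rat.Star
import Mathlib.NumberTheory.Chebyshev
import Mathlib.NumberTheory.LSeries.PrimesInAP
import Mathlib.NumberTheory.LSeries.SumCoeff
import Mathlib.NumberTheory.Padics.PadicNorm
import Mathlib.NumberTheory.Zsqrtd.GaussianInt
import Mathlib.Order.CompletePartialOrder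
import Mathlib.RingTheory.Etale.Weakly
import Mathlib.RingTheory.Flat.TorsionFree
import Mathlib.RingTheory.PowerSeries.Basic
import Mathlib.RingTheory.SimpleRing.Principal
import Mathlib.RingTheory.TotallySplit
import Mathlib.Tactic
import Mathlib.Topology.UniformSpace.Uniformizable

/-! The part of Mathlib that the development of this folder uses. -/
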