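import Vale.Agent.P021.Basic

namespace Vale.Agent.P021

/-- scaled contribution of `qA = a`, written with kernel-friendly operations -/
def sumcertF (A B P Q R a : ℕ) : ℕ :=
  (fun c : ℕ => (fun l2 : ℕ =>
    Nat.sub (Nat.sub (Nat.sub (Nat.div P a) l2)
      (Nat.sub (Nat.div R (Nat.sub (Nat.sub (Nat.mul 5 a) (Nat.mul 2 c))
        (Nat.sub 1 (Nat.mod a 2)))) l2)) 1) (Nat.div Q (Nat.succ c)))
    (Nat.div (Nat.mul B a) A)

theorem sumcertF_eq (A B P Q R a : ℕ) : sumcertF A B P Q R a =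
    P / a - Q / (B * a / A + 1) - (R / (5 * a - 2 * (B * a / A) - (1 - a % 2)) -
      Q / (B * a / A + 1)) - 1 := rfl

/-- binary tree summation -/
def sumcertT (f : ℕ → ℕ) (k : ℕ) : ℕ → ℕ :=
  Nat.rec (motive := fun _ => ℕ → ℕ) f
    (fun j ih a => Nat.add (ih a) (ih (Nat.add a (Nat.pow 2 j)))) k

theorem sumcertT_eq (f : ℕ → ℕ) (k : ℕ) : ∀ a, sumcertT f k a =
    ∑ i ∈ Finset.range (2 ^ k), f (a + i) := by
  induction k with
  | zero => intro a; simp [sumcertT]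
  | succ k ih =>
    intro a
    have h : sumcertT f (k + 1) a = sumcertT f k a + sumcertT f k (a + 2 ^ k) := rfl
    rw [h, ih, ih, pow_succ, mul_two, Finset.sum_range_add]
    congr 1
    exact Finset.sum_congr rfl (fun i _ => by rw [add_assoc])

theorem sumcert_kk {N a : ℕ} (hN : 1 ≤ N) (ha : 1 ≤ a) :
    kk a ((3 * N - 1) * a / (2 * N)) =
      ((5 * a - 2 * ((3 * N - 1) * a / (2 * N)) - (1 - a % 2) : ℕ) : ℤ) ∧
    0 < 5 * a - 2 * ((3 * N - 1) * a / (2 * N)) - (1 - a % 2) ∧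
    2 * ((3 * N - 1) * a / (2 * N)) < 3 * a := by
  set c : ℕ := (3 * N - 1) * a / (2 * N) with hc
  have h1 : c * (2 * N) ≤ (3 * N - 1) * a := Nat.div_mul_le_self _ _
  have h2 : 2 * c < 3 * a := by
    by_contra h
    push Not at h
    have h3 : 3 * a * N ≤ 2 * c * N := Nat.mul_le_mul_right N h
    have h4 : (3 * N - 1) * a = 3 * a * N - a := by
      rw [Nat.sub_mul]; ring_nf
    have h5 : 0 < 3 * a * N := by positivity
    have h6 : c * (2 * N) = 2 * c * N := by ring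
    omega
  refine ⟨?_, by omega, h2⟩
  unfold kk
  by_cases he : Even a
  · have h3 : a % 2 = 0 := Nat.even_iff.mp he
    rw [if_pos he, h3]
    omega
  · have h3 : a % 2 = 1 := Nat.not_even_iff.mp he
    rw [if_neg he, h3]
    omega

theorem sumcert_core {N Y S a c k U L2 L3 V : ℕ} (hN : 1 ≤ N) (hS : 0 < S) (ha : 1 ≤ a)
    (haY : a ≤ Y) (hk1 : kk a c = (k : ℤ)) (hk2 : 0 < k) (hk3 : 2 * c < 3 * a)
    (hkc : k + 2 * c ≤ 5 * a)
    (hc1n : c * (2 * N) ≤ (3 * N - 1) * a) (hc2n : (3 * N - 1) * a < (c + 1) * (2 * N))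
    (hUn : U * a ≤ S * (2 * N)) (hL2n : S * (3 * N - 1) < (L2 + 1) * (c + 1))
    (hL3n : S * (4 * N + 2) < (L3 + 1) * k) (hV2 : V + 1 + L2 ≤ U) (hV3 : V + 1 + L3 ≤ U)
    (hV0 : 0 < V) :
    (a, c) ∈ FF N Y ∧ (V : ℚ) / S ≤ up N a c - lo N a c := by
  have hSq : (0 : ℚ) < S := by exact_mod_cast hS
  have haq : (0 : ℚ) < a := by exact_mod_cast ha
  have hkq : (0 : ℚ) < k := by exact_mod_cast hk2
  have hNq : (1 : ℚ) ≤ N := by exact_mod_cast hN
  have h3N : ((3 * N - 1 : ℕ) : ℚ) = 3 * N - 1 := by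
    rw [Nat.cast_sub (by omega)]; push_cast; ring
  have hc1 : (c : ℚ) * (2 * N) ≤ (3 * N - 1) * a := by
    have h' : ((c * (2 * N) : ℕ) : ℚ) ≤ (((3 * N - 1) * a : ℕ) : ℚ) := by exact_mod_cast hc1n
    rw [Nat.cast_mul (3 * N - 1) a, h3N] at h'
    push_cast at h'
    exact h'
  have hc2 : ((3 : ℚ) * N - 1) * a < (c + 1) * (2 * N) := by
    have h' : (((3 * N - 1) * a : ℕ) : ℚ) < (((c + 1) * (2 * N) : ℕ) : ℚ) := by
      exact_mod_cast hc2n
    rw [Nat.cast_mul (3 * N - 1) a, h3N] at h'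
    push_cast at h'
    exact h'
  have hkle : (k : ℚ) ≤ 5 * a - 2 * c := by
    have h' : ((k + 2 * c : ℕ) : ℚ) ≤ ((5 * a : ℕ) : ℚ) := by exact_mod_cast hkc
    push_cast at h'
    linarith
  have hup : up N a c = 2 * N / a := by
    unfold up
    by_cases h0 : c = 0
    · rw [if_pos h0]
    · rw [if_neg h0, min_eq_left]
      have hc0 : (0 : ℚ) < c := by
        have : 0 < c := Nat.pos_of_ne_zero h0
        exact_mod_cast this
      rw [div_le_div_iff₀ haq hc0]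
      linarith
  have hU1 : (U : ℚ) / S ≤ 2 * N / a := by
    have h' : ((U * a : ℕ) : ℚ) ≤ ((S * (2 * N) : ℕ) : ℚ) := by exact_mod_cast hUn
    push_cast at h'
    rw [div_le_div_iff₀ hSq haq]
    linarith
  have hl2 : ((3 : ℚ) * N - 1) / (c + 1) ≤ (L2 + 1) / S := by
    have h' : ((S * (3 * N - 1) : ℕ) : ℚ) < (((L2 + 1) * (c + 1) : ℕ) : ℚ) := by
      exact_mod_cast hL2n
    rw [Nat.cast_mul S (3 * N - 1), h3N] at h'
    push_cast at h'
    rw [div_le_div_iff₀ (by positivity) hSq]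
    linarith
  have hl3 : ((4 : ℚ) * N + 2) / k ≤ (L3 + 1) / S := by
    have h' : ((S * (4 * N + 2) : ℕ) : ℚ) < (((L3 + 1) * k : ℕ) : ℚ) := by
      exact_mod_cast hL3n
    push_cast at h'
    rw [div_le_div_iff₀ hkq hSq]
    linarith
  have hl1 : (2 * N : ℚ) / (a + 1) ≤ ((4 : ℚ) * N + 2) / k := by
    rw [div_le_div_iff₀ (by positivity) hkq]
    have h1 := mul_le_mul_of_nonneg_left hkle (by positivity : (0 : ℚ) ≤ 2 * N)
    linarith
  have e2 : ((L2 : ℚ) + 1) / S ≤ ((U : ℚ) - V) / S := by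
    apply div_le_div_of_nonneg_right _ hSq.le
    have h' : ((V + 1 + L2 : ℕ) : ℚ) ≤ (U : ℚ) := by exact_mod_cast hV2
    push_cast at h'
    linarith
  have e3 : ((L3 : ℚ) + 1) / S ≤ ((U : ℚ) - V) / S := by
    apply div_le_div_of_nonneg_right _ hSq.le
    have h' : ((V + 1 + L3 : ℕ) : ℚ) ≤ (U : ℚ) := by exact_mod_cast hV3
    push_cast at h'
    linarith
  have hlo : lo N a c ≤ ((U : ℚ) - V) / S := by
    unfold lo
    rw [hk1]
    refine max_le (max_le ?_ ?_) ?_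
    · exact hl1.trans (hl3.trans e3)
    · exact hl2.trans e2
    · rw [Int.cast_natCast]
      exact hl3.trans e3
  have hfin : (V : ℚ) / S ≤ up N a c - lo N a c := by
    rw [hup]
    have : ((U : ℚ) - V) / S = U / S - V / S := by ring
    rw [this] at hlo
    linarith
  have hVq : (0 : ℚ) < (V : ℚ) / S := by
    have : (0 : ℚ) < V := by exact_mod_cast hV0
    positivity
  refine ⟨?_, hfin⟩
  unfold FF
  rw [Finset.mem_filter, Finset.mem_product, Finset.mem_Icc, Finset.mem_range]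
  refine ⟨⟨⟨ha, haY⟩, ?_⟩, ?_, ?_⟩
  · change c < 2 * Y
    omega
  · change 0 < kk a c
    rw [hk1]
    exact_mod_cast hk2
  · change lo N a c < up N a c
    linarith

theorem sumcert_term {N Y S a : ℕ} (hN : 1 ≤ N) (hS : 0 < S) (ha : 1 ≤ a) (haY : a ≤ Y)
    (hpos : 0 < sumcertF (2 * N) (3 * N - 1) (S * (2 * N)) (S * (3 * N - 1))
      (S * (4 * N + 2)) a) :
    (a, (3 * N - 1) * a / (2 * N)) ∈ FF N Y ∧
    ((sumcertF (2 * N) (3 * N - 1) (S * (2 * N)) (S * (3 * N - 1)) (S * (4 * N + 2)) a : ℕ) : ℚ)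
      / S ≤ up N a ((3 * N - 1) * a / (2 * N)) - lo N a ((3 * N - 1) * a / (2 * N)) := by
  obtain ⟨hk1, hk2, hk3⟩ := sumcert_kk (a := a) hN ha
  rw [sumcertF_eq] at hpos
  rw [sumcertF_eq]
  have hc1 : (3 * N - 1) * a / (2 * N) * (2 * N) ≤ (3 * N - 1) * a := Nat.div_mul_le_self _ _
  have hc2 : (3 * N - 1) * a < ((3 * N - 1) * a / (2 * N) + 1) * (2 * N) :=
    Nat.lt_mul_of_div_lt (Nat.lt_succ_self _) (by omega)
  generalize (3 * N - 1) * a / (2 * N) = c at *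
  have hL3 : S * (4 * N + 2) < (S * (4 * N + 2) / (5 * a - 2 * c - (1 - a % 2)) + 1) *
      (5 * a - 2 * c - (1 - a % 2)) := Nat.lt_mul_of_div_lt (Nat.lt_succ_self _) hk2
  have hkc : 5 * a - 2 * c - (1 - a % 2) + 2 * c ≤ 5 * a := by omega
  generalize 5 * a - 2 * c - (1 - a % 2) = k at *
  have hU : S * (2 * N) / a * a ≤ S * (2 * N) := Nat.div_mul_le_self _ _
  have hL2 : S * (3 * N - 1) < (S * (3 * N - 1) / (c + 1) + 1) * (c + 1) :=
    Nat.lt_mul_of_div_lt (Nat.lt_succ_self _) (Nat.succ_pos _)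
  generalize S * (2 * N) / a = U at *
  generalize S * (3 * N - 1) / (c + 1) = L2 at *
  generalize S * (4 * N + 2) / k = L3 at *
  exact sumcert_core hN hS ha haY hk1 hk2 hk3 hkc hc1 hc2 hU hL2 hL3 (by omega) (by omega) hpos

theorem sumcert_sum {N Y S : ℕ} (hN : 1 ≤ N) (hS : 0 < S) :
    ((∑ a ∈ Finset.Icc 1 Y, sumcertF (2 * N) (3 * N - 1) (S * (2 * N)) (S * (3 * N - 1))
      (S * (4 * N + 2)) a : ℕ) : ℚ) / S ≤
    ∑ q ∈ FF N Y, (up N q.1 q.2 - lo N q.1 q.2) := by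
  set f : ℕ → ℕ := fun a => sumcertF (2 * N) (3 * N - 1) (S * (2 * N)) (S * (3 * N - 1))
      (S * (4 * N + 2)) a with hf
  set φ : ℕ → ℕ × ℕ := fun a => (a, (3 * N - 1) * a / (2 * N)) with hφ
  have hinj : Function.Injective φ := fun a b h => (Prod.mk.inj h).1
  have hpos : ∀ q ∈ FF N Y, 0 ≤ up N q.1 q.2 - lo N q.1 q.2 := by
    intro q hq
    unfold FF at hq
    rw [Finset.mem_filter] at hq
    linarith [hq.2.2]
  have h1 : ((∑ a ∈ Finset.Icc 1 Y, f a : ℕ) : ℚ) / S =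
      ∑ a ∈ (Finset.Icc 1 Y).filter (fun a => 0 < f a), (f a : ℚ) / S := by
    rw [Nat.cast_sum, Finset.sum_div, Finset.sum_filter]
    refine Finset.sum_congr rfl (fun a _ => ?_)
    by_cases h : 0 < f a
    · rw [if_pos h]
    · rw [if_neg h]
      have : f a = 0 := by omega
      rw [this]; simp
  have h2 : ∑ a ∈ (Finset.Icc 1 Y).filter (fun a => 0 < f a), (f a : ℚ) / S ≤
      ∑ a ∈ (Finset.Icc 1 Y).filter (fun a => 0 < f a),
        (up N (φ a).1 (φ a).2 - lo N (φ a).1 (φ a).2) := by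
    refine Finset.sum_le_sum (fun a ha => ?_)
    rw [Finset.mem_filter, Finset.mem_Icc] at ha
    exact (sumcert_term hN hS ha.1.1 ha.1.2 ha.2).2
  have h3 : ∑ a ∈ (Finset.Icc 1 Y).filter (fun a => 0 < f a),
        (up N (φ a).1 (φ a).2 - lo N (φ a).1 (φ a).2) =
      ∑ q ∈ ((Finset.Icc 1 Y).filter (fun a => 0 < f a)).image φ,
        (up N q.1 q.2 - lo N q.1 q.2) := by
    rw [Finset.sum_image (fun a _ b _ h => hinj h)]
  have h4 : ((Finset.Icc 1 Y).filter (fun a => 0 < f a)).image φ ⊆ FF N Y := by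
    intro q hq
    rw [Finset.mem_image] at hq
    obtain ⟨a, ha, rfl⟩ := hq
    rw [Finset.mem_filter, Finset.mem_Icc] at ha
    exact (sumcert_term hN hS ha.1.1 ha.1.2 ha.2).1
  have h5 := Finset.sum_le_sum_of_subset_of_nonneg h4 (fun q hq _ => hpos q hq)
  linarith

theorem sumcert_tree {N S k : ℕ} (hN : 1 ≤ N) (hS : 0 < S) {T A B P Q R : ℕ}
    (hA : A = 2 * N) (hB : B = 3 * N - 1) (hP : P = S * (2 * N)) (hQ : Q = S * (3 * N - 1))
    (hR : R = S * (4 * N + 2)) (hT : T ≤ sumcertT (sumcertF A B P Q R) k 1) :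
    ((T : ℚ) / S) ≤ ∑ q ∈ FF N (2 ^ k), (up N q.1 q.2 - lo N q.1 q.2) := by
  subst hA hB hP hQ hR
  refine le_trans ?_ (sumcert_sum hN hS)
  apply div_le_div_of_nonneg_right _ (by positivity)
  rw [sumcertT_eq] at hT
  have h : Finset.Icc 1 (2 ^ k) = Finset.Ico 1 (2 ^ k + 1) := by
    ext x; simp [Finset.mem_Icc, Finset.mem_Ico]
  rw [h, Finset.sum_Ico_eq_sum_range, Nat.add_sub_cancel]
  exact_mod_cast hT

theorem sumcert_kernel : Nat.ble (11980428 * 10 ^ 11)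
    (sumcertT (sumcertF 3700 5549 (3700 * 10 ^ 15) (5549 * 10 ^ 15) (7402 * 10 ^ 15)) 17 1)
      = true := by
  decide +kernel

/-- the numeric lower bound for `N = 1850`, `Y = 2^17 = 131072` -/
theorem sumcert : ((11980428 / 10000 : ℚ) : ℝ) ≤
    ((∑ q ∈ FF 1850 (2 ^ 17), (up 1850 q.1 q.2 - lo 1850 q.1 q.2) : ℚ) : ℝ) := by
  have h2 := sumcert_tree (N := 1850) (S := 10 ^ 15) (by norm_num) (by norm_num) (by norm_num)
    (by norm_num) (by norm_num) (by norm_num) (by norm_num)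
    (Nat.le_of_ble_eq_true sumcert_kernel)
  have h3 : (11980428 / 10000 : ℚ) ≤
      ∑ q ∈ FF 1850 (2 ^ 17), (up 1850 q.1 q.2 - lo 1850 q.1 q.2) := by
    refine le_trans (le_of_eq ?_) h2
    norm_num
  exact_mod_cast h3

end Vale.Agent.P021
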