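import Vale.Agent.P021.Basic

namespace Vale.Agent.P021

open GaussianInt

theorem xnn_expand (k : ℕ) : ∃ c : ℕ → GaussianInt, ∀ u : ℂ,
    ((-3 + 4 * Complex.I) + (1 - 3 * Complex.I) * u + (-2 + 2 * Complex.I) * u ^ 2) ^ k =
      ∑ j ∈ Finset.range (2 * k + 1), toComplex (c j) * u ^ j := by
  set p : Polynomial GaussianInt := Polynomial.C (⟨-3, 4⟩ : GaussianInt) +
    Polynomial.C (⟨1, -3⟩ : GaussianInt) * Polynomial.X +
    Polynomial.C (⟨-2, 2⟩ : GaussianInt) * Polynomial.X ^ 2 with hp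
  have hdeg : (p ^ k).natDegree < 2 * k + 1 := by
    have h1 : p.natDegree ≤ 2 := by
      rw [hp]
      compute_degree
    have h2 : (p ^ k).natDegree ≤ k * 2 := Polynomial.natDegree_pow_le_of_le k h1
    omega
  refine ⟨fun j => (p ^ k).coeff j, fun u => ?_⟩
  have h3 : (p ^ k).eval₂ toComplex u =
      ∑ j ∈ Finset.range (2 * k + 1), toComplex ((p ^ k).coeff j) * u ^ j :=
    Polynomial.eval₂_eq_sum_range' _ hdeg u
  rw [← h3, Polynomial.eval₂_pow]
  congr 1
  rw [hp]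
  simp only [Polynomial.eval₂_add, Polynomial.eval₂_mul, Polynomial.eval₂_C, Polynomial.eval₂_X,
    Polynomial.eval₂_pow, toComplex_def]
  push_cast
  ring

theorem xnn_integral_pow (j : ℕ) : ∫ u in (0 : ℝ)..1, (u : ℂ) ^ j = 1 / ((j : ℂ) + 1) := by
  have h1 : (fun u : ℝ => (u : ℂ) ^ j) = fun u : ℝ => ((u ^ j : ℝ) : ℂ) := by
    funext u
    push_cast
    rfl
  rw [h1, intervalIntegral.integral_ofReal, integral_pow]
  push_cast
  simp

theorem xnn_XX (k : ℕ) : XX k = 4 * ∫ u in (0 : ℝ)..1,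
    ((4 + 4 * Complex.I) * ((-3 + 4 * Complex.I) + (1 - 3 * Complex.I) * (u : ℂ) +
      (-2 + 2 * Complex.I) * (u : ℂ) ^ 2)) ^ k := by
  have h1 := intervalIntegral.integral_comp_mul_sub (a := 0) (b := 1) (c := (4 : ℝ))
    (fun y : ℝ => ((-1 + (y : ℂ) * Complex.I) ^ 2 - 25) ^ (k : ℤ)) (by norm_num) 2
  have h2 : XX k = ∫ y in (4 * 0 - 2 : ℝ)..(4 * 1 - 2),
      ((-1 + (y : ℂ) * Complex.I) ^ 2 - 25) ^ (k : ℤ) := by
    rw [XX, segInt]
    norm_num
  rw [h2]
  have h3 : ∫ y in (4 * 0 - 2 : ℝ)..(4 * 1 - 2),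
      ((-1 + (y : ℂ) * Complex.I) ^ 2 - 25) ^ (k : ℤ) =
      4 * ((4 : ℝ)⁻¹ • ∫ y in (4 * 0 - 2 : ℝ)..(4 * 1 - 2),
      ((-1 + (y : ℂ) * Complex.I) ^ 2 - 25) ^ (k : ℤ)) := by
    rw [Complex.real_smul]
    push_cast
    ring
  rw [h3, ← h1]
  congr 1
  apply intervalIntegral.integral_congr
  intro u _
  simp only [zpow_natCast]
  congr 1
  push_cast
  linear_combination (8 * (u : ℂ) ^ 2 - 4 * u - 12) * Complex.I_sq

theorem xnn_conj (k : ℕ) : (starRingEnd ℂ) (XX k) = XX k := by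
  have h1 : ∀ y : ℝ, (starRingEnd ℂ) (((-1 + (y : ℂ) * Complex.I) ^ 2 - 25) ^ (k : ℤ)) =
      (((-1 + ((-y : ℝ) : ℂ) * Complex.I) ^ 2 - 25) ^ (k : ℤ)) := by
    intro y
    simp only [zpow_natCast]
    rw [map_pow]
    congr 1
    simp only [map_sub, map_pow, map_add, map_neg, map_one, map_mul, Complex.conj_ofReal,
      Complex.conj_I, map_ofNat]
    push_cast
    ring
  have h2 : (starRingEnd ℂ) (XX k) = ∫ y in (-2 : ℝ)..2,
      (starRingEnd ℂ) (((-1 + (y : ℂ) * Complex.I) ^ 2 - 25) ^ (k : ℤ)) := by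
    rw [XX, segInt, intervalIntegral.integral_of_le (by norm_num), ← integral_conj,
      ← intervalIntegral.integral_of_le (by norm_num)]
  rw [h2, intervalIntegral.integral_congr (fun y _ => h1 y)]
  have h3 := intervalIntegral.integral_comp_neg (a := -2) (b := 2)
    (fun y : ℝ => (((-1 + (y : ℂ) * Complex.I) ^ 2 - 25) ^ (k : ℤ)))
  rw [neg_neg] at h3
  rw [XX, segInt]
  exact h3

theorem XX_nonneg (k D : ℕ) (hD : ∀ j, 1 ≤ j → j ≤ 2 * k + 1 → j ∣ D) :
    ∃ z : ℤ, (D : ℂ) * XX k = (z : ℂ) ∧ (32 : ℤ) ^ k ∣ z ^ 2 := by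
  obtain ⟨c, hc⟩ := xnn_expand k
  have hd : ∀ j ∈ Finset.range (2 * k + 1), ∃ d : ℕ, D = (j + 1) * d := by
    intro j hj
    rw [Finset.mem_range] at hj
    exact hD (j + 1) (by omega) (by omega)
  choose! d hd using hd
  have h1 : (D : ℂ) * XX k = toComplex ((⟨4, 4⟩ : GaussianInt) ^ k *
      (4 * ∑ j ∈ Finset.range (2 * k + 1), c j * (d j : GaussianInt))) := by
    rw [xnn_XX]
    have h2 : (fun u : ℝ => ((4 + 4 * Complex.I) * ((-3 + 4 * Complex.I) +
        (1 - 3 * Complex.I) * (u : ℂ) + (-2 + 2 * Complex.I) * (u : ℂ) ^ 2)) ^ k) =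
        fun u : ℝ => (4 + 4 * Complex.I) ^ k * ∑ j ∈ Finset.range (2 * k + 1),
          toComplex (c j) * (u : ℂ) ^ j := by
      funext u
      rw [mul_pow, hc]
    rw [h2, intervalIntegral.integral_const_mul, intervalIntegral.integral_finsetSum]
    · have h3 : ∀ j ∈ Finset.range (2 * k + 1),
          ∫ u in (0 : ℝ)..1, toComplex (c j) * (u : ℂ) ^ j =
            toComplex (c j) * (1 / ((j : ℂ) + 1)) := by
        intro j _
        rw [intervalIntegral.integral_const_mul, xnn_integral_pow]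
      rw [Finset.sum_congr rfl h3]
      rw [map_mul, map_pow, map_mul, map_sum]
      have h4 : toComplex (⟨4, 4⟩ : GaussianInt) = 4 + 4 * Complex.I := by
        rw [toComplex_def]
        push_cast
        ring
      rw [h4]
      have h5 : (D : ℂ) * ∑ j ∈ Finset.range (2 * k + 1), toComplex (c j) * (1 / ((j : ℂ) + 1)) =
          ∑ j ∈ Finset.range (2 * k + 1), toComplex (c j * (d j : GaussianInt)) := by
        rw [Finset.mul_sum]
        apply Finset.sum_congr rfl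
        intro j hj
        rw [map_mul, map_natCast]
        have h6 : (D : ℂ) = ((j : ℂ) + 1) * (d j : ℂ) := by
          have := hd j hj
          exact_mod_cast congrArg (fun t : ℕ => (t : ℂ)) this
        have h7 : ((j : ℂ) + 1) ≠ 0 := Nat.cast_add_one_ne_zero j
        rw [h6]
        field_simp
      rw [← h5]
      simp only [map_ofNat]
      ring
    · intro j _
      exact (Continuous.intervalIntegrable (by fun_prop) _ _)
  set g : GaussianInt := 4 * ∑ j ∈ Finset.range (2 * k + 1), c j * (d j : GaussianInt) with hg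
  set w : GaussianInt := (⟨4, 4⟩ : GaussianInt) ^ k * g with hw
  have him : w.im = 0 := by
    have h2 : (starRingEnd ℂ) (toComplex w) = toComplex w := by
      rw [← h1, map_mul, xnn_conj, map_natCast]
    rw [Complex.conj_eq_iff_im, ← intCast_im] at h2
    exact_mod_cast h2
  refine ⟨w.re, ?_, ?_⟩
  · rw [h1, toComplex_def, him]
    simp
  · have h2 : w.norm = w.re ^ 2 := by
      rw [Zsqrtd.norm_def, him]
      ring
    rw [← h2, hw, Zsqrtd.norm_mul]
    have h3 : ((⟨4, 4⟩ : GaussianInt) ^ k).norm = 32 ^ k := by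
      have h4 : (⟨4, 4⟩ : GaussianInt).norm = 32 := by
        rw [Zsqrtd.norm_def]
        norm_num
      have h5 : ((⟨4, 4⟩ : GaussianInt) ^ k).norm = ((⟨4, 4⟩ : GaussianInt).norm) ^ k :=
        map_pow Zsqrtd.normMonoidHom _ _
      rw [h5, h4]
    rw [h3]
    exact dvd_mul_right _ _

end Vale.Agent.P021
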